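import Vale.Agent.P188.H329.Clean

/-!
# P188, FILL block, part 11: chains of independent letters, and the FILL theorem
-/

set_option linter.all false

namespace Vale.Agent.P188.H329

open Set MeasureTheory

section chains

variable {ι : Type} {S : Type} [Group S]

/-- `b` is reached from `a` by exactly `n` moves `z ↦ z s_i(x)`, `|x| ≤ 1`, inside `G`. -/
def Reach (s : ι → ℝ → S) (G : Set S) : ℕ → S → S → Prop
  | 0, a, b => a ∈ G ∧ a = b
  | n + 1, a, b => a ∈ G ∧ ∃ i x, |x| ≤ 1 ∧ Reach s G n (a * s i x) b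

theorem Reach.left {s : ι → ℝ → S} {G : Set S} {n : ℕ} {a b : S} (h : Reach s G n a b) : a ∈ G := by
  cases n with
  | zero => exact h.1
  | succ n => exact h.1

theorem Reach.trans {s : ι → ℝ → S} {G : Set S} {n m : ℕ} {a b c : S} (h : Reach s G n a b)
    (h' : Reach s G m b c) : Reach s G (n + m) a c := by
  induction n generalizing a with
  | zero =>
    obtain ⟨_, rfl⟩ := h
    rw [zero_add]
    exact h'
  | succ n ih =>
    obtain ⟨h1, i, x, hx, h2⟩ := h
    rw [Nat.succ_add]
    exact ⟨h1, i, x, hx, ih h2⟩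

theorem Reach.right {s : ι → ℝ → S} {G : Set S} {n : ℕ} {a b : S} (h : Reach s G n a b) : b ∈ G := by
  induction n generalizing a with
  | zero =>
    obtain ⟨h1, rfl⟩ := h
    exact h1
  | succ n ih =>
    obtain ⟨h1, i, x, hx, h2⟩ := h
    exact ih h2

theorem Reach.symm {s : ι → ℝ → S} (hinv : ∀ i x, s i x * s i (-x) = 1) {G : Set S} {n : ℕ} {a b : S}
    (h : Reach s G n a b) : Reach s G n b a := by
  induction n generalizing a with
  | zero =>
    obtain ⟨h1, rfl⟩ := h
    exact ⟨h1, rfl⟩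
  | succ n ih =>
    obtain ⟨h1, i, x, hx, h2⟩ := h
    have h3 := ih h2
    have h4 : Reach s G 1 (a * s i x) a := by
      refine ⟨h2.left, i, -x, by rwa [abs_neg], ?_⟩
      have h5 : a * s i x * s i (-x) = a := by rw [mul_assoc, hinv, mul_one]
      rw [h5]
      exact ⟨h1, rfl⟩
    exact h3.trans h4

theorem Reach.mono {s : ι → ℝ → S} {G G' : Set S} (hG : G ⊆ G') {n : ℕ} {a b : S}
    (h : Reach s G n a b) : Reach s G' n a b := by
  induction n generalizing a with
  | zero => exact ⟨hG h.1, h.2⟩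
  | succ n ih =>
    obtain ⟨h1, i, x, hx, h2⟩ := h
    exact ⟨hG h1, i, x, hx, ih h2⟩

/-- parameters of the chains along the word `J` which start at `z` and stay in `G` -/
def ch (s : ι → ℝ → S) (G : Set S) : (n : ℕ) → (Fin n → ι) → S → Set (Fin n → ℝ)
  | 0, _, z => {_x | z ∈ G}
  | n + 1, J, z => {x | x 0 ∈ Icc (-1 : ℝ) 1 ∧ z ∈ G ∧
      (fun t : Fin n => x t.succ) ∈ ch s G n (fun t => J t.succ) (z * s (J 0) (x 0))}

theorem ch_subset (s : ι → ℝ → S) (G : Set S) (n : ℕ) (J : Fin n → ι) (z : S) :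
    ch s G n J z ⊆ Icc (fun _ => -1) (fun _ => 1) := by
  induction n generalizing z with
  | zero =>
    intro x _
    exact ⟨fun t => t.elim0, fun t => t.elim0⟩
  | succ n ih =>
    rintro x ⟨h1, h2, h3⟩
    have h4 := ih _ _ h3
    constructor
    · intro t
      refine Fin.cases ?_ (fun t => ?_) t
      · exact h1.1
      · exact h4.1 t
    · intro t
      refine Fin.cases ?_ (fun t => ?_) t
      · exact h1.2
      · exact h4.2 t

theorem ch_reach (s : ι → ℝ → S) (G : Set S) (n : ℕ) (J : Fin n → ι) (z : S) {x : Fin n → ℝ}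
    (hx : x ∈ ch s G n J z) : Reach s G n z (z * prS s J x) := by
  induction n generalizing z with
  | zero =>
    refine ⟨hx, ?_⟩
    simp [prS]
  | succ n ih =>
    obtain ⟨h1, h2, h3⟩ := hx
    refine ⟨h2, J 0, x 0, abs_le.2 h1, ?_⟩
    have h4 := ih _ _ h3
    have h5 : z * prS s J x = z * s (J 0) (x 0) * prS s (fun t => J t.succ) (fun t => x t.succ) := by
      simp [prS, List.ofFn_succ, mul_assoc]
    rw [h5]
    exact h4

variable [MeasurableSpace S]

theorem ch_measurable {s : ι → ℝ → S} (hm : ∀ i, Measurable fun q : S × ℝ => q.1 * s i q.2)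
    {G : Set S} (hG : MeasurableSet G) (n : ℕ) (J : Fin n → ι) :
    MeasurableSet {q : S × (Fin n → ℝ) | q.2 ∈ ch s G n J q.1} := by
  induction n with
  | zero => exact measurable_fst hG
  | succ n ih =>
    have h1 : Measurable fun q : S × (Fin (n + 1) → ℝ) =>
        ((q.1 * s (J 0) (q.2 0), fun t : Fin n => q.2 t.succ) : S × (Fin n → ℝ)) := by
      refine Measurable.prodMk ?_ ?_
      · exact (hm (J 0)).comp (measurable_fst.prodMk ((measurable_pi_apply 0).comp measurable_snd))
      · exact measurable_pi_lambda _ fun t => (measurable_pi_apply t.succ).comp measurable_snd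
    have h2 : Measurable fun q : S × (Fin (n + 1) → ℝ) => q.2 0 :=
      (measurable_pi_apply 0).comp measurable_snd
    exact (h2 measurableSet_Icc).inter ((measurable_fst hG).inter (h1 (ih fun t => J t.succ)))

theorem ch_volume {s : ι → ℝ → S} (hm : ∀ i, Measurable fun q : S × ℝ => q.1 * s i q.2)
    {G : Set S} (hG : MeasurableSet G) {θ : ENNReal} (hθ : ∀ z ∈ G, ∀ i, θ ≤ win s i G z)
    (n : ℕ) (J : Fin n → ι) {z : S} (hz : z ∈ G) : θ ^ n ≤ volume (ch s G n J z) := by
  induction n generalizing z with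
  | zero =>
    have : ch s G 0 J z = univ := by
      ext x
      simp [ch, hz]
    rw [this, pow_zero]
    simp [volume_pi]
  | succ n ih =>
    set E := MeasurableEquiv.piFinSuccAbove (fun _ : Fin (n + 1) => ℝ) 0 with hE
    have hEm := volume_preserving_piFinSuccAbove (fun _ : Fin (n + 1) => ℝ) 0
    set V : Set (ℝ × (Fin n → ℝ)) := {q | q.1 ∈ Icc (-1 : ℝ) 1 ∧
      q.2 ∈ ch s G n (fun t => J t.succ) (z * s (J 0) q.1)} with hV
    have hVm : MeasurableSet V := by
      have h1 : Measurable fun q : ℝ × (Fin n → ℝ) =>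
          ((z * s (J 0) q.1, q.2) : S × (Fin n → ℝ)) :=
        ((hm (J 0)).comp (measurable_const.prodMk measurable_fst)).prodMk measurable_snd
      exact (measurable_fst measurableSet_Icc).inter (h1 (ch_measurable hm hG n _))
    have h1 : ch s G (n + 1) J z = E ⁻¹' V := by
      ext x
      constructor
      · rintro ⟨h2, _, h3⟩
        exact ⟨h2, h3⟩
      · rintro ⟨h2, h3⟩
        exact ⟨h2, hz, h3⟩
    rw [h1, hEm.measure_preimage hVm.nullMeasurableSet]
    have h2 : (volume : Measure (ℝ × (Fin n → ℝ))) = (volume : Measure ℝ).prod volume := rfl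
    rw [h2, Measure.prod_apply hVm]
    have hmx : Measurable fun x : ℝ => z * s (J 0) x := (hm (J 0)).comp measurable_prodMk_left
    have hWm : MeasurableSet (Icc (-1 : ℝ) 1 ∩ {x | z * s (J 0) x ∈ G}) :=
      measurableSet_Icc.inter (hmx hG)
    calc θ ^ (n + 1) = θ ^ n * θ := pow_succ _ _
      _ ≤ θ ^ n * volume (Icc (-1 : ℝ) 1 ∩ {x | z * s (J 0) x ∈ G}) := by
          gcongr
          exact hθ z hz (J 0)
      _ = ∫⁻ x, (Icc (-1 : ℝ) 1 ∩ {x | z * s (J 0) x ∈ G}).indicator (fun _ => θ ^ n) x := by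
          rw [lintegral_indicator_const hWm]
      _ ≤ ∫⁻ x, volume (Prod.mk x ⁻¹' V) := by
          refine lintegral_mono fun x => ?_
          by_cases hx : x ∈ Icc (-1 : ℝ) 1 ∩ {x | z * s (J 0) x ∈ G}
          · rw [indicator_of_mem hx]
            refine (ih (fun t => J t.succ) hx.2).trans (measure_mono ?_)
            intro y hy
            exact ⟨hx.1, hy⟩
          · rw [indicator_of_notMem hx]
            exact zero_le'

end chains

/-- `z` is `z0` times a product of `c` letters of size at most `C` -/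
def InP {ι S : Type} [Group S] (s : ι → ℝ → S) (c : ℕ) (C : ℝ) (z0 z : S) : Prop :=
  ∃ (K : Fin c → ι) (y : Fin c → ℝ), (∀ t, |y t| ≤ C) ∧ z = z0 * prS s K y

/-- **FILL.** Universal bound for the number of components of a clean set in a box: only the number
of letters, the nilpotency class, the window density `θ` and the box parameters `c, C` enter. -/
theorem fill (ι : Type) [Finite ι] (r : ℕ) : ∃ n : ℕ, ∀ θ : ENNReal, θ ≠ 0 → ∀ (c : ℕ) (C : ℝ),
    ∃ N0 : ℕ, ∀ (S : Type) [Group S] [MeasurableSpace S] (s : ι → ℝ → S), Rel ι r s →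
      (∀ i, Measurable fun q : S × ℝ => q.1 * s i q.2) →
      ∀ G : Set S, MeasurableSet G → (∀ z ∈ G, ∀ i, θ ≤ win s i G z) → ∀ z0 : S,
        ∃ T : Finset S, T.card ≤ N0 ∧ (∀ t ∈ T, t ∈ G ∧ InP s c C z0 t) ∧
          ∀ z ∈ G, InP s c C z0 z → ∃ t ∈ T, Reach s G (n + n) z t := by
  classical
  obtain ⟨n, J, H⟩ := packS ι r
  refine ⟨n, fun θ hθ c C => ?_⟩
  obtain ⟨N0, hN0⟩ := H (θ ^ n) (pow_ne_zero n hθ) c C
  refine ⟨N0, fun S _ _ s hs hm G hG hwin z0 => ?_⟩
  have hinv : ∀ i x, s i x * s i (-x) = 1 := by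
    intro i x
    rw [← hs.add, add_neg_cancel, hs.zero]
  -- the bound for separated sets
  have hsep : ∀ T : Finset S, (∀ t ∈ T, t ∈ G ∧ InP s c C z0 t) →
      (∀ t ∈ T, ∀ t' ∈ T, t ≠ t' → ¬ Reach s G (n + n) t t') → T.card ≤ N0 := by
    intro T hT hT2
    have hex : ∀ l : Fin T.card, ∃ q : (Fin c → ι) × (Fin c → ℝ), (∀ t, |q.2 t| ≤ C) ∧
        (T.equivFin.symm l : S) = z0 * prS s q.1 q.2 := by
      intro l
      obtain ⟨K, y, h1, h2⟩ := (hT _ (T.equivFin.symm l).2).2
      exact ⟨(K, y), h1, h2⟩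
    choose p hp1 hp2 using hex
    refine hN0 S s hs T.card p (fun l => ch s G n J (T.equivFin.symm l : S)) hp1 ?_ ?_ ?_ ?_
    · intro l
      exact measurable_prodMk_left (ch_measurable hm hG n J)
    · intro l
      exact ch_subset s G n J _
    · intro l
      exact ch_volume hm hG hwin n J (hT _ (T.equivFin.symm l).2).1
    · intro l l' hll x hx x' hx' heq
      have h1 := ch_reach s G n J _ hx
      have h2 := ch_reach s G n J _ hx'
      have h3 : (T.equivFin.symm l : S) * prS s J x = (T.equivFin.symm l' : S) * prS s J x' := by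
        rw [hp2 l, hp2 l', mul_assoc, mul_assoc, heq]
      rw [h3] at h1
      have h4 : (T.equivFin.symm l : S) ≠ (T.equivFin.symm l' : S) := by
        intro h5
        exact hll (T.equivFin.symm.injective (Subtype.ext h5))
      exact hT2 _ (T.equivFin.symm l).2 _ (T.equivFin.symm l').2 h4
        (h1.trans (h2.symm hinv))
  -- a maximal separated set
  let Q : ℕ → Prop := fun k => ∃ T : Finset S, T.card = k ∧ (∀ t ∈ T, t ∈ G ∧ InP s c C z0 t) ∧
    ∀ t ∈ T, ∀ t' ∈ T, t ≠ t' → ¬ Reach s G (n + n) t t'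
  have hQ0 : Q 0 := ⟨∅, rfl, by simp, by simp⟩
  obtain ⟨T, hTc, hT1, hT2⟩ := Nat.findGreatest_spec (P := Q) (Nat.zero_le N0) hQ0
  refine ⟨T, hsep T hT1 hT2, hT1, fun z hz hzP => ?_⟩
  by_contra hno0
  have hno : ∀ t ∈ T, ¬ Reach s G (n + n) z t := fun t ht h => hno0 ⟨t, ht, h⟩
  have hzT : z ∉ T := by
    intro h1
    refine hno z h1 ?_
    obtain ⟨x, hx⟩ : (ch s G n J z).Nonempty := by
      rw [nonempty_iff_ne_empty]
      intro h2
      have h3 := ch_volume hm hG hwin n J hz
      rw [h2, measure_empty] at h3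
      exact pow_ne_zero n hθ (le_antisymm h3 zero_le')
    have h4 := ch_reach s G n J z hx
    exact h4.trans (h4.symm hinv)
  have h5 : (insert z T).card = T.card + 1 := Finset.card_insert_of_notMem hzT
  have h6 : ∀ t ∈ insert z T, t ∈ G ∧ InP s c C z0 t := by
    intro t ht
    rcases Finset.mem_insert.1 ht with rfl | ht
    · exact ⟨hz, hzP⟩
    · exact hT1 t ht
  have h7 : ∀ t ∈ insert z T, ∀ t' ∈ insert z T, t ≠ t' → ¬ Reach s G (n + n) t t' := by
    intro t ht t' ht' hne
    rcases Finset.mem_insert.1 ht with h8 | h8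
    · rcases Finset.mem_insert.1 ht' with h9 | h9
      · exact absurd (h8.trans h9.symm) hne
      · rw [h8]
        exact hno t' h9
    · rcases Finset.mem_insert.1 ht' with h9 | h9
      · rw [h9]
        intro h10
        exact hno t h8 (h10.symm hinv)
      · exact hT2 t h8 t' h9 hne
  have h8 : (insert z T).card ≤ N0 := hsep _ h6 h7
  have h9 := Nat.le_findGreatest (P := Q) h8 ⟨insert z T, rfl, h6, h7⟩
  omega

end Vale.Agent.P188.H329
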