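import Vale.Agent.P188.H329.PFam
import Vale.Agent.P188.H329.Fill

/-!
# P188, FILL block, part 16: the packing bound with polynomial dependence
-/

set_option linter.all false

namespace Vale.Agent.P188.H329

open Polynomial Set MeasureTheory

variable {A : Type} [NormedRing A] [NormedAlgebra ℝ A] [FiniteDimensional ℝ A] {ι : Type}
variable {e : ι → A} {r : ℕ} {P : Type} [NormedAddCommGroup P] [NormedSpace ℝ P]

/-- a common polynomial bound for finitely many polynomial functions -/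
theorem common_bound {α : Type} [Fintype α] {f : α → P → ℝ} (hf : ∀ a, f a ∈ Po P) :
    ∃ K : ℕ, ∀ a x, |f a x| ≤ K * (1 + ‖x‖) ^ K := by
  choose k hk using fun a => Po.bound (hf a)
  refine ⟨Finset.univ.sup k, fun a x => (hk a x).trans ?_⟩
  have h1 : k a ≤ Finset.univ.sup k := Finset.le_sup (Finset.mem_univ a)
  have h2 : (1 : ℝ) ≤ 1 + ‖x‖ := by linarith [norm_nonneg x]
  have h3 : (k a : ℝ) ≤ ((Finset.univ.sup k : ℕ) : ℝ) := by exact_mod_cast h1
  exact mul_le_mul h3 (pow_le_pow_right₀ h2 h1) (by positivity) (by positivity)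

theorem po_fst {c m : ℕ} (t : Fin c) :
    (fun q : (Fin c → ℝ) × (Fin m → ℝ) => q.1 t) ∈ Po ((Fin c → ℝ) × (Fin m → ℝ)) :=
  Po.lin ((ContinuousLinearMap.proj (R := ℝ) (φ := fun _ : Fin c => ℝ) t).comp
    (ContinuousLinearMap.fst ℝ (Fin c → ℝ) (Fin m → ℝ)))

theorem po_snd {c m : ℕ} (t : Fin m) :
    (fun q : (Fin c → ℝ) × (Fin m → ℝ) => q.2 t) ∈ Po ((Fin c → ℝ) × (Fin m → ℝ)) :=
  Po.lin ((ContinuousLinearMap.proj (R := ℝ) (φ := fun _ : Fin m => ℝ) t).comp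
    (ContinuousLinearMap.snd ℝ (Fin c → ℝ) (Fin m → ℝ)))

theorem region_bound [Finite ι] (h : Nil e r) (f : Frame e) {m : ℕ} (J : Fin m → ι) (c : ℕ) :
    ∃ K2 : ℕ, ∀ (K : Fin c → ι) (w : f.β r) (y : Fin c → ℝ) (x : Fin m → ℝ),
      |f.cc h (pr h K y * pr h J x) w| ≤ K2 * (1 + ‖(y, x)‖) ^ K2 := by
  classical
  haveI : Fintype ι := Fintype.ofFinite ι
  have hΘp : ∀ a : (Fin c → ι) × f.β r, (fun q : (Fin c → ℝ) × (Fin m → ℝ) =>
      f.cc h (pr h a.1 q.1 * pr h J q.2) a.2) ∈ Po ((Fin c → ℝ) × (Fin m → ℝ)) := by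
    intro a
    exact PFam.cc f (PFam.mul (PFam.pr h a.1 fun t => po_fst t) (PFam.pr h J fun t => po_snd t)) a.2
  obtain ⟨K2, hK2⟩ := common_bound hΘp
  exact ⟨K2, fun K w y x => hK2 (K, w) (y, x)⟩

theorem exists_section (h : Nil e r) (f : Frame e) :
    ∃ (L : (f.β r → ℝ) →L[ℝ] (Fin (f.T r).length → ℝ)) (x0 : Fin (f.T r).length → ℝ),
      ∀ s, f.cc h (pr h (fun t => ((f.T r).get t).1) (x0 + L s)) = s := by
  classical
  set l0 := f.T r with hl0
  set J : Fin l0.length → ι := fun t => (l0.get t).1 with hJ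
  refine ⟨ContinuousLinearMap.pi fun t =>
    if hw : (l0.get t).2.1 ∈ f.bb r then
      (l0.get t).2.2.1 • ContinuousLinearMap.proj (R := ℝ) (φ := fun _ : f.β r => ℝ)
        ⟨(l0.get t).2.1, hw⟩ else 0, fun t => (l0.get t).2.2.2, fun s => ?_⟩
  set L : (f.β r → ℝ) →L[ℝ] (Fin l0.length → ℝ) := ContinuousLinearMap.pi fun t =>
    if hw : (l0.get t).2.1 ∈ f.bb r then
      (l0.get t).2.2.1 • ContinuousLinearMap.proj (R := ℝ) (φ := fun _ : f.β r => ℝ)
        ⟨(l0.get t).2.1, hw⟩ else 0 with hL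
  have h1 : ((fun t => (l0.get t).2.2.2) + L s : Fin l0.length → ℝ) =
      fun t => Sym.val (l0.get t) (f.ext s) := by
    funext t
    show (l0.get t).2.2.2 + L s t = _
    unfold Sym.val
    rw [add_comm]
    congr 1
    rw [hL, ContinuousLinearMap.pi_apply]
    unfold Frame.ext
    by_cases hw : (l0.get t).2.1 ∈ f.bb r
    · rw [dif_pos hw, dif_pos hw]
      rfl
    · rw [dif_neg hw, dif_neg hw]
      simp
  rw [h1]
  have h2 := ev_eq_pr h l0 (f.ext s)
  rw [← h2]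
  exact f.cc_ch h s

/-- The packing bound, polynomial version. -/
theorem packQ (h : Nil e r) [Finite ι] : ∃ (n : ℕ) (J : Fin n → ι), ∀ c : ℕ, ∃ K : ℕ, 1 ≤ K ∧
    ∀ ε : ℝ, 0 < ε → ε ≤ 1 → ∀ C : ℝ, 0 ≤ C → ∀ (N : ℕ) (p : Fin N → (Fin c → ι) × (Fin c → ℝ))
      (X : Fin N → Set (Fin n → ℝ)), (∀ l t, |(p l).2 t| ≤ C) → (∀ l, MeasurableSet (X l)) →
      (∀ l, X l ⊆ Icc (fun _ => -1) (fun _ => 1)) → (∀ l, ENNReal.ofReal ε ≤ volume (X l)) →
      (∀ l l', l ≠ l' → ∀ x ∈ X l, ∀ x' ∈ X l',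
        pr h (p l).1 (p l).2 * pr h J x ≠ pr h (p l').1 (p l').2 * pr h J x') →
      (N : ℝ) ≤ (K * (1 + C) / ε) ^ K := by
  classical
  obtain ⟨f⟩ := exists_frame e
  haveI : Fintype ι := Fintype.ofFinite ι
  set l0 := f.T r with hl0
  refine ⟨l0.length, fun t => (l0.get t).1, ?_⟩
  set J : Fin l0.length → ι := fun t => (l0.get t).1 with hJ
  set Ψ : (Fin l0.length → ℝ) → (f.β r → ℝ) := fun x => f.cc h (pr h J x) with hΨ
  have hΨp : ∀ w, (fun x => Ψ x w) ∈ Po (Fin l0.length → ℝ) := fun w =>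
    PFam.cc f (PFam.pr h J fun t => po_coord t) w
  have hΨc : Continuous Ψ := continuous_pi fun w => Po.continuous (hΨp w)
  obtain ⟨L, x0, hsec⟩ : ∃ (L : (f.β r → ℝ) →L[ℝ] (Fin l0.length → ℝ)) (x0 : Fin l0.length → ℝ),
      ∀ s, Ψ (x0 + L s) = s := exists_section h f
  set Q : Set (Fin l0.length → ℝ) := Icc (fun _ => -1) (fun _ => 1) with hQ
  have hQc : IsCompact Q := isCompact_Icc
  have hQ1 : volume Q ≠ ⊤ := hQc.measure_lt_top.ne
  obtain ⟨K1, hK1, hqac⟩ := qac volume hΨp L x0 hsec hQc.isBounded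
  intro c
  obtain ⟨K2, hK2⟩ := region_bound h f J c
  set d := Fintype.card (f.β r) with hd
  obtain ⟨K, hK, hKb⟩ := pow_aux2 ((2 * K2 * 2 ^ K2) ^ d * (2 * K1) ^ K1) (K2 * d) K1
  refine ⟨K, hK, fun ε hε hε1 C hC N p X hp hXm hXQ hXε hdis => ?_⟩
  -- compact subsets
  have hKex : ∀ l, ∃ K ⊆ X l, IsCompact K ∧ ENNReal.ofReal (ε / 2) < volume K := by
    intro l
    have h1 : ENNReal.ofReal (ε / 2) < volume (X l) :=
      lt_of_lt_of_le ((ENNReal.ofReal_lt_ofReal_iff hε).2 (by linarith)) (hXε l)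
    exact (hXm l).exists_lt_isCompact h1
  choose Kc hKX hKc hKε using hKex
  set E : Fin N → Set (f.β r → ℝ) := fun l => Ψ '' Kc l with hE
  have hEc : ∀ l, IsCompact (E l) := fun l => (hKc l).image hΨc
  have hEm : ∀ l, MeasurableSet (E l) := fun l => (hEc l).measurableSet
  have hEδ : ∀ l, ENNReal.ofReal ((ε / 2 / K1) ^ K1) ≤ volume (E l) := fun l =>
    hqac (ε / 2) (by positivity) (by linarith) (Kc l) ((hKX l).trans (hXQ l))
      (hKc l).measurableSet (hKε l).le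
  set g : Fin N → A[X]ˣ := fun l => pr h (p l).1 (p l).2 with hg
  have hgm : ∀ l, g l ∈ F h := fun l => pr_mem h _ _
  set G : Fin N → Set (f.β r → ℝ) := fun l => f.tr h (g l)⁻¹ ⁻¹' E l with hG
  have hGm : ∀ l, MeasurableSet (G l) := fun l =>
    (f.tr_continuous h (inv_mem (hgm l))).measurable (hEm l)
  have hGv : ∀ l, volume (G l) = volume (E l) := fun l =>
    (f.tr_mp h (inv_mem (hgm l))).measure_preimage (hEm l).nullMeasurableSet
  have hGmem : ∀ l s, s ∈ G l → ∃ x ∈ Kc l, f.ch h s = g l * pr h J x := by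
    intro l s hs
    obtain ⟨x, hx, hxs⟩ := hs
    refine ⟨x, hx, ?_⟩
    have h1 : f.ch h (f.tr h (g l)⁻¹ s) = (g l)⁻¹ * f.ch h s := f.ch_tr h (inv_mem (hgm l)) s
    rw [← hxs] at h1
    have h2 : f.ch h (Ψ x) = pr h J x := f.ch_cc h (pr_mem h J x)
    rw [h2] at h1
    rw [h1, mul_inv_cancel_left]
  set R : ℝ := K2 * (2 + C) ^ K2 with hR
  have hR0 : 0 ≤ R := by positivity
  have hGΩ : ∀ l, G l ⊆ Metric.closedBall 0 R := by
    intro l s hs
    obtain ⟨x, hx, hxs⟩ := hGmem l s hs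
    rw [mem_closedBall_zero_iff, pi_norm_le_iff_of_nonneg hR0]
    intro w
    have h1 := hK2 (p l).1 w (p l).2 x
    have h2 : f.cc h (pr h (p l).1 (p l).2 * pr h J x) = s := by
      have : g l * pr h J x = f.ch h s := hxs.symm
      show f.cc h (g l * pr h J x) = s
      rw [this, f.cc_ch]
    rw [h2] at h1
    rw [Real.norm_eq_abs]
    refine h1.trans ?_
    have h3 : ‖((p l).2, x)‖ ≤ 1 + C := by
      rw [Prod.norm_def]
      refine max_le ?_ ?_
      · rw [pi_norm_le_iff_of_nonneg (by linarith)]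
        intro t
        rw [Real.norm_eq_abs]
        linarith [hp l t]
      · rw [pi_norm_le_iff_of_nonneg (by linarith)]
        intro t
        have h4 := hXQ l (hKX l hx)
        rw [Real.norm_eq_abs]
        have : |x t| ≤ 1 := abs_le.2 ⟨h4.1 t, h4.2 t⟩
        linarith
    have h5 : 1 + ‖((p l).2, x)‖ ≤ 2 + C := by linarith
    rw [hR]
    gcongr
  have hGd : Pairwise (Function.onFun Disjoint G) := by
    intro l l' hll
    show Disjoint (G l) (G l')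
    rw [Set.disjoint_left]
    intro s hs hs'
    obtain ⟨x, hx, hxs⟩ := hGmem l s hs
    obtain ⟨x', hx', hxs'⟩ := hGmem l' s hs'
    exact hdis l l' hll x (hKX l hx) x' (hKX l' hx') (by
      show g l * pr h J x = g l' * pr h J x'
      rw [← hxs, ← hxs'])
  set v : ℝ := (ε / 2 / K1) ^ K1 with hv
  have hK1p : (0 : ℝ) < K1 := by exact_mod_cast hK1
  have hvp : 0 < v := by positivity
  have hsum : ENNReal.ofReal (N * v) ≤ ENNReal.ofReal ((2 * R) ^ d) := by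
    calc ENNReal.ofReal (N * v) = ∑ _l : Fin N, ENNReal.ofReal v := by
          rw [Finset.sum_const, Finset.card_univ, Fintype.card_fin, nsmul_eq_mul,
            ENNReal.ofReal_mul (Nat.cast_nonneg N), ENNReal.ofReal_natCast]
      _ ≤ ∑ l : Fin N, volume (G l) := by
          refine Finset.sum_le_sum fun l _ => ?_
          rw [hGv l]
          exact hEδ l
      _ = volume (⋃ l, G l) := by
          rw [measure_iUnion hGd hGm, tsum_fintype]
      _ ≤ volume (Metric.closedBall (0 : f.β r → ℝ) R) := measure_mono (iUnion_subset hGΩ)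
      _ = _ := by rw [Real.volume_pi_closedBall _ hR0]
  have hsum' : N * v ≤ (2 * R) ^ d := (ENNReal.ofReal_le_ofReal_iff (by positivity)).1 hsum
  have h7 : (N : ℝ) ≤ (2 * R) ^ d / v := by
    rw [le_div_iff₀ hvp]
    exact hsum'
  refine h7.trans ?_
  have h8 := hKb (1 + C) (1 / ε) (by linarith) (by rw [le_div_iff₀ hε]; linarith)
  have h9 : K * (1 + C) * (1 / ε) = K * (1 + C) / ε := by ring
  rw [h9] at h8
  refine le_trans ?_ h8
  have h10 : 2 * R ≤ (2 * K2 * 2 ^ K2) * (1 + C) ^ K2 := by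
    rw [hR]
    have : (2 + C) ^ K2 ≤ (2 * (1 + C)) ^ K2 := by
      gcongr
      linarith
    rw [mul_pow] at this
    calc 2 * (K2 * (2 + C) ^ K2) ≤ 2 * (K2 * (2 ^ K2 * (1 + C) ^ K2)) := by gcongr
      _ = _ := by ring
  have h11 : (2 * R) ^ d ≤ ((2 * K2 * 2 ^ K2) * (1 + C) ^ K2) ^ d :=
    pow_le_pow_left₀ (by positivity) h10 d
  have h12 : v⁻¹ = (2 * K1) ^ K1 * (1 / ε) ^ K1 := by
    rw [hv, ← inv_pow, ← mul_pow]
    congr 1
    field_simp
  rw [div_eq_mul_inv, h12]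
  calc (2 * R) ^ d * ((2 * K1) ^ K1 * (1 / ε) ^ K1) ≤
      ((2 * K2 * 2 ^ K2) * (1 + C) ^ K2) ^ d * ((2 * K1) ^ K1 * (1 / ε) ^ K1) := by gcongr
    _ = _ := by rw [mul_pow _ ((1 + C) ^ K2), ← pow_mul]; ring

/-- The polynomial packing bound for every family of letters satisfying the universal relations. -/
theorem packQS (ι : Type) [Finite ι] (r : ℕ) : ∃ (n : ℕ) (J : Fin n → ι), ∀ c : ℕ, ∃ K : ℕ, 1 ≤ K ∧
    ∀ ε : ℝ, 0 < ε → ε ≤ 1 → ∀ C : ℝ, 0 ≤ C → ∀ (S : Type) [Monoid S] (s : ι → ℝ → S), Rel ι r s →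
      ∀ (N : ℕ) (p : Fin N → (Fin c → ι) × (Fin c → ℝ))
      (X : Fin N → Set (Fin n → ℝ)), (∀ l t, |(p l).2 t| ≤ C) → (∀ l, MeasurableSet (X l)) →
      (∀ l, X l ⊆ Icc (fun _ => -1) (fun _ => 1)) → (∀ l, ENNReal.ofReal ε ≤ volume (X l)) →
      (∀ l l', l ≠ l' → ∀ x ∈ X l, ∀ x' ∈ X l',
        prS s (p l).1 (p l).2 * prS s J x ≠ prS s (p l').1 (p l').2 * prS s J x') →
      (N : ℝ) ≤ (K * (1 + C) / ε) ^ K := by
  obtain ⟨n, J, H⟩ := packQ (uNil ι r)
  refine ⟨n, J, fun c => ?_⟩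
  obtain ⟨K, hK, hKb⟩ := H c
  refine ⟨K, hK, fun ε hε hε1 C hC S _ s hs N p X h1 h2 h3 h4 h5 =>
    hKb ε hε hε1 C hC N p X h1 h2 h3 h4 ?_⟩
  intro l l' hll x hx x' hx' heq
  refine h5 l l' hll x hx x' hx' ?_
  rw [prS_eq_wd, prS_eq_wd, prS_eq_wd, prS_eq_wd, ← wd_append, ← wd_append]
  refine hs _ _ ?_
  rw [wd_append, wd_append, ← pr_eq_wd, ← pr_eq_wd, ← pr_eq_wd, ← pr_eq_wd]
  exact heq

/-- From packing to few components. -/
theorem fill_core {ι S : Type} [Group S] [MeasurableSpace S] {s : ι → ℝ → S}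
    (hinv : ∀ i x, s i x * s i (-x) = 1) (hm : ∀ i, Measurable fun q : S × ℝ => q.1 * s i q.2)
    {G : Set S} (hG : MeasurableSet G) {θ : ENNReal} (hθ : θ ≠ 0)
    (hwin : ∀ z ∈ G, ∀ i, θ ≤ win s i G z) {n : ℕ} (J : Fin n → ι) {c : ℕ} {C : ℝ} {N0 : ℕ}
    (hN0 : ∀ (N : ℕ) (p : Fin N → (Fin c → ι) × (Fin c → ℝ))
      (X : Fin N → Set (Fin n → ℝ)), (∀ l t, |(p l).2 t| ≤ C) → (∀ l, MeasurableSet (X l)) →
      (∀ l, X l ⊆ Icc (fun _ => -1) (fun _ => 1)) → (∀ l, θ ^ n ≤ volume (X l)) →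
      (∀ l l', l ≠ l' → ∀ x ∈ X l, ∀ x' ∈ X l',
        prS s (p l).1 (p l).2 * prS s J x ≠ prS s (p l').1 (p l').2 * prS s J x') → N ≤ N0)
    (z0 : S) : ∃ T : Finset S, T.card ≤ N0 ∧ (∀ t ∈ T, t ∈ G ∧ InP s c C z0 t) ∧
      ∀ z ∈ G, InP s c C z0 z → ∃ t ∈ T, Reach s G (n + n) z t := by
  classical
  -- the bound for separated sets
  have hsep : ∀ T : Finset S, (∀ t ∈ T, t ∈ G ∧ InP s c C z0 t) →
      (∀ t ∈ T, ∀ t' ∈ T, t ≠ t' → ¬ Reach s G (n + n) t t') → T.card ≤ N0 := by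
    intro T hT hT2
    have hex : ∀ l : Fin T.card, ∃ q : (Fin c → ι) × (Fin c → ℝ), (∀ t, |q.2 t| ≤ C) ∧
        (T.equivFin.symm l : S) = z0 * prS s q.1 q.2 := by
      intro l
      obtain ⟨K, y, h1, h2⟩ := (hT _ (T.equivFin.symm l).2).2
      exact ⟨(K, y), h1, h2⟩
    choose p hp1 hp2 using hex
    refine hN0 T.card p (fun l => ch s G n J (T.equivFin.symm l : S)) hp1 ?_ ?_ ?_ ?_
    · intro l
      exact measurable_prodMk_left (ch_measurable hm hG n J)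
    · intro l
      exact ch_subset s G n J _
    · intro l
      exact ch_volume hm hG hwin n J (hT _ (T.equivFin.symm l).2).1
    · intro l l' hll x hx x' hx' heq
      have h1 := ch_reach s G n J _ hx
      have h2 := ch_reach s G n J _ hx'
      have h3 : (T.equivFin.symm l : S) * prS s J x = (T.equivFin.symm l' : S) * prS s J x' := by
        rw [hp2 l, hp2 l', mul_assoc, mul_assoc, heq]
      rw [h3] at h1
      have h4 : (T.equivFin.symm l : S) ≠ (T.equivFin.symm l' : S) := by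
        intro h5
        exact hll (T.equivFin.symm.injective (Subtype.ext h5))
      exact hT2 _ (T.equivFin.symm l).2 _ (T.equivFin.symm l').2 h4
        (h1.trans (h2.symm hinv))
  -- a maximal separated set
  let Q : ℕ → Prop := fun k => ∃ T : Finset S, T.card = k ∧ (∀ t ∈ T, t ∈ G ∧ InP s c C z0 t) ∧
    ∀ t ∈ T, ∀ t' ∈ T, t ≠ t' → ¬ Reach s G (n + n) t t'
  have hQ0 : Q 0 := ⟨∅, rfl, by simp, by simp⟩
  obtain ⟨T, hTc, hT1, hT2⟩ := Nat.findGreatest_spec (P := Q) (Nat.zero_le N0) hQ0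
  refine ⟨T, hsep T hT1 hT2, hT1, fun z hz hzP => ?_⟩
  by_contra hno0
  have hno : ∀ t ∈ T, ¬ Reach s G (n + n) z t := fun t ht h => hno0 ⟨t, ht, h⟩
  have hzT : z ∉ T := by
    intro h1
    refine hno z h1 ?_
    obtain ⟨x, hx⟩ : (ch s G n J z).Nonempty := by
      rw [nonempty_iff_ne_empty]
      intro h2
      have h3 := ch_volume hm hG hwin n J hz
      rw [h2, measure_empty] at h3
      exact pow_ne_zero n hθ (le_antisymm h3 zero_le')
    have h4 := ch_reach s G n J z hx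
    exact h4.trans (h4.symm hinv)
  have h5 : (insert z T).card = T.card + 1 := Finset.card_insert_of_notMem hzT
  have h6 : ∀ t ∈ insert z T, t ∈ G ∧ InP s c C z0 t := by
    intro t ht
    rcases Finset.mem_insert.1 ht with rfl | ht
    · exact ⟨hz, hzP⟩
    · exact hT1 t ht
  have h7 : ∀ t ∈ insert z T, ∀ t' ∈ insert z T, t ≠ t' → ¬ Reach s G (n + n) t t' := by
    intro t ht t' ht' hne
    rcases Finset.mem_insert.1 ht with h8 | h8
    · rcases Finset.mem_insert.1 ht' with h9 | h9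
      · exact absurd (h8.trans h9.symm) hne
      · rw [h8]
        exact hno t' h9
    · rcases Finset.mem_insert.1 ht' with h9 | h9
      · rw [h9]
        intro h10
        exact hno t h8 (h10.symm hinv)
      · exact hT2 t h8 t' h9 hne
  have h8 : (insert z T).card ≤ N0 := hsep _ h6 h7
  have h9 := Nat.le_findGreatest (P := Q) h8 ⟨insert z T, rfl, h6, h7⟩
  omega

/-- **FILL with polynomial dependence.** The number of components of a clean set (window density at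
least `θ`) in a box `z0 · P_c(C)` is at most `(K (1 + C) / θ) ^ K`, where `K` depends only on the
number of letters, the class and `c`. -/
theorem fillQ (ι : Type) [Finite ι] (r : ℕ) : ∃ n : ℕ, ∀ c : ℕ, ∃ K : ℕ, 1 ≤ K ∧
    ∀ θ : ℝ, 0 < θ → θ ≤ 1 → ∀ C : ℝ, 0 ≤ C →
      ∀ (S : Type) [Group S] [MeasurableSpace S] (s : ι → ℝ → S), Rel ι r s →
      (∀ i, Measurable fun q : S × ℝ => q.1 * s i q.2) →
      ∀ G : Set S, MeasurableSet G → (∀ z ∈ G, ∀ i, ENNReal.ofReal θ ≤ win s i G z) → ∀ z0 : S,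
        ∃ T : Finset S, (T.card : ℝ) ≤ (K * (1 + C) / θ) ^ K ∧
          (∀ t ∈ T, t ∈ G ∧ InP s c C z0 t) ∧
          ∀ z ∈ G, InP s c C z0 z → ∃ t ∈ T, Reach s G (n + n) z t := by
  obtain ⟨n, J, H⟩ := packQS ι r
  refine ⟨n, fun c => ?_⟩
  obtain ⟨K1, hK1, hK1b⟩ := H c
  obtain ⟨K, hK, hKb⟩ := pow_aux2 ((K1 : ℝ) ^ K1) K1 (n * K1)
  refine ⟨K, hK, fun θ hθ hθ1 C hC S _ _ s hs hm G hG hwin z0 => ?_⟩
  have hinv : ∀ i x, s i x * s i (-x) = 1 := by
    intro i x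
    rw [← hs.add, add_neg_cancel, hs.zero]
  set V : ℝ := (K1 * (1 + C) / θ ^ n) ^ K1 with hV
  obtain ⟨T, hT1, hT2, hT3⟩ := fill_core hinv hm hG (θ := ENNReal.ofReal θ)
    (by rw [ne_eq, ENNReal.ofReal_eq_zero, not_le]; exact hθ) hwin J (c := c) (C := C)
    (N0 := ⌊V⌋₊) (fun N p X h1 h2 h3 h4 h5 => by
      refine Nat.le_floor ?_
      refine hK1b (θ ^ n) (by positivity) (pow_le_one₀ hθ.le hθ1) C hC S s hs N p X h1 h2 h3 ?_ h5
      intro l
      rw [ENNReal.ofReal_pow hθ.le]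
      exact h4 l) z0
  refine ⟨T, ?_, hT2, hT3⟩
  have hV0 : 0 ≤ V := by positivity
  have h1 : (T.card : ℝ) ≤ V := by
    refine le_trans ?_ (Nat.floor_le hV0)
    exact_mod_cast hT1
  refine h1.trans ?_
  have h8 := hKb (1 + C) (1 / θ) (by linarith) (by rw [le_div_iff₀ hθ]; linarith)
  have h9 : K * (1 + C) * (1 / θ) = K * (1 + C) / θ := by ring
  rw [h9] at h8
  refine le_trans (le_of_eq ?_) h8
  rw [hV, div_pow, mul_pow, ← pow_mul, one_div, inv_pow, div_eq_mul_inv]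

end Vale.Agent.P188.H329
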