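import Mathlib.MeasureTheory.Function.Jacobian
import Mathlib.MeasureTheory.Measure.Lebesgue.EqHaar
import Mathlib.Analysis.Analytic.Order
import Mathlib.Analysis.Calculus.FDeriv.Analytic
import Mathlib.Analysis.Calculus.InverseFunctionTheorem.ContDiff
import Mathlib.LinearAlgebra.Determinant
import Mathlib.MeasureTheory.Topology
import Mathlib.MeasureTheory.Measure.Decomposition.RadonNikodym
import Mathlib.Tactic

/-!
# P188, FILL block, part 5: absolute continuity for analytic maps with a linear section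
-/

set_option linter.all false

namespace Vale.Agent.P188.H329

open MeasureTheory Set Filter Topology

/-- The zero set of a non-zero analytic function is null. -/
theorem ae_ne_zero_of_analytic {E : Type*} [NormedAddCommGroup E] [NormedSpace ℝ E]
    [MeasurableSpace E] [BorelSpace E] [FiniteDimensional ℝ E] (μ : Measure E)
    [μ.IsAddHaarMeasure] {f : E → ℝ} (hf : AnalyticOnNhd ℝ f univ) {x0 : E} (h0 : f x0 ≠ 0) :
    ∀ᵐ x ∂μ, f x ≠ 0 := by
  have hfc : Continuous f := by
    rw [continuous_iff_continuousAt]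
    exact fun x => (hf x (mem_univ x)).continuousAt
  have h1 : ∀ x : E, ∀ᵐ t : ℝ, f (x0 + t • (x - x0)) ≠ 0 := by
    intro x
    have ha : AnalyticOnNhd ℝ (fun t : ℝ => f (x0 + t • (x - x0))) univ := by
      intro t _
      refine AnalyticAt.comp' (hf _ (mem_univ _)) ?_
      exact analyticAt_const.add (analyticAt_id.smul analyticAt_const)
    have h2 : (fun t : ℝ => f (x0 + t • (x - x0))) 0 ≠ 0 := by simpa using h0
    have h3 := ha.preimage_zero_mem_codiscrete h2
    have h4 := ae_restrict_le_codiscreteWithin (μ := (volume : Measure ℝ)) MeasurableSet.univ h3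
    rw [Measure.restrict_univ] at h4
    exact h4
  have hmeas : MeasurableSet {p : E × ℝ | f (x0 + p.2 • (p.1 - x0)) ≠ 0} := by
    refine IsOpen.measurableSet ?_
    refine isOpen_ne_fun ?_ continuous_const
    exact hfc.comp (by fun_prop)
  have h5 : ∀ᵐ t : ℝ, ∀ᵐ x ∂μ, f (x0 + t • (x - x0)) ≠ 0 := by
    rw [← Measure.ae_ae_comm hmeas]
    exact Eventually.of_forall h1
  have h6 : ∀ᵐ t : ℝ, t ≠ 0 := by
    rw [ae_iff]
    simp
  obtain ⟨t, ht, ht0⟩ := (h5.and h6).exists
  rw [ae_iff] at ht ⊢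
  simp only [not_not] at ht ⊢
  have h7 : {x : E | f x = 0} = AffineMap.homothety x0 t '' {x : E | f (x0 + t • (x - x0)) = 0} := by
    ext y
    constructor
    · intro hy
      refine ⟨x0 + t⁻¹ • (y - x0), ?_, ?_⟩
      · show f _ = 0
        have : x0 + t • (x0 + t⁻¹ • (y - x0) - x0) = y := by
          rw [add_sub_cancel_left, smul_smul, mul_inv_cancel₀ ht0, one_smul]
          abel
        rw [this]
        exact hy
      · rw [AffineMap.homothety_apply]
        simp only [vsub_eq_sub, vadd_eq_add, add_sub_cancel_left, smul_smul]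
        rw [mul_inv_cancel₀ ht0, one_smul]
        abel
    · rintro ⟨x, hx, rfl⟩
      show f _ = 0
      rw [AffineMap.homothety_apply]
      simp only [vsub_eq_sub, vadd_eq_add]
      rw [add_comm]
      exact hx
  rw [h7, Measure.addHaar_image_homothety, ht, mul_zero]

/-- Where the derivative is invertible, preimages of null sets are null. -/
theorem null_of_invertible {V : Type*} [NormedAddCommGroup V] [NormedSpace ℝ V]
    [MeasurableSpace V] [BorelSpace V] [FiniteDimensional ℝ V] (μ : Measure V)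
    [μ.IsAddHaarMeasure] {f : V → V} (hf : ContDiff ℝ 1 f) {N : Set V} (hN : μ N = 0) :
    μ {v | f v ∈ N ∧ LinearMap.det (fderiv ℝ f v : V →ₗ[ℝ] V) ≠ 0} = 0 := by
  haveI : CompleteSpace V := FiniteDimensional.complete ℝ V
  haveI : SecondCountableTopology V := by infer_instance
  refine measure_null_of_locally_null _ ?_
  rintro v ⟨hv, hdet⟩
  set f' : V ≃L[ℝ] V := ContinuousLinearMap.toContinuousLinearEquivOfDetNeZero
    (fderiv ℝ f v) hdet with hf'
  have hfd : HasFDerivAt f (f' : V →L[ℝ] V) v := by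
    have h1 : (f' : V →L[ℝ] V) = fderiv ℝ f v := by
      ext x
      simp [hf']
    rw [h1]
    exact (hf.differentiable (by norm_num) v).hasFDerivAt
  have hcv : ContDiffAt ℝ 1 f v := hf.contDiffAt
  set g := hcv.localInverse hfd (by norm_num) with hg
  have hgd : ContDiffAt ℝ 1 g (f v) := hcv.to_localInverse hfd (by norm_num)
  have hgdiff : ∀ᶠ y in 𝓝 (f v), DifferentiableAt ℝ g y := by
    have := hgd.eventually (by norm_num)
    filter_upwards [this] with y hy using hy.differentiableAt (by norm_num)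
  have hleft : ∀ᶠ x in 𝓝 v, g (f x) = x :=
    (hcv.hasStrictFDerivAt' hfd (by norm_num)).eventually_left_inverse
  have hev : ∀ᶠ x in 𝓝 v, g (f x) = x ∧ DifferentiableAt ℝ g (f x) :=
    hleft.and (hf.continuous.continuousAt.eventually hgdiff)
  refine ⟨{x | f x ∈ N ∧ LinearMap.det (fderiv ℝ f x : V →ₗ[ℝ] V) ≠ 0} ∩
    {x | g (f x) = x ∧ DifferentiableAt ℝ g (f x)}, ?_, ?_⟩
  · exact inter_mem self_mem_nhdsWithin (mem_nhdsWithin_of_mem_nhds hev)
  · have h2 : {x | f x ∈ N ∧ LinearMap.det (fderiv ℝ f x : V →ₗ[ℝ] V) ≠ 0} ∩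
        {x | g (f x) = x ∧ DifferentiableAt ℝ g (f x)} ⊆
        g '' (N ∩ {y | DifferentiableAt ℝ g y}) := by
      rintro x ⟨⟨h3, _⟩, h4, h5⟩
      exact ⟨f x, ⟨h3, h5⟩, h4⟩
    refine measure_mono_null h2 ?_
    refine addHaar_image_eq_zero_of_differentiableOn_of_addHaar_eq_zero μ ?_
      (measure_mono_null inter_subset_left hN)
    intro y hy
    exact hy.2.differentiableWithinAt

/-- Main statement: an analytic map with an affine section pulls null sets back to null sets. -/
theorem null_preimage {X : Type*} [NormedAddCommGroup X] [NormedSpace ℝ X] [MeasurableSpace X]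
    [BorelSpace X] [FiniteDimensional ℝ X] (μ : Measure X) [μ.IsAddHaarMeasure]
    {β : Type} [Fintype β] {Ψ : X → (β → ℝ)} (hΨ : AnalyticOnNhd ℝ Ψ univ)
    (L : (β → ℝ) →L[ℝ] X) (x0 : X) (hs : ∀ s, Ψ (x0 + L s) = s) {N : Set (β → ℝ)}
    (hN : volume N = 0) : μ (Ψ ⁻¹' N) = 0 := by
  classical
  haveI : CompleteSpace X := FiniteDimensional.complete ℝ X
  set g : X → ℝ := fun x => LinearMap.det (((fderiv ℝ Ψ x).comp L : (β → ℝ) →L[ℝ] (β → ℝ)) :
    (β → ℝ) →ₗ[ℝ] (β → ℝ)) with hg
  have hΨc : ContDiff ℝ 1 Ψ := by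
    rw [contDiff_iff_contDiffAt]
    exact fun x => (hΨ x (mem_univ x)).contDiffAt
  have hga : AnalyticOnNhd ℝ g univ := by
    have h1 : g = fun x => ∑ σ : Equiv.Perm β, ((Equiv.Perm.sign σ : ℤ) : ℝ) *
        ∏ i, (fderiv ℝ Ψ x (L (Pi.single i 1))) (σ i) := by
      funext x
      simp only [hg]
      rw [← LinearMap.det_toMatrix', Matrix.det_apply']
      refine Finset.sum_congr rfl fun σ _ => ?_
      congr 1
    rw [h1]
    intro x _
    refine Finset.analyticAt_fun_sum _ fun σ _ => ?_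
    refine analyticAt_const.mul ?_
    refine Finset.analyticAt_fun_prod _ fun i _ => ?_
    have h2 : AnalyticAt ℝ (fderiv ℝ Ψ) x := (hΨ.fderiv x (mem_univ x))
    have h3 : AnalyticAt ℝ (fun y => fderiv ℝ Ψ y (L (Pi.single i 1))) x :=
      ((ContinuousLinearMap.apply ℝ (β → ℝ) (L (Pi.single i 1))).analyticAt _).comp' h2
    exact ((ContinuousLinearMap.proj (R := ℝ) (φ := fun _ : β => ℝ) (σ i)).analyticAt _).comp' h3
  have hfd : ∀ (y : X) (v : β → ℝ), fderiv ℝ (fun v => Ψ (y + L v)) v =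
      (fderiv ℝ Ψ (y + L v)).comp L := by
    intro y v
    have h1 : HasFDerivAt (fun v => y + L v) L v := by
      have := (L.hasFDerivAt (x := v)).const_add y
      exact this
    have h2 : HasFDerivAt Ψ (fderiv ℝ Ψ (y + L v)) (y + L v) :=
      (hΨc.differentiable (by norm_num) _).hasFDerivAt
    exact (h2.comp v h1).fderiv
  have hg0 : g x0 ≠ 0 := by
    have h1 := hfd x0 0
    have h2 : (fun v => Ψ (x0 + L v)) = id := by funext v; exact hs v
    rw [h2, fderiv_id, map_zero, add_zero] at h1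
    simp only [hg]
    rw [← h1]
    simp
  have hgne := ae_ne_zero_of_analytic μ hga hg0
  have hgc : Continuous g := by
    rw [continuous_iff_continuousAt]
    exact fun x => (hga x (mem_univ x)).continuousAt
  -- replace `N` by a measurable null set
  set N' := toMeasurable volume N with hN'
  have hN'0 : volume N' = 0 := by rw [hN', measure_toMeasurable, hN]
  have hN'm : MeasurableSet N' := measurableSet_toMeasurable _ _
  have key : ∀ y : X, ∀ᵐ v : β → ℝ, ¬ (Ψ (y + L v) ∈ N' ∧ g (y + L v) ≠ 0) := by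
    intro y
    have h1 : ContDiff ℝ 1 (fun v => Ψ (y + L v)) := hΨc.comp (contDiff_const.add L.contDiff)
    have h2 := null_of_invertible volume h1 hN'0
    rw [ae_iff]
    simp only [not_not]
    convert h2 using 2
    ext v
    simp only [Set.mem_setOf_eq]
    rw [hfd y v]
  have hmeas : MeasurableSet {p : X × (β → ℝ) | ¬ (Ψ (p.1 + L p.2) ∈ N' ∧ g (p.1 + L p.2) ≠ 0)} := by
    have hc : Continuous fun p : X × (β → ℝ) => p.1 + L p.2 := by fun_prop
    refine MeasurableSet.compl ?_
    refine MeasurableSet.inter ?_ ?_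
    · exact (hΨc.continuous.comp hc).measurable hN'm
    · exact (isOpen_ne_fun (hgc.comp hc) continuous_const).measurableSet
  have h3 : ∀ᵐ v : β → ℝ, ∀ᵐ y ∂μ, ¬ (Ψ (y + L v) ∈ N' ∧ g (y + L v) ≠ 0) := by
    rw [← Measure.ae_ae_comm hmeas]
    exact Eventually.of_forall key
  obtain ⟨v, hv⟩ := h3.exists
  have h4 : ∀ᵐ x ∂μ, ¬ (Ψ x ∈ N' ∧ g x ≠ 0) := by
    rw [ae_iff] at hv ⊢
    rw [← measure_preimage_add_right μ (L v)]
    exact hv
  have h5 : ∀ᵐ x ∂μ, Ψ x ∉ N' := by
    filter_upwards [h4, hgne] with x h6 h7 h8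
    exact h6 ⟨h8, h7⟩
  rw [ae_iff] at h5
  simp only [not_not] at h5
  refine measure_mono_null (fun x hx => ?_) h5
  exact subset_toMeasurable volume N hx

/-- quantitative absolute continuity on a set of finite measure -/
theorem exists_delta {X Y : Type*} [MeasurableSpace X] [MeasurableSpace Y] (μ : Measure X)
    (ν : Measure Y) [SigmaFinite ν] {Ψ : X → Y} (hΨ : Measurable Ψ)
    (h0 : ∀ N, ν N = 0 → μ (Ψ ⁻¹' N) = 0) {Q : Set X} (hQ : μ Q ≠ ⊤) {ε : ENNReal} (hε : ε ≠ 0) :
    ∃ δ > 0, ∀ N, MeasurableSet N → ν N < δ → μ (Q ∩ Ψ ⁻¹' N) < ε := by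
  set μ0 : Measure Y := (μ.restrict Q).map Ψ with hμ0
  haveI : IsFiniteMeasure (μ.restrict Q) := ⟨by rw [Measure.restrict_apply_univ]; exact hQ.lt_top⟩
  haveI : IsFiniteMeasure μ0 := by rw [hμ0]; infer_instance
  have hac : μ0 ≪ ν := by
    refine Measure.AbsolutelyContinuous.mk fun N hN h1 => ?_
    rw [hμ0, Measure.map_apply hΨ hN]
    exact le_antisymm ((Measure.restrict_apply_le _ _).trans (h0 N h1).le) zero_le'
  have h1 : ν.withDensity (μ0.rnDeriv ν) = μ0 := Measure.withDensity_rnDeriv_eq μ0 ν hac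
  have h2 : ∫⁻ x, μ0.rnDeriv ν x ∂ν ≠ ⊤ := by
    rw [← setLIntegral_univ, ← withDensity_apply _ MeasurableSet.univ, h1]
    exact measure_ne_top _ _
  obtain ⟨δ, hδ, hδ2⟩ := exists_pos_setLIntegral_lt_of_measure_lt h2 hε
  refine ⟨δ, hδ, fun N hN h3 => ?_⟩
  have h4 := hδ2 N h3
  rw [← withDensity_apply _ hN, h1, hμ0, Measure.map_apply hΨ hN,
    Measure.restrict_apply (hΨ hN), inter_comm] at h4
  exact h4

end Vale.Agent.P188.H329
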