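import Vale.Agent.P188.H329.PackQ
import Mathlib.MeasureTheory.Group.Measure

/-!
# P188, FILL block, part 17: word measure versus Haar measure
-/

set_option linter.all false

namespace Vale.Agent.P188.H329

open Polynomial Set MeasureTheory

/-- the list of letters of a list of symbols at the parameter `s` -/
def ltr {ι : Type} (l : List (Sym ι)) (s : List ι → ℝ) : List (ι × ℝ) :=
  l.map fun q => (q.1, Sym.val q s)

theorem ev_eq_wd {A : Type} [Ring A] [Algebra ℝ A] {ι : Type} {e : ι → A} {r : ℕ}
    (h : Nil e r) (l : List (Sym ι)) (s : List ι → ℝ) : ev h l s = wd (lu h) (ltr l s) := by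
  unfold ev wd ltr
  rw [List.map_map]
  rfl

theorem wd_measurable {ι E : Type} [Group E] [MeasurableSpace E] [MeasurableMul₂ E]
    {s : ι → ℝ → E} (hs : ∀ i, Measurable (s i)) {β : Type} [MeasurableSpace β]
    (l : List (Sym ι)) {x : β → List ι → ℝ} (hx : ∀ w, Measurable fun b => x b w) :
    Measurable fun b => wd s (ltr l (x b)) := by
  induction l with
  | nil =>
    simp only [ltr, wd, List.map_nil, List.prod_nil]
    exact measurable_const
  | cons q l ih =>
    have : (fun b => wd s (ltr (q :: l) (x b))) =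
        fun b => s q.1 (Sym.val q (x b)) * wd s (ltr l (x b)) := by
      funext b
      simp [ltr, wd]
    rw [this]
    refine Measurable.mul ((hs q.1).comp ?_) ih
    unfold Sym.val
    exact ((hx _).const_mul _).add_const _

theorem prS_measurable {ι E : Type} [Group E] [MeasurableSpace E] [MeasurableMul₂ E]
    {s : ι → ℝ → E} (hs : ∀ i, Measurable (s i)) {m : ℕ} (J : Fin m → ι) :
    Measurable fun x : Fin m → ℝ => prS s J x := by
  induction m with
  | zero =>
    have : (fun x : Fin 0 → ℝ => prS s J x) = fun _ => 1 := by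
      funext x
      simp [prS]
    rw [this]
    exact measurable_const
  | succ m ih =>
    have : (fun x : Fin (m + 1) → ℝ => prS s J x) =
        fun x => s (J 0) (x 0) * prS s (fun t => J t.succ) (fun t => x t.succ) := by
      funext x
      simp [prS, List.ofFn_succ]
    rw [this]
    refine Measurable.mul ((hs _).comp (measurable_pi_apply 0)) ?_
    exact (ih fun t => J t.succ).comp
      (measurable_pi_lambda _ fun t => measurable_pi_apply t.succ)

/-- A set which has word measure at least `ε` has Haar measure at least a polynomial in `ε` times the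
Haar measure of the natural box. -/
theorem acE (ι : Type) [Finite ι] (r : ℕ) : ∃ (n : ℕ) (J : Fin n → ι), ∀ c : ℕ, ∃ K : ℕ, 1 ≤ K ∧
    ∀ ε : ℝ, 0 < ε → ε ≤ 1 → ∀ C : ℝ, 0 ≤ C →
      ∀ (E : Type) [Group E] [MeasurableSpace E] [MeasurableMul₂ E] [MeasurableInv E]
        (μ : Measure E) [SFinite μ] [μ.IsMulLeftInvariant] [μ.IsInvInvariant] (s : ι → ℝ → E),
      Rel ι r s → (∀ i, Measurable (s i)) → ∀ B : Set E, MeasurableSet B →
      ENNReal.ofReal ε ≤ volume (Icc (fun _ => -1) (fun _ => 1) ∩ {x : Fin n → ℝ | prS s J x ∈ B}) →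
      ∀ P : Set E, MeasurableSet P → (∀ y ∈ P, InP s c C 1 y) →
        μ P ≤ ENNReal.ofReal ((K * (1 + C) / ε) ^ K) * μ B := by
  classical
  have h := uNil ι r
  obtain ⟨f⟩ := exists_frame (uE ι r)
  haveI : Fintype ι := Fintype.ofFinite ι
  set l0 := f.T r with hl0
  refine ⟨l0.length, fun t => (l0.get t).1, ?_⟩
  set J : Fin l0.length → ι := fun t => (l0.get t).1 with hJ
  set Ψ : (Fin l0.length → ℝ) → (f.β r → ℝ) := fun x => f.cc h (pr h J x) with hΨ
  have hΨp : ∀ w, (fun x => Ψ x w) ∈ Po (Fin l0.length → ℝ) := fun w =>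
    PFam.cc f (PFam.pr h J fun t => po_coord t) w
  have hΨc : Continuous Ψ := continuous_pi fun w => Po.continuous (hΨp w)
  obtain ⟨L, x0, hsec⟩ : ∃ (L : (f.β r → ℝ) →L[ℝ] (Fin l0.length → ℝ)) (x0 : Fin l0.length → ℝ),
      ∀ s, Ψ (x0 + L s) = s := exists_section h f
  set Q : Set (Fin l0.length → ℝ) := Icc (fun _ => -1) (fun _ => 1) with hQ
  have hQc : IsCompact Q := isCompact_Icc
  obtain ⟨K1, hK1, hqac⟩ := qac volume hΨp L x0 hsec hQc.isBounded
  intro c
  obtain ⟨K2, hK2⟩ := region_bound h f J c
  set d := Fintype.card (f.β r) with hd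
  obtain ⟨K, hK, hKb⟩ := pow_aux2 ((2 * K2 * 2 ^ K2) ^ d * (2 * K1) ^ K1) (K2 * d) K1
  refine ⟨K, hK, fun ε hε hε1 C hC E _ _ _ _ μ _ _ _ s hs hsm B hB hBε P hP hPc => ?_⟩
  -- projection from coordinates to `E`
  set π : (f.β r → ℝ) → E := fun u => wd s (ltr l0 (f.ext u)) with hπ
  have hπm : Measurable π := by
    refine wd_measurable hsm l0 fun w => ?_
    unfold Frame.ext
    by_cases hw : w ∈ f.bb r
    · simp only [dif_pos hw]
      exact measurable_pi_apply _
    · simp only [dif_neg hw]
      exact measurable_const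
  have hπ2 : ∀ u (l : List (ι × ℝ)), f.ch h u = wd (lu h) l → π u = wd s l := by
    intro u l hu
    refine hs _ _ ?_
    rw [← hu]
    exact (ev_eq_wd h l0 (f.ext u)).symm
  -- compact set of parameters
  set X : Set (Fin l0.length → ℝ) := Q ∩ {x | prS s J x ∈ B} with hX
  have hXm : MeasurableSet X := hQc.measurableSet.inter (prS_measurable hsm J hB)
  obtain ⟨Kc, hKX, hKc, hKε⟩ : ∃ K ⊆ X, IsCompact K ∧ ENNReal.ofReal (ε / 2) < volume K := by
    have h1 : ENNReal.ofReal (ε / 2) < volume X :=
      lt_of_lt_of_le ((ENNReal.ofReal_lt_ofReal_iff hε).2 (by linarith)) hBε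
    exact hXm.exists_lt_isCompact h1
  set v : ℝ := (ε / 2 / K1) ^ K1 with hv
  have hK1p : (0 : ℝ) < K1 := by exact_mod_cast hK1
  have hvp : 0 < v := by positivity
  have hΨv : ENNReal.ofReal v ≤ volume (Ψ '' Kc) :=
    hqac (ε / 2) (by positivity) (by linarith) Kc (hKX.trans inter_subset_left)
      hKc.measurableSet hKε.le
  have hΨKc : IsCompact (Ψ '' Kc) := hKc.image hΨc
  set R : ℝ := K2 * (2 + C) ^ K2 with hR
  have hR0 : 0 ≤ R := by positivity
  -- the main set
  set V : Set (E × (f.β r → ℝ)) := {q | q.1 ∈ P ∧ q.2 ∈ Metric.closedBall 0 R ∧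
    q.1⁻¹ * π q.2 ∈ B} with hV
  have hVm : MeasurableSet V := by
    refine (measurable_fst hP).inter ((measurable_snd Metric.isClosed_closedBall.measurableSet).inter ?_)
    exact (measurable_fst.inv.mul (hπm.comp measurable_snd)) hB
  have hlow : ENNReal.ofReal v * μ P ≤ (μ.prod volume) V := by
    rw [Measure.prod_apply hVm]
    calc ENNReal.ofReal v * μ P = ∫⁻ y, P.indicator (fun _ => ENNReal.ofReal v) y ∂μ := by
          rw [lintegral_indicator_const hP]
      _ ≤ ∫⁻ y, volume (Prod.mk y ⁻¹' V) ∂μ := by
          refine lintegral_mono fun y => ?_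
          by_cases hy : y ∈ P
          · rw [indicator_of_mem hy]
            obtain ⟨Kw, yw, hyw, hyw2⟩ := hPc y hy
            rw [one_mul] at hyw2
            set g := pr h Kw yw with hg
            have hgm : g ∈ F h := pr_mem h _ _
            have h1 : volume (f.tr h g⁻¹ ⁻¹' (Ψ '' Kc)) = volume (Ψ '' Kc) :=
              (f.tr_mp h (inv_mem hgm)).measure_preimage hΨKc.measurableSet.nullMeasurableSet
            rw [← h1] at hΨv
            refine hΨv.trans (measure_mono ?_)
            rintro u ⟨x, hx, hxu⟩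
            have h2 : f.ch h (f.tr h g⁻¹ u) = g⁻¹ * f.ch h u := f.ch_tr h (inv_mem hgm) u
            rw [← hxu] at h2
            have h3 : f.ch h (Ψ x) = pr h J x := f.ch_cc h (pr_mem h J x)
            rw [h3] at h2
            have h4 : f.ch h u = g * pr h J x := by rw [h2, mul_inv_cancel_left]
            have h5 : π u = y * prS s J x := by
              have h6 := hπ2 u ((List.ofFn fun t => (Kw t, yw t)) ++ List.ofFn fun t => (J t, x t)) (by
                rw [h4, wd_append, ← pr_eq_wd, ← pr_eq_wd])
              rw [h6, wd_append, ← prS_eq_wd, ← prS_eq_wd, ← hyw2]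
            refine ⟨hy, ?_, ?_⟩
            · show u ∈ Metric.closedBall 0 R
              rw [mem_closedBall_zero_iff, pi_norm_le_iff_of_nonneg hR0]
              intro w
              have h7 := hK2 Kw w yw x
              have h8 : f.cc h (pr h Kw yw * pr h J x) = u := by
                have : g * pr h J x = f.ch h u := h4.symm
                show f.cc h (g * pr h J x) = u
                rw [this, f.cc_ch]
              rw [h8] at h7
              rw [Real.norm_eq_abs]
              refine h7.trans ?_
              have h9 : ‖(yw, x)‖ ≤ 1 + C := by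
                rw [Prod.norm_def]
                refine max_le ?_ ?_
                · rw [pi_norm_le_iff_of_nonneg (by linarith)]
                  intro t
                  rw [Real.norm_eq_abs]
                  linarith [hyw t]
                · rw [pi_norm_le_iff_of_nonneg (by linarith)]
                  intro t
                  have h10 := (hKX hx).1
                  rw [Real.norm_eq_abs]
                  have : |x t| ≤ 1 := abs_le.2 ⟨h10.1 t, h10.2 t⟩
                  linarith
              have h11 : 1 + ‖(yw, x)‖ ≤ 2 + C := by linarith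
              rw [hR]
              gcongr
            · show y⁻¹ * π u ∈ B
              rw [h5, inv_mul_cancel_left]
              exact (hKX hx).2
          · rw [indicator_of_notMem hy]
            exact zero_le'
  have hup : (μ.prod volume) V ≤ μ B * ENNReal.ofReal ((2 * R) ^ d) := by
    rw [Measure.prod_apply_symm hVm]
    calc ∫⁻ u, μ ((fun y => (y, u)) ⁻¹' V) ≤
          ∫⁻ u, (Metric.closedBall (0 : f.β r → ℝ) R).indicator (fun _ => μ B) u := by
          refine lintegral_mono fun u => ?_
          by_cases hu : u ∈ Metric.closedBall (0 : f.β r → ℝ) R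
          · rw [indicator_of_mem hu]
            have h1 : (fun y => (y, u)) ⁻¹' V ⊆ (fun y => (π u)⁻¹ * y) ⁻¹' (Inv.inv ⁻¹' B) := by
              intro y hy
              show ((π u)⁻¹ * y)⁻¹ ∈ B
              rw [mul_inv_rev, inv_inv]
              exact hy.2.2
            refine (measure_mono h1).trans ?_
            rw [measure_preimage_mul, Measure.measure_preimage_inv]
          · rw [indicator_of_notMem hu]
            have : (fun y => (y, u)) ⁻¹' V = ∅ := by
              rw [eq_empty_iff_forall_notMem]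
              intro y hy
              exact hu hy.2.1
            rw [this, measure_empty]
      _ = _ := by
          rw [lintegral_indicator_const Metric.isClosed_closedBall.measurableSet,
            Real.volume_pi_closedBall _ hR0]
  have hmain := hlow.trans hup
  -- final algebra
  have h8 := hKb (1 + C) (1 / ε) (by linarith) (by rw [le_div_iff₀ hε]; linarith)
  have h9 : K * (1 + C) * (1 / ε) = K * (1 + C) / ε := by ring
  rw [h9] at h8
  have h10 : 2 * R ≤ (2 * K2 * 2 ^ K2) * (1 + C) ^ K2 := by
    rw [hR]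
    have : (2 + C) ^ K2 ≤ (2 * (1 + C)) ^ K2 := by
      gcongr
      linarith
    rw [mul_pow] at this
    calc 2 * (K2 * (2 + C) ^ K2) ≤ 2 * (K2 * (2 ^ K2 * (1 + C) ^ K2)) := by gcongr
      _ = _ := by ring
  have h11 : (2 * R) ^ d ≤ ((2 * K2 * 2 ^ K2) * (1 + C) ^ K2) ^ d :=
    pow_le_pow_left₀ (by positivity) h10 d
  have h12 : v⁻¹ = (2 * K1) ^ K1 * (1 / ε) ^ K1 := by
    rw [hv, ← inv_pow, ← mul_pow]
    congr 1
    field_simp
  have h13 : v⁻¹ * (2 * R) ^ d ≤ (K * (1 + C) / ε) ^ K := by
    refine le_trans ?_ h8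
    rw [h12]
    calc (2 * K1) ^ K1 * (1 / ε) ^ K1 * (2 * R) ^ d ≤
        (2 * K1) ^ K1 * (1 / ε) ^ K1 * ((2 * K2 * 2 ^ K2) * (1 + C) ^ K2) ^ d := by gcongr
      _ = _ := by rw [mul_pow _ ((1 + C) ^ K2), ← pow_mul]; ring
  calc μ P = ENNReal.ofReal v⁻¹ * (ENNReal.ofReal v * μ P) := by
        rw [← mul_assoc, ← ENNReal.ofReal_mul (by positivity), inv_mul_cancel₀ hvp.ne',
          ENNReal.ofReal_one, one_mul]
    _ ≤ ENNReal.ofReal v⁻¹ * (μ B * ENNReal.ofReal ((2 * R) ^ d)) := mul_le_mul' le_rfl hmain
    _ = ENNReal.ofReal (v⁻¹ * (2 * R) ^ d) * μ B := by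
        rw [ENNReal.ofReal_mul (by positivity)]
        ring
    _ ≤ _ := mul_le_mul' (ENNReal.ofReal_le_ofReal h13) le_rfl

end Vale.Agent.P188.H329
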