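import Vale.Agent.P188.H329.ACE
import Vale.Agent.P188.H329.Fill

/-!
# P188, FILL block: word measure versus a measure invariant under right translations
-/

set_option linter.all false

namespace Vale.Agent.P188.H329

open Polynomial Set MeasureTheory

theorem wdR_measurable {ι S : Type} [Group S] [MeasurableSpace S]
    {s : ι → ℝ → S} (hs : ∀ i, Measurable fun q : S × ℝ => q.1 * s i q.2) {β : Type}
    [MeasurableSpace β] (l : List (Sym ι)) {a : β → S} (ha : Measurable a)
    {x : β → List ι → ℝ} (hx : ∀ w, Measurable fun b => x b w) :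
    Measurable fun b => a b * wd s (ltr l (x b)) := by
  induction l generalizing a with
  | nil =>
    simp only [ltr, wd, List.map_nil, List.prod_nil, mul_one]
    exact ha
  | cons q l ih =>
    have : (fun b => a b * wd s (ltr (q :: l) (x b))) =
        fun b => (a b * s q.1 (Sym.val q (x b))) * wd s (ltr l (x b)) := by
      funext b
      simp [ltr, wd, mul_assoc]
    rw [this]
    refine ih ((hs q.1).comp (ha.prodMk ?_))
    exact ((hx _).const_mul _).add_const _

theorem prSR_measurable {ι S : Type} [Group S] [MeasurableSpace S]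
    {s : ι → ℝ → S} (hs : ∀ i, Measurable fun q : S × ℝ => q.1 * s i q.2) {m : ℕ} (J : Fin m → ι)
    {β : Type} [MeasurableSpace β] {a : β → S} (ha : Measurable a) {x : β → Fin m → ℝ}
    (hx : Measurable x) : Measurable fun b => a b * prS s J (x b) := by
  induction m generalizing a with
  | zero =>
    have : (fun b => a b * prS s J (x b)) = a := by
      funext b
      simp [prS]
    rw [this]
    exact ha
  | succ m ih =>
    have : (fun b => a b * prS s J (x b)) =
        fun b => (a b * s (J 0) (x b 0)) * prS s (fun t => J t.succ) (fun t => x b t.succ) := by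
      funext b
      simp [prS, List.ofFn_succ, mul_assoc]
    rw [this]
    refine ih (fun t => J t.succ) ((hs _).comp (ha.prodMk ((measurable_pi_apply 0).comp hx))) ?_
    exact measurable_pi_lambda _ fun t => (measurable_pi_apply t.succ).comp hx

/-- A set which has word measure at least `ε` seen from `z0` has measure at least a polynomial in `ε`
times the measure of the natural box at `z0`. -/
theorem acS (ι : Type) [Finite ι] (r : ℕ) : ∃ (n : ℕ) (J : Fin n → ι), ∀ c : ℕ, ∃ K : ℕ, 1 ≤ K ∧
    ∀ ε : ℝ, 0 < ε → ε ≤ 1 → ∀ C : ℝ, 0 ≤ C →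
      ∀ (S : Type) [Group S] [MeasurableSpace S] (μ : Measure S) [SFinite μ] (s : ι → ℝ → S),
      Rel ι r s → (∀ i, Measurable fun q : S × ℝ => q.1 * s i q.2) →
      (∀ w : S, MeasurePreserving (fun x => x * w) μ μ) →
      ∀ (z0 : S) (B : Set S), MeasurableSet B →
      ENNReal.ofReal ε ≤
        volume (Icc (fun _ => -1) (fun _ => 1) ∩ {x : Fin n → ℝ | z0 * prS s J x ∈ B}) →
      ∀ P : Set S, MeasurableSet P → (∀ y ∈ P, InP s c C y z0) →
        μ P ≤ ENNReal.ofReal ((K * (1 + C) / ε) ^ K) * μ B := by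
  classical
  have h := uNil ι r
  obtain ⟨f⟩ := exists_frame (uE ι r)
  haveI : Fintype ι := Fintype.ofFinite ι
  set l0 := f.T r with hl0
  refine ⟨l0.length, fun t => (l0.get t).1, ?_⟩
  set J : Fin l0.length → ι := fun t => (l0.get t).1 with hJ
  set Ψ : (Fin l0.length → ℝ) → (f.β r → ℝ) := fun x => f.cc h (pr h J x) with hΨ
  have hΨp : ∀ w, (fun x => Ψ x w) ∈ Po (Fin l0.length → ℝ) := fun w =>
    PFam.cc f (PFam.pr h J fun t => po_coord t) w
  have hΨc : Continuous Ψ := continuous_pi fun w => Po.continuous (hΨp w)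
  obtain ⟨L, x0, hsec⟩ : ∃ (L : (f.β r → ℝ) →L[ℝ] (Fin l0.length → ℝ)) (x0 : Fin l0.length → ℝ),
      ∀ s, Ψ (x0 + L s) = s := exists_section h f
  set Q : Set (Fin l0.length → ℝ) := Icc (fun _ => -1) (fun _ => 1) with hQ
  have hQc : IsCompact Q := isCompact_Icc
  obtain ⟨K1, hK1, hqac⟩ := qac volume hΨp L x0 hsec hQc.isBounded
  intro c
  obtain ⟨K2, hK2⟩ := region_bound h f J c
  set d := Fintype.card (f.β r) with hd
  obtain ⟨K, hK, hKb⟩ := pow_aux2 ((2 * K2 * 2 ^ K2) ^ d * (2 * K1) ^ K1) (K2 * d) K1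
  refine ⟨K, hK, fun ε hε hε1 C hC E _ _ μ _ s hs hsm hmp z0 B hB hBε P hP hPc => ?_⟩
  -- projection from coordinates to `E`
  set π : (f.β r → ℝ) → E := fun u => wd s (ltr l0 (f.ext u)) with hπ
  have hπm : Measurable fun q : E × (f.β r → ℝ) => q.1 * π q.2 := by
    refine wdR_measurable hsm l0 measurable_fst (x := fun q => f.ext q.2) fun w => ?_
    unfold Frame.ext
    by_cases hw : w ∈ f.bb r
    · simp only [dif_pos hw]
      exact (measurable_pi_apply _).comp measurable_snd
    · simp only [dif_neg hw]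
      exact measurable_const
  have hπ2 : ∀ u (l : List (ι × ℝ)), f.ch h u = wd (lu h) l → π u = wd s l := by
    intro u l hu
    refine hs _ _ ?_
    rw [← hu]
    exact (ev_eq_wd h l0 (f.ext u)).symm
  -- compact set of parameters
  set X : Set (Fin l0.length → ℝ) := Q ∩ {x | z0 * prS s J x ∈ B} with hX
  have hXm : MeasurableSet X := hQc.measurableSet.inter
    (prSR_measurable hsm J measurable_const measurable_id hB)
  obtain ⟨Kc, hKX, hKc, hKε⟩ : ∃ K ⊆ X, IsCompact K ∧ ENNReal.ofReal (ε / 2) < volume K := by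
    have h1 : ENNReal.ofReal (ε / 2) < volume X :=
      lt_of_lt_of_le ((ENNReal.ofReal_lt_ofReal_iff hε).2 (by linarith)) hBε
    exact hXm.exists_lt_isCompact h1
  set v : ℝ := (ε / 2 / K1) ^ K1 with hv
  have hK1p : (0 : ℝ) < K1 := by exact_mod_cast hK1
  have hvp : 0 < v := by positivity
  have hΨv : ENNReal.ofReal v ≤ volume (Ψ '' Kc) :=
    hqac (ε / 2) (by positivity) (by linarith) Kc (hKX.trans inter_subset_left)
      hKc.measurableSet hKε.le
  have hΨKc : IsCompact (Ψ '' Kc) := hKc.image hΨc
  set R : ℝ := K2 * (2 + C) ^ K2 with hR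
  have hR0 : 0 ≤ R := by positivity
  -- the main set
  set V : Set (E × (f.β r → ℝ)) := {q | q.1 ∈ P ∧ q.2 ∈ Metric.closedBall 0 R ∧
    q.1 * π q.2 ∈ B} with hV
  have hVm : MeasurableSet V := by
    refine (measurable_fst hP).inter ((measurable_snd Metric.isClosed_closedBall.measurableSet).inter ?_)
    exact hπm hB
  have hlow : ENNReal.ofReal v * μ P ≤ (μ.prod volume) V := by
    rw [Measure.prod_apply hVm]
    calc ENNReal.ofReal v * μ P = ∫⁻ y, P.indicator (fun _ => ENNReal.ofReal v) y ∂μ := by
          rw [lintegral_indicator_const hP]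
      _ ≤ ∫⁻ y, volume (Prod.mk y ⁻¹' V) ∂μ := by
          refine lintegral_mono fun y => ?_
          by_cases hy : y ∈ P
          · rw [indicator_of_mem hy]
            obtain ⟨Kw, yw, hyw, hyw2⟩ := hPc y hy
            set g := pr h Kw yw with hg
            have hgm : g ∈ F h := pr_mem h _ _
            have h1 : volume (f.tr h g⁻¹ ⁻¹' (Ψ '' Kc)) = volume (Ψ '' Kc) :=
              (f.tr_mp h (inv_mem hgm)).measure_preimage hΨKc.measurableSet.nullMeasurableSet
            rw [← h1] at hΨv
            refine hΨv.trans (measure_mono ?_)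
            rintro u ⟨x, hx, hxu⟩
            have h2 : f.ch h (f.tr h g⁻¹ u) = g⁻¹ * f.ch h u := f.ch_tr h (inv_mem hgm) u
            rw [← hxu] at h2
            have h3 : f.ch h (Ψ x) = pr h J x := f.ch_cc h (pr_mem h J x)
            rw [h3] at h2
            have h4 : f.ch h u = g * pr h J x := by rw [h2, mul_inv_cancel_left]
            have h5 : y * π u = z0 * prS s J x := by
              have h6 := hπ2 u ((List.ofFn fun t => (Kw t, yw t)) ++ List.ofFn fun t => (J t, x t)) (by
                rw [h4, wd_append, ← pr_eq_wd, ← pr_eq_wd])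
              rw [h6, wd_append, ← prS_eq_wd, ← prS_eq_wd, ← mul_assoc, ← hyw2]
            refine ⟨hy, ?_, ?_⟩
            · show u ∈ Metric.closedBall 0 R
              rw [mem_closedBall_zero_iff, pi_norm_le_iff_of_nonneg hR0]
              intro w
              have h7 := hK2 Kw w yw x
              have h8 : f.cc h (pr h Kw yw * pr h J x) = u := by
                have : g * pr h J x = f.ch h u := h4.symm
                show f.cc h (g * pr h J x) = u
                rw [this, f.cc_ch]
              rw [h8] at h7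
              rw [Real.norm_eq_abs]
              refine h7.trans ?_
              have h9 : ‖(yw, x)‖ ≤ 1 + C := by
                rw [Prod.norm_def]
                refine max_le ?_ ?_
                · rw [pi_norm_le_iff_of_nonneg (by linarith)]
                  intro t
                  rw [Real.norm_eq_abs]
                  linarith [hyw t]
                · rw [pi_norm_le_iff_of_nonneg (by linarith)]
                  intro t
                  have h10 := (hKX hx).1
                  rw [Real.norm_eq_abs]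
                  have : |x t| ≤ 1 := abs_le.2 ⟨h10.1 t, h10.2 t⟩
                  linarith
              have h11 : 1 + ‖(yw, x)‖ ≤ 2 + C := by linarith
              rw [hR]
              gcongr
            · show y * π u ∈ B
              rw [h5]
              exact (hKX hx).2
          · rw [indicator_of_notMem hy]
            exact zero_le'
  have hup : (μ.prod volume) V ≤ μ B * ENNReal.ofReal ((2 * R) ^ d) := by
    rw [Measure.prod_apply_symm hVm]
    calc ∫⁻ u, μ ((fun y => (y, u)) ⁻¹' V) ≤
          ∫⁻ u, (Metric.closedBall (0 : f.β r → ℝ) R).indicator (fun _ => μ B) u := by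
          refine lintegral_mono fun u => ?_
          by_cases hu : u ∈ Metric.closedBall (0 : f.β r → ℝ) R
          · rw [indicator_of_mem hu]
            have h1 : (fun y => (y, u)) ⁻¹' V ⊆ (fun y => y * π u) ⁻¹' B := by
              intro y hy
              exact hy.2.2
            refine (measure_mono h1).trans ?_
            exact ((hmp (π u)).measure_preimage hB.nullMeasurableSet).le
          · rw [indicator_of_notMem hu]
            have : (fun y => (y, u)) ⁻¹' V = ∅ := by
              rw [eq_empty_iff_forall_notMem]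
              intro y hy
              exact hu hy.2.1
            rw [this, measure_empty]
      _ = _ := by
          rw [lintegral_indicator_const Metric.isClosed_closedBall.measurableSet,
            Real.volume_pi_closedBall _ hR0]
  have hmain := hlow.trans hup
  -- final algebra
  have h8 := hKb (1 + C) (1 / ε) (by linarith) (by rw [le_div_iff₀ hε]; linarith)
  have h9 : K * (1 + C) * (1 / ε) = K * (1 + C) / ε := by ring
  rw [h9] at h8
  have h10 : 2 * R ≤ (2 * K2 * 2 ^ K2) * (1 + C) ^ K2 := by
    rw [hR]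
    have : (2 + C) ^ K2 ≤ (2 * (1 + C)) ^ K2 := by
      gcongr
      linarith
    rw [mul_pow] at this
    calc 2 * (K2 * (2 + C) ^ K2) ≤ 2 * (K2 * (2 ^ K2 * (1 + C) ^ K2)) := by gcongr
      _ = _ := by ring
  have h11 : (2 * R) ^ d ≤ ((2 * K2 * 2 ^ K2) * (1 + C) ^ K2) ^ d :=
    pow_le_pow_left₀ (by positivity) h10 d
  have h12 : v⁻¹ = (2 * K1) ^ K1 * (1 / ε) ^ K1 := by
    rw [hv, ← inv_pow, ← mul_pow]
    congr 1
    field_simp
  have h13 : v⁻¹ * (2 * R) ^ d ≤ (K * (1 + C) / ε) ^ K := by
    refine le_trans ?_ h8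
    rw [h12]
    calc (2 * K1) ^ K1 * (1 / ε) ^ K1 * (2 * R) ^ d ≤
        (2 * K1) ^ K1 * (1 / ε) ^ K1 * ((2 * K2 * 2 ^ K2) * (1 + C) ^ K2) ^ d := by gcongr
      _ = _ := by rw [mul_pow _ ((1 + C) ^ K2), ← pow_mul]; ring
  calc μ P = ENNReal.ofReal v⁻¹ * (ENNReal.ofReal v * μ P) := by
        rw [← mul_assoc, ← ENNReal.ofReal_mul (by positivity), inv_mul_cancel₀ hvp.ne',
          ENNReal.ofReal_one, one_mul]
    _ ≤ ENNReal.ofReal v⁻¹ * (μ B * ENNReal.ofReal ((2 * R) ^ d)) := mul_le_mul' le_rfl hmain
    _ = ENNReal.ofReal (v⁻¹ * (2 * R) ^ d) * μ B := by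
        rw [ENNReal.ofReal_mul (by positivity)]
        ring
    _ ≤ _ := mul_le_mul' (ENNReal.ofReal_le_ofReal h13) le_rfl

/-- Contrapositive of `acS`: a set of small measure is hit by a random word with small
probability. -/
theorem chain_law (ι : Type) [Finite ι] (r : ℕ) : ∃ (n : ℕ) (J : Fin n → ι), ∀ (c : ℕ) (C θ : ℝ),
    0 ≤ C → 0 < θ → ∃ δ : ℝ, 0 < δ ∧
      ∀ (S : Type) [Group S] [MeasurableSpace S] (μ : Measure S) [SFinite μ] (s : ι → ℝ → S),
      Rel ι r s → (∀ i, Measurable fun q : S × ℝ => q.1 * s i q.2) →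
      (∀ w : S, MeasurePreserving (fun x => x * w) μ μ) →
      ∀ (z0 : S) (P B : Set S), MeasurableSet P → MeasurableSet B → μ P ≠ 0 → μ P ≠ ⊤ →
      (∀ y ∈ P, InP s c C y z0) → μ B ≤ ENNReal.ofReal δ * μ P →
      volume (Icc (fun _ => -1) (fun _ => 1) ∩ {x : Fin n → ℝ | z0 * prS s J x ∈ B}) ≤
        ENNReal.ofReal θ := by
  obtain ⟨n, J, hJ⟩ := acS ι r
  refine ⟨n, J, fun c C θ hC hθ => ?_⟩
  obtain ⟨K, hK, h⟩ := hJ c
  set ε : ℝ := min θ 1 with hε
  have hε0 : 0 < ε := lt_min hθ one_pos
  have hKp : (0 : ℝ) < K := by exact_mod_cast hK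
  set A : ℝ := (K * (1 + C) / ε) ^ K with hA
  have hA0 : 0 < A := by positivity
  refine ⟨(2 * A)⁻¹, by positivity, ?_⟩
  intro S _ _ μ _ s hs hsm hmp z0 P B hP hB hP0 hP1 hPc hBP
  by_contra hcon
  rw [not_le] at hcon
  have h1 := h ε hε0 (min_le_right _ _) C hC S μ s hs hsm hmp z0 B hB
    ((ENNReal.ofReal_le_ofReal (min_le_left _ _)).trans hcon.le) P hP hPc
  have h2 : μ P ≤ ENNReal.ofReal A * (ENNReal.ofReal (2 * A)⁻¹ * μ P) :=
    h1.trans (mul_le_mul' le_rfl hBP)
  rw [← mul_assoc, ← ENNReal.ofReal_mul hA0.le] at h2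
  have h3 : A * (2 * A)⁻¹ = 1 / 2 := by field_simp
  rw [h3] at h2
  have h4 : ENNReal.ofReal (1 / 2) * μ P < 1 * μ P := by
    refine ENNReal.mul_lt_mul_left hP0 hP1 ?_
    rw [← ENNReal.ofReal_one]
    exact (ENNReal.ofReal_lt_ofReal_iff one_pos).2 (by norm_num)
  rw [one_mul] at h4
  exact absurd h2 (not_le.2 h4)

end Vale.Agent.P188.H329
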