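import Vale.Agent.P188.H329.Univ

/-!
# P188, FILL block, part 10: cleaning
-/

set_option linter.all false

namespace Vale.Agent.P188.H329

open Set MeasureTheory

variable {ι : Type} {S : Type} [Group S] [MeasurableSpace S]

/-- size of the window of `G` seen from `z` in direction `i` -/
noncomputable def win (s : ι → ℝ → S) (i : ι) (G : Set S) (z : S) : ENNReal :=
  volume (Icc (-1 : ℝ) 1 ∩ {x | z * s i x ∈ G})

theorem win_mono (s : ι → ℝ → S) (i : ι) {G G' : Set S} (h : G ⊆ G') (z : S) :
    win s i G z ≤ win s i G' z :=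
  measure_mono (inter_subset_inter_right _ fun x hx => h hx)

theorem measurable_win {s : ι → ℝ → S} {i : ι} (hm : Measurable fun q : S × ℝ => q.1 * s i q.2)
    {G : Set S} (hG : MeasurableSet G) : Measurable (win s i G) := by
  have h1 : MeasurableSet {q : S × ℝ | q.2 ∈ Icc (-1 : ℝ) 1 ∧ q.1 * s i q.2 ∈ G} :=
    (measurable_snd measurableSet_Icc).inter (hm hG)
  exact measurable_measure_prodMk_left h1

/-- the cleaning iteration -/
noncomputable def cl (s : ι → ℝ → S) (θ : ENNReal) (Γ : Set S) : ℕ → Set S
  | 0 => Γ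
  | t + 1 => {z | z ∈ cl s θ Γ t ∧ ∀ i, θ ≤ win s i (cl s θ Γ t) z}

theorem cl_succ_subset (s : ι → ℝ → S) (θ : ENNReal) (Γ : Set S) (t : ℕ) :
    cl s θ Γ (t + 1) ⊆ cl s θ Γ t := fun _ hz => hz.1

theorem cl_anti (s : ι → ℝ → S) (θ : ENNReal) (Γ : Set S) : Antitone (cl s θ Γ) :=
  antitone_nat_of_succ_le (cl_succ_subset s θ Γ)

theorem cl_measurable [Finite ι] {s : ι → ℝ → S} (hm : ∀ i, Measurable fun q : S × ℝ => q.1 * s i q.2)
    (θ : ENNReal) {Γ : Set S} (hΓ : MeasurableSet Γ) (t : ℕ) : MeasurableSet (cl s θ Γ t) := by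
  induction t with
  | zero => exact hΓ
  | succ t ih =>
    have : cl s θ Γ (t + 1) = cl s θ Γ t ∩ ⋂ i, {z | θ ≤ win s i (cl s θ Γ t) z} := by
      ext z
      rw [mem_inter_iff, mem_iInter]
      rfl
    rw [this]
    refine ih.inter (MeasurableSet.iInter fun i => ?_)
    exact measurableSet_le measurable_const (measurable_win (hm i) ih)

/-- points removed because of direction `i` at time `t` -/
def rem (s : ι → ℝ → S) (θ : ENNReal) (Γ : Set S) (i : ι) (t : ℕ) : Set S :=
  {z | z ∈ cl s θ Γ t ∧ win s i (cl s θ Γ t) z < θ}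

theorem clean [Finite ι] (μ : Measure S) [SFinite μ] {s : ι → ℝ → S}
    (hadd : ∀ i x y, s i (x + y) = s i x * s i y) (h0 : ∀ i, s i 0 = 1)
    (hm : ∀ i, Measurable fun q : S × ℝ => q.1 * s i q.2)
    (hinv : ∀ i x, MeasurePreserving (fun z => z * s i x) μ μ) {Γ D : Set S}
    (hΓ : MeasurableSet Γ) (hD : MeasurableSet D)
    (hΓD : ∀ z ∈ Γ, ∀ i x, |x| ≤ 1 → z * s i x ∈ D) (θ : ENNReal) :
    ∃ Γ' ⊆ Γ, MeasurableSet Γ' ∧ μ (Γ \ Γ') ≤ Nat.card ι * (θ * μ D) ∧
      ∀ z ∈ Γ', ∀ i, θ ≤ win s i Γ' z := by
  classical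
  haveI : Fintype ι := Fintype.ofFinite ι
  set G := cl s θ Γ with hG
  have hGm : ∀ t, MeasurableSet (G t) := cl_measurable hm θ hΓ
  refine ⟨⋂ t, G t, iInter_subset G 0, MeasurableSet.iInter hGm, ?_, ?_⟩
  · -- measure of the removed part
    have hremm : ∀ i t, MeasurableSet (rem s θ Γ i t) := fun i t =>
      (hGm t).inter (measurableSet_lt (measurable_win (hm i) (hGm t)) measurable_const)
    set Rm : ι → Set S := fun i => ⋃ t, rem s θ Γ i t with hRm
    have hRmm : ∀ i, MeasurableSet (Rm i) := fun i => MeasurableSet.iUnion (hremm i)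
    have hcov : Γ \ ⋂ t, G t ⊆ ⋃ i, Rm i := by
      rintro z ⟨hz, hz2⟩
      rw [mem_iInter, not_forall] at hz2
      have hex : ∃ t, z ∉ G t := hz2
      have hfind := Nat.find_spec hex
      have hmin := fun t (ht : t < Nat.find hex) => not_not.1 (Nat.find_min hex ht)
      obtain ⟨t, ht⟩ : ∃ t, Nat.find hex = t + 1 := by
        refine ⟨Nat.find hex - 1, ?_⟩
        have : Nat.find hex ≠ 0 := by
          intro h
          rw [h] at hfind
          exact hfind hz
        omega
      have h1 : z ∈ G t := hmin t (by omega)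
      rw [ht] at hfind
      have h2 : ¬ ∀ i, θ ≤ win s i (G t) z := fun h => hfind ⟨h1, h⟩
      rw [not_forall] at h2
      obtain ⟨i, hi⟩ := h2
      rw [mem_iUnion]
      refine ⟨i, ?_⟩
      rw [hRm, mem_iUnion]
      exact ⟨t, h1, not_le.1 hi⟩
    have hline : ∀ i z, volume (Icc (0 : ℝ) 1 ∩ {x | z * s i x ∈ Rm i}) ≤ θ := by
      intro i z
      by_cases hex : ∃ t, ∃ x ∈ Icc (0 : ℝ) 1, z * s i x ∈ rem s θ Γ i t
      · obtain ⟨x0, hx0, h1⟩ := Nat.find_spec hex
        set t := Nat.find hex with ht
        have hmin : ∀ t' < t, ¬ ∃ x ∈ Icc (0 : ℝ) 1, z * s i x ∈ rem s θ Γ i t' := fun t' ht' =>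
          Nat.find_min hex ht'
        have h2 : Icc (0 : ℝ) 1 ∩ {x | z * s i x ∈ Rm i} ⊆
            (fun x => x + (-x0)) ⁻¹' (Icc (-1 : ℝ) 1 ∩ {y | (z * s i x0) * s i y ∈ G t}) := by
          rintro x ⟨hx, hx2⟩
          simp only [hRm, mem_setOf_eq, mem_iUnion] at hx2
          obtain ⟨t', ht'⟩ := hx2
          have h3 : t ≤ t' := by
            by_contra h4
            exact hmin t' (by omega) ⟨x, hx, ht'⟩
          refine ⟨⟨by linarith [hx.1, hx0.2], by linarith [hx.2, hx0.1]⟩, ?_⟩
          show z * s i x0 * s i (x + (-x0)) ∈ G t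
          have h5 : z * s i x0 * s i (x + (-x0)) = z * s i x := by
            rw [mul_assoc, ← hadd]
            congr 2
            ring
          rw [h5]
          exact cl_anti s θ Γ h3 ht'.1
        refine (measure_mono h2).trans ?_
        rw [measure_preimage_add_right]
        exact h1.2.le
      · have : Icc (0 : ℝ) 1 ∩ {x | z * s i x ∈ Rm i} = ∅ := by
          rw [eq_empty_iff_forall_notMem]
          rintro x ⟨hx, hx2⟩
          simp only [hRm, mem_setOf_eq, mem_iUnion] at hx2
          obtain ⟨t', ht'⟩ := hx2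
          exact hex ⟨t', x, hx, ht'⟩
        rw [this, measure_empty]
        exact zero_le'
    have hbd : ∀ i, μ (Rm i) ≤ θ * μ D := by
      intro i
      set V : Set (S × ℝ) := {q | q.1 ∈ D ∧ q.2 ∈ Icc (0 : ℝ) 1 ∧ q.1 * s i q.2 ∈ Rm i} with hV
      have hVm : MeasurableSet V :=
        (measurable_fst hD).inter ((measurable_snd measurableSet_Icc).inter (hm i (hRmm i)))
      have h1 : (μ.prod volume) V ≤ θ * μ D := by
        rw [Measure.prod_apply hVm]
        calc ∫⁻ z, volume (Prod.mk z ⁻¹' V) ∂μ ≤ ∫⁻ z, D.indicator (fun _ => θ) z ∂μ := by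
              refine lintegral_mono fun z => ?_
              by_cases hz : z ∈ D
              · rw [indicator_of_mem hz]
                refine (measure_mono ?_).trans (hline i z)
                intro x hx
                exact hx.2
              · rw [indicator_of_notMem hz]
                have : Prod.mk z ⁻¹' V = ∅ := by
                  rw [eq_empty_iff_forall_notMem]
                  intro x hx
                  exact hz hx.1
                rw [this, measure_empty]
          _ = θ * μ D := by rw [lintegral_indicator_const hD]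
      have h2 : (μ.prod volume) V = μ (Rm i) := by
        rw [Measure.prod_apply_symm hVm]
        have h3 : ∀ x : ℝ, μ ((fun z => (z, x)) ⁻¹' V) =
            (Icc (0 : ℝ) 1).indicator (fun _ => μ (Rm i)) x := by
          intro x
          by_cases hx : x ∈ Icc (0 : ℝ) 1
          · rw [indicator_of_mem hx]
            have h4 : (fun z => (z, x)) ⁻¹' V = (fun z => z * s i x) ⁻¹' (Rm i) := by
              ext z
              constructor
              · intro hz
                exact hz.2.2
              · intro hz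
                refine ⟨?_, hx, hz⟩
                have hz2 : z * s i x ∈ Rm i := hz
                simp only [hRm, mem_iUnion] at hz2
                obtain ⟨t, ht⟩ := hz2
                have h5 : z * s i x ∈ Γ := cl_anti s θ Γ (Nat.zero_le t) ht.1
                have h6 := hΓD _ h5 i (-x) (by
                  rw [abs_neg, abs_of_nonneg hx.1]
                  exact hx.2)
                have h7 : z * s i x * s i (-x) = z := by
                  rw [mul_assoc, ← hadd, add_neg_cancel, h0, mul_one]
                rwa [h7] at h6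
            rw [h4]
            exact (hinv i x).measure_preimage (hRmm i).nullMeasurableSet
          · rw [indicator_of_notMem hx]
            have : (fun z => (z, x)) ⁻¹' V = ∅ := by
              rw [eq_empty_iff_forall_notMem]
              intro z hz
              exact hx hz.2.1
            rw [this, measure_empty]
        simp_rw [h3]
        rw [lintegral_indicator_const measurableSet_Icc]
        simp
      rwa [h2] at h1
    calc μ (Γ \ ⋂ t, G t) ≤ μ (⋃ i, Rm i) := measure_mono hcov
      _ ≤ ∑ i, μ (Rm i) := measure_iUnion_fintype_le _ _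
      _ ≤ ∑ _i : ι, θ * μ D := Finset.sum_le_sum fun i _ => hbd i
      _ = Nat.card ι * (θ * μ D) := by
          rw [Finset.sum_const, Finset.card_univ, nsmul_eq_mul, Nat.card_eq_fintype_card]
  · intro z hz i
    have h1 : ∀ t, θ ≤ win s i (G t) z := by
      intro t
      have := mem_iInter.1 hz (t + 1)
      exact this.2 i
    have h2 : Icc (-1 : ℝ) 1 ∩ {x | z * s i x ∈ ⋂ t, G t} =
        ⋂ t, (Icc (-1 : ℝ) 1 ∩ {x | z * s i x ∈ G t}) := by
      ext x
      simp only [mem_inter_iff, mem_setOf_eq, mem_iInter]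
      constructor
      · rintro ⟨h3, h4⟩ t
        exact ⟨h3, h4 t⟩
      · intro h3
        exact ⟨(h3 0).1, fun t => (h3 t).2⟩
    have hmx : Measurable fun x : ℝ => z * s i x := (hm i).comp measurable_prodMk_left
    unfold win
    rw [h2]
    have h3 := tendsto_measure_iInter_atTop (μ := (volume : Measure ℝ))
      (s := fun t => Icc (-1 : ℝ) 1 ∩ {x | z * s i x ∈ G t})
      (fun t => (measurableSet_Icc.inter (hmx (hGm t))).nullMeasurableSet)
      (fun t t' htt' => inter_subset_inter_right _ fun x hx => cl_anti s θ Γ htt' hx)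
      ⟨0, ((measure_mono inter_subset_left).trans_lt (by simp)).ne⟩
    exact ge_of_tendsto' h3 h1

end Vale.Agent.P188.H329
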