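import Vale.Agent.P188.H532.Input

/-!
# P188, route B: volume counts (measure transfer, lower spread)
-/

set_option linter.all false

namespace Vale.P188.H532

open MeasureTheory Set

variable {S E V ι L : Type} [Group S] [Group E] [MeasurableSpace E] [NormedAddCommGroup V]
    [NormedSpace ℝ V] [Fintype ι] [DecidableEq ι] [Fintype L]

theorem sh_sh' {ι : Type} (ρ : Option ι → ℝ) (r r' : ℝ) : sh (sh ρ r) r' = sh ρ (r + r') := by
  funext j
  simp only [sh]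
  ring

/-- a family of maximal cardinality -/
theorem exists_maxcard {α : Type} (P : Finset α → Prop) (h0 : P ∅) (M : ℕ)
    (hM : ∀ F, P F → F.card ≤ M) : ∃ F, P F ∧ ∀ F', P F' → F'.card ≤ F.card := by
  classical
  have h1 : ∃ F, P F ∧ F.card = Nat.findGreatest (fun n => ∃ F, P F ∧ F.card = n) M :=
    Nat.findGreatest_spec (P := fun n => ∃ F, P F ∧ F.card = n) (Nat.zero_le M)
      ⟨∅, h0, Finset.card_empty⟩
  obtain ⟨F, hF, hF2⟩ := h1
  refine ⟨F, hF, fun F' hF' => ?_⟩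
  rw [hF2]
  exact Nat.le_findGreatest (hM F' hF') ⟨F', hF', rfl⟩

/-- the cell `n * cj κ (N 0)` -/
def Geo.cell (G : Geo S E V ι L) (κ : S) (n : E) : Set E :=
  {y | G.cj κ⁻¹ (n⁻¹ * y) ∈ G.N fun _ => 0}

theorem Geo.cell_meas (G : Geo S E V ι L) (κ : S) (n : E) : MeasurableSet (G.cell κ n) := by
  haveI := G.ν_mm
  exact ((G.cj_mp κ⁻¹).measurable.comp (measurable_const_mul n⁻¹)) (G.N_meas _)

theorem Geo.cell_vol (G : Geo S E V ι L) (κ : S) (n : E) :
    G.ν (G.cell κ n) = G.ν (G.N fun _ => 0) := by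
  haveI := G.ν_mm
  haveI := G.ν_left
  have h1 : G.cell κ n = (fun y => n⁻¹ * y) ⁻¹' (G.cj κ⁻¹ ⁻¹' (G.N fun _ => 0)) := rfl
  rw [h1, measure_preimage_mul,
    (G.cj_mp κ⁻¹).measure_preimage (G.N_meas _).nullMeasurableSet]

theorem Geo.mem_cell (G : Geo S E V ι L) (κ : S) (n y : E) :
    y ∈ G.cell κ n ↔ ∃ u ∈ G.N (fun _ => 0), y = n * G.cj κ u := by
  constructor
  · intro hy
    refine ⟨G.cj κ⁻¹ (n⁻¹ * y), hy, ?_⟩
    rw [map_inv, MulAut.apply_inv_self, mul_inv_cancel_left]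
  · rintro ⟨u, hu, rfl⟩
    show G.cj κ⁻¹ (n⁻¹ * (n * G.cj κ u)) ∈ G.N fun _ => 0
    rw [inv_mul_cancel_left, map_inv, MulAut.inv_apply_self]
    exact hu

/-- **MT** (measure transfer). -/
theorem mt (G : Geo S E V ι L) (Λ : ℝ) : ∃ K : ℝ, 1 ≤ K ∧ ∀ Ψ : S → S, QIe G Λ Ψ →
    ∀ (g w : S) (Ω Z : Set E) (𝒦 : Finset S),
      (∀ a ∈ Ω, ∃ n : E, ∃ κ ∈ 𝒦, Ψ (g * G.inc a) = w * (G.inc n * κ) ∧
        ∀ u ∈ G.N (fun _ => 0), n * G.cj κ u ∈ Z) →
      G.ν Ω ≤ ENNReal.ofReal (K * 𝒦.card) * G.ν Z := by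
  classical
  haveI := G.ν_mm
  haveI := G.ν_left
  have hC : 0 ≤ G.C := by linarith [G.one_le_C]
  obtain ⟨B, hB⟩ := G.N_bdd (2 * G.C)
  set r : ℝ := Λ * (B + 1) with hr
  set ρ1 : Option ι → ℝ := rn (G.C * (r + 1)) (G.er r) with hρ1
  set v0 := G.ν (G.N fun _ => 0) with hv0
  have hv0p : v0 ≠ 0 := (G.ν_N_pos _ fun _ => le_rfl).ne'
  have hv0t : v0 ≠ ⊤ := (G.ν_N_top _).ne
  set v1 := G.ν (G.N ρ1) with hv1
  have hv1t : v1 ≠ ⊤ := (G.ν_N_top _).ne
  set K : ℝ := max 1 (v1 / v0).toReal with hK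
  have hK1 : 1 ≤ K := le_max_left _ _
  have hKv : v1 / v0 ≤ ENNReal.ofReal K := by
    rw [hK, ← ENNReal.ofReal_toReal (ENNReal.div_ne_top hv1t hv0p)]
    refine ENNReal.ofReal_le_ofReal ?_
    rw [ENNReal.ofReal_toReal (ENNReal.div_ne_top hv1t hv0p)]
    exact le_max_right _ _
  refine ⟨K, hK1, fun Ψ hΨ g w Ω Z 𝒦 hΩ => ?_⟩
  rcases 𝒦.eq_empty_or_nonempty with h𝒦 | h𝒦
  · have : Ω = ∅ := by
      rw [eq_empty_iff_forall_notMem]
      intro a ha
      obtain ⟨n, κ, hκ, -⟩ := hΩ a ha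
      rw [h𝒦] at hκ
      exact absurd hκ (Finset.notMem_empty κ)
    rw [this, measure_empty]
    exact zero_le
  have hcard : (1 : ℝ) ≤ 𝒦.card := by exact_mod_cast h𝒦.card_pos
  by_cases hZ : G.ν Z = ⊤
  · rw [hZ, ENNReal.mul_top]
    · exact le_top
    · simp only [ne_eq, ENNReal.ofReal_eq_zero, not_le]
      positivity
  set Z' := toMeasurable G.ν Z with hZ'
  -- the points of the class `κ`
  have hpart : ∀ κ ∈ 𝒦, G.ν {a | ∃ n : E, Ψ (g * G.inc a) = w * (G.inc n * κ) ∧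
      ∀ u ∈ G.N (fun _ => 0), n * G.cj κ u ∈ Z} ≤ ENNReal.ofReal K * G.ν Z := by
    intro κ _
    set Ωκ : Set E := {a | ∃ n : E, Ψ (g * G.inc a) = w * (G.inc n * κ) ∧
      ∀ u ∈ G.N (fun _ => 0), n * G.cj κ u ∈ Z} with hΩκ
    choose! na hna1 hna2 using fun (a : E) (ha : a ∈ Ωκ) => ha
    have hcell : ∀ a ∈ Ωκ, G.cell κ (na a) ⊆ Z' := by
      intro a ha y hy
      obtain ⟨u, hu, rfl⟩ := (G.mem_cell κ _ y).1 hy
      exact subset_toMeasurable _ _ (hna2 a ha u hu)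
    set P : Finset E → Prop := fun F => (∀ f ∈ F, f ∈ Ωκ) ∧
      (F : Set E).PairwiseDisjoint fun f => G.cell κ (na f) with hP
    have hPc : ∀ F, P F → (F.card : ENNReal) * v0 ≤ G.ν Z := by
      rintro F ⟨hF1, hF2⟩
      calc (F.card : ENNReal) * v0 = ∑ f ∈ F, G.ν (G.cell κ (na f)) := by
            rw [Finset.sum_congr rfl fun f _ => G.cell_vol κ (na f), Finset.sum_const, nsmul_eq_mul]
        _ = G.ν (⋃ f ∈ F, G.cell κ (na f)) :=
            (measure_biUnion_finset hF2 fun f _ => G.cell_meas κ (na f)).symm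
        _ ≤ G.ν Z' := measure_mono (iUnion₂_subset fun f hf => hcell f (hF1 f hf))
        _ = G.ν Z := measure_toMeasurable _
    have hM : ∀ F, P F → F.card ≤ ⌊(G.ν Z / v0).toReal⌋₊ := by
      intro F hF
      have h1 : (F.card : ENNReal) ≤ G.ν Z / v0 := by
        rw [ENNReal.le_div_iff_mul_le (Or.inl hv0p) (Or.inl hv0t)]
        exact hPc F hF
      refine Nat.le_floor ?_
      have := ENNReal.toReal_mono (ENNReal.div_ne_top hZ hv0p) h1
      simpa using this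
    obtain ⟨F, hF, hFmax⟩ := exists_maxcard P ⟨by simp, by simp⟩ _ hM
    have hcov : Ωκ ⊆ ⋃ f ∈ F, {a | f⁻¹ * a ∈ G.N ρ1} := by
      intro a ha
      have h1 : ∃ f ∈ F, ¬ Disjoint (G.cell κ (na a)) (G.cell κ (na f)) := by
        by_contra hcon
        push Not at hcon
        have haF : a ∉ F := by
          intro haF
          have h2 := hcon a haF
          rw [disjoint_self, bot_eq_empty] at h2
          have h3 := G.cell_vol κ (na a)
          rw [h2, measure_empty] at h3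
          exact hv0p h3.symm
        have h2 : P (insert a F) := by
          refine ⟨?_, ?_⟩
          · intro f hf
            rcases Finset.mem_insert.1 hf with rfl | hf
            · exact ha
            · exact hF.1 f hf
          · rw [Finset.coe_insert]
            exact hF.2.insert fun f hf _ => hcon f hf
        have h3 := hFmax _ h2
        rw [Finset.card_insert_of_notMem haF] at h3
        omega
      obtain ⟨f, hf, hdis⟩ := h1
      obtain ⟨y, hy1, hy2⟩ := not_disjoint_iff.1 hdis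
      obtain ⟨u, hu, hyu⟩ := (G.mem_cell κ _ y).1 hy1
      obtain ⟨u', hu', hyu'⟩ := (G.mem_cell κ _ y).1 hy2
      have hfΩ := hF.1 f hf
      have h2 : (na f)⁻¹ * na a = G.cj κ (u' * u⁻¹) := by
        rw [map_mul, map_inv, inv_mul_eq_iff_eq_mul, ← mul_assoc, eq_mul_inv_iff_mul_eq, ← hyu, hyu']
      have h3 : (Ψ (g * G.inc f))⁻¹ * Ψ (g * G.inc a) = G.inc (u' * u⁻¹) := by
        rw [hna1 f hfΩ, hna1 a ha]
        have h4 : (w * (G.inc (na f) * κ))⁻¹ * (w * (G.inc (na a) * κ)) =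
            κ⁻¹ * G.inc ((na f)⁻¹ * na a) * κ := by
          rw [map_mul, map_inv]
          group
        rw [h4, h2, G.inc_cj]
        group
      have h5 : u' * u⁻¹ ∈ G.N (sh (fun _ => 0) (2 * G.C)) := by
        have h6 : u' ∈ G.N (sh (fun _ => 0) G.C) := G.N_mono _ _ (fun j => by simp only [sh]; linarith) hu'
        have h7 := G.N_inv _ (fun _ => le_rfl) u hu
        have h8 := G.N_mul (sh (fun _ => 0) G.C) (fun j => by simp only [sh]; linarith) _ h6 _ h7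
        have h9 : sh (sh (fun _ : Option ι => (0 : ℝ)) G.C) G.C = sh (fun _ => 0) (2 * G.C) := by
          funext j
          simp only [sh]
          ring
        rwa [h9] at h8
      have h6 : G.l (G.inc (u' * u⁻¹)) ≤ B := hB _ (fun j => by simp only [sh]; linarith) _ h5
      have h7 := hΨ.low (g * G.inc f) (G.inc (f⁻¹ * a))
      have h8 : g * G.inc f * G.inc (f⁻¹ * a) = g * G.inc a := by
        rw [mul_assoc, ← map_mul, mul_inv_cancel_left]
      rw [h8, h3] at h7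
      have h9 : G.l (G.inc (f⁻¹ * a)) ≤ r := by
        refine h7.trans ?_
        have := hΨ.one_le
        rw [hr]
        gcongr
      simp only [mem_iUnion]
      exact ⟨f, hf, G.len_N _ _ h9⟩
    calc G.ν Ωκ ≤ ∑ f ∈ F, G.ν {a | f⁻¹ * a ∈ G.N ρ1} :=
          (measure_mono hcov).trans (measure_biUnion_finset_le _ _)
      _ = (F.card : ENNReal) * v1 := by
          have h1 : ∀ f ∈ F, G.ν {a | f⁻¹ * a ∈ G.N ρ1} = v1 := fun f _ =>
            measure_preimage_mul G.ν f⁻¹ (G.N ρ1)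
          rw [Finset.sum_congr rfl h1, Finset.sum_const, nsmul_eq_mul]
      _ = (v1 / v0) * ((F.card : ENNReal) * v0) := by
          rw [mul_left_comm, ENNReal.div_mul_cancel hv0p hv0t]
      _ ≤ ENNReal.ofReal K * G.ν Z := mul_le_mul' hKv (hPc F hF)
  have hsub : Ω ⊆ ⋃ κ ∈ 𝒦, {a | ∃ n : E, Ψ (g * G.inc a) = w * (G.inc n * κ) ∧
      ∀ u ∈ G.N (fun _ => 0), n * G.cj κ u ∈ Z} := by
    intro a ha
    obtain ⟨n, κ, hκ, h1⟩ := hΩ a ha
    simp only [mem_iUnion]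
    exact ⟨κ, hκ, n, h1⟩
  calc G.ν Ω ≤ ∑ κ ∈ 𝒦, G.ν {a | ∃ n : E, Ψ (g * G.inc a) = w * (G.inc n * κ) ∧
      ∀ u ∈ G.N (fun _ => 0), n * G.cj κ u ∈ Z} := (measure_mono hsub).trans (measure_biUnion_finset_le _ _)
    _ ≤ ∑ κ ∈ 𝒦, ENNReal.ofReal K * G.ν Z := Finset.sum_le_sum hpart
    _ = ENNReal.ofReal (K * 𝒦.card) * G.ν Z := by
        rw [Finset.sum_const, nsmul_eq_mul, ENNReal.ofReal_mul (by linarith),
          ENNReal.ofReal_natCast]
        ring


/-- the crossed homomorphisms on conjugates -/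
theorem Geo.D_cj (G : Geo S E V ι L) (j : ι) (κ : S) (u : E) :
    G.D j (G.inc (G.cj κ u)) = G.χ j κ * G.D j (G.inc u) := by
  have h1 : G.D j 1 = 0 := by
    have := G.D_mul j 1 1
    have h2 : G.χ j 1 = 1 := by
      have := G.χ_inc j 1
      rwa [map_one] at this
    rw [mul_one, h2, one_mul] at this
    linear_combination -this
  have h2 : G.D j (κ * κ⁻¹) = 0 := by rw [mul_inv_cancel, h1]
  rw [G.D_mul] at h2
  rw [G.inc_cj, mul_assoc, G.D_mul, G.D_mul, G.χ_inc, one_mul, mul_add]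
  linear_combination h2

theorem Geo.D_inc_mul (G : Geo S E V ι L) (j : ι) (n : E) (h : S) :
    G.D j (G.inc n * h) = G.D j (G.inc n) + G.D j h := by
  rw [G.D_mul, G.χ_inc, one_mul]

theorem ob_le (G : Geo S E V ι L) (o : Option ι) (v : V) : ob G.b o v ≤ G.C * ‖v‖ := by
  have hC : 0 ≤ G.C := by linarith [G.one_le_C]
  cases o with
  | none => simp only [ob, LinearMap.zero_apply]; positivity
  | some j => exact (le_abs_self _).trans (G.b_le j v)

theorem Geo.er_nonneg (G : Geo S E V ι L) (r : ℝ) : 0 ≤ G.er r := by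
  linarith [G.er_ge r, G.one_le_C]

/-- conjugates of the unit box by `κ ∈ Ca`, `‖θ κ‖ ≤ s` -/
theorem Geo.cj_unit (G : Geo S E V ι L) {κ : S} (hκ : κ ∈ G.Ca) {s : ℝ} (hs : ‖G.θ κ‖ ≤ s)
    {u : E} (hu : u ∈ G.N fun _ => 0) {ρ : Option ι → ℝ} (hρ : ∀ o, 0 ≤ ρ o) {t : ℝ}
    (ht : G.C * s + G.er s ≤ t) : G.cj κ u ∈ G.N (sh ρ t) := by
  have hC : 0 ≤ G.C := by linarith [G.one_le_C]
  have hs0 : 0 ≤ s := (norm_nonneg _).trans hs
  have ht0 : 0 ≤ t := le_trans (add_nonneg (mul_nonneg hC hs0) (G.er_nonneg s)) ht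
  refine G.cj_Ca κ hκ (fun _ => 0) (sh ρ t) (fun _ => le_rfl) (fun o => by
    simp only [sh]; linarith [hρ o]) (fun o => ?_) u hu
  have h1 := ob_le G o (G.θ κ)
  have h2 : G.C * ‖G.θ κ‖ ≤ G.C * s := by gcongr
  have h3 := G.er_mono hs
  simp only [sh]
  linarith [hρ o]

/-- **lower bound for the spread of `D j`.** -/
theorem low_count (G : Geo S E V ι L) (Λ : ℝ) : ∃ K : ℝ, 1 ≤ K ∧ ∀ Ψ : S → S, QIe G Λ Ψ →
    ∀ (g : S) (a0 : E) (j : ι) (ρ : Option ι → ℝ) (s R : ℝ) (Z : Set E), (∀ o, 0 ≤ ρ o) → 0 ≤ s →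
      0 ≤ R →
      (∀ a ∈ Z, ∃ n ∈ G.N (sh ρ s), ∃ κ ∈ G.Ca, ‖G.θ κ‖ ≤ s ∧
        (Ψ (g * G.inc a0))⁻¹ * Ψ (g * G.inc a) = G.inc n * κ) →
      (∀ a ∈ Z, ‖G.D j ((Ψ (g * G.inc a0))⁻¹ * Ψ (g * G.inc a))‖ ≤ Real.exp R) →
      ENNReal.ofReal (1 / 2) * G.ν (G.N ρ) ≤ G.ν Z →
      ρ (some j) ≤ R + K * (1 + s + G.er s) := by
  classical
  have hC1 := G.one_le_C
  have hC : 0 ≤ G.C := by linarith
  obtain ⟨K0, hK0, hmt⟩ := mt G Λ
  obtain ⟨B, hB⟩ := G.N_bdd 0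
  set c0 : ℝ := G.C * Real.exp (G.C * B) with hc0
  have hc0' : 0 ≤ c0 := by positivity
  set K' : ℝ := Real.log (1 + c0) with hK'
  have hK'0 : 0 ≤ K' := Real.log_nonneg (by linarith)
  set Kf : ℝ := 1 + (G.C + K') + G.C * (Real.log (2 * K0) + 2 + 3 * G.C + G.C * G.C + G.C + 2) +
    G.C * G.C * (2 + G.C) with hKf
  have hlog : 0 ≤ Real.log (2 * K0) := Real.log_nonneg (by linarith)
  refine ⟨Kf, ?_, fun Ψ hΨ g a0 j ρ s R Z hρ hs hR h1 h2 h3 => ?_⟩
  · have : 0 ≤ (G.C + K') + G.C * (Real.log (2 * K0) + 2 + 3 * G.C + G.C * G.C + G.C + 2) +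
      G.C * G.C * (2 + G.C) := by positivity
    rw [hKf]
    linarith
  have her := G.er_nonneg s
  set s' : ℝ := s + G.C * s + G.er s + G.C with hs'
  have hs'0 : 0 ≤ s' := by positivity
  set R' : ℝ := R + G.C * s + K' with hR'
  have hR'0 : 0 ≤ R' := by positivity
  obtain ⟨𝒦, h𝒦1, h𝒦2, h𝒦3⟩ := G.Ca_fin s hs
  set Zp : Set E := ⋃ κ ∈ 𝒦, {n | n ∈ G.N (sh ρ s') ∧ ‖G.D j (G.inc n) - (-G.D j κ)‖ ≤ Real.exp R'}
    with hZp
  have h4 : G.ν Z ≤ ENNReal.ofReal (K0 * 𝒦.card) * G.ν Zp := by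
    refine hmt Ψ hΨ g (Ψ (g * G.inc a0)) Z Zp 𝒦 fun a ha => ?_
    obtain ⟨n, hn, κ, hκ, hκs, h5⟩ := h1 a ha
    refine ⟨n, κ, h𝒦3 κ hκ hκs, by rw [← h5, mul_inv_cancel_left], fun u hu => ?_⟩
    rw [hZp]
    simp only [mem_iUnion]
    refine ⟨κ, h𝒦3 κ hκ hκs, ?_, ?_⟩
    · have h6 : n ∈ G.N (sh ρ (s + G.C * s + G.er s)) := G.N_mono _ _ (fun o => by
        simp only [sh]
        have : 0 ≤ G.C * s := by positivity
        linarith) hn
      have h7 : G.cj κ u ∈ G.N (sh ρ (s + G.C * s + G.er s)) :=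
        G.cj_unit hκ hκs hu hρ (by linarith)
      have h8 := G.N_mul _ (fun o => by
        simp only [sh]
        have : 0 ≤ G.C * s := by positivity
        linarith [hρ o]) _ h6 _ h7
      have h9 : sh (sh ρ (s + G.C * s + G.er s)) G.C = sh ρ s' := by
        funext o
        simp only [sh, hs']
        ring
      rwa [h9] at h8
    · have h6 : G.D j (G.inc (n * G.cj κ u)) - (-G.D j κ) =
          G.D j (G.inc n * κ) + G.χ j κ * G.D j (G.inc u) := by
        rw [map_mul, G.D_inc_mul, G.D_inc_mul, G.D_cj]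
        ring
      have h7 := h2 a ha
      rw [h5] at h7
      have h8 : ‖G.χ j κ * G.D j (G.inc u)‖ ≤ Real.exp (G.C * s) * c0 := by
        rw [norm_mul, G.χ_norm]
        have h9 : G.b j (G.θ κ) ≤ G.C * s := by
          refine (ob_le G (some j) (G.θ κ)).trans ?_
          gcongr
        have h10 : ‖G.D j (G.inc u)‖ ≤ c0 := by
          refine (G.D_le j _).trans ?_
          have := hB (fun _ => 0) (fun _ => le_rfl) u hu
          rw [hc0]
          gcongr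
        gcongr
      rw [h6]
      refine (norm_add_le _ _).trans ((add_le_add h7 h8).trans ?_)
      have h9 : Real.exp R' = Real.exp (R + G.C * s) * (1 + c0) := by
        rw [hR', Real.exp_add, hK', Real.exp_log (by linarith)]
      rw [h9, Real.exp_add]
      have h10 : 1 ≤ Real.exp R := Real.one_le_exp hR
      have h11 : 1 ≤ Real.exp (G.C * s) := Real.one_le_exp (by positivity)
      have h12 : Real.exp (G.C * s) * c0 ≤ Real.exp R * Real.exp (G.C * s) * c0 := by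
        have : 0 ≤ Real.exp (G.C * s) * c0 := by positivity
        nlinarith
      nlinarith [Real.exp_pos R]
  -- volume of `Zp`
  have h5 : G.ν Zp ≤ ENNReal.ofReal (𝒦.card * (Real.exp (G.C - (ρ (some j) + s' - R') / G.C) *
      Real.exp (G.C * (1 + s')))) * G.ν (G.N ρ) := by
    calc G.ν Zp ≤ ∑ κ ∈ 𝒦, G.ν {n | n ∈ G.N (sh ρ s') ∧ ‖G.D j (G.inc n) - (-G.D j κ)‖ ≤ Real.exp R'} :=
          measure_biUnion_finset_le _ _
      _ ≤ ∑ κ ∈ 𝒦, ENNReal.ofReal (Real.exp (G.C - (ρ (some j) + s' - R') / G.C)) *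
          (ENNReal.ofReal (Real.exp (G.C * (1 + s'))) * G.ν (G.N ρ)) := by
            refine Finset.sum_le_sum fun κ _ => ?_
            refine (G.D_vol j (sh ρ s') (fun o => by simp only [sh]; linarith [hρ o]) R' _ hR'0).trans ?_
            have := G.ν_dbl ρ hρ s' hs'0
            simp only [sh] at this ⊢
            gcongr
      _ = _ := by
            rw [Finset.sum_const, nsmul_eq_mul, ENNReal.ofReal_mul (by positivity),
              ENNReal.ofReal_mul (by positivity), ENNReal.ofReal_natCast]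
            ring
  have h6 : ENNReal.ofReal (1 / 2) * G.ν (G.N ρ) ≤ ENNReal.ofReal (K0 * 𝒦.card * (𝒦.card *
      (Real.exp (G.C - (ρ (some j) + s' - R') / G.C) * Real.exp (G.C * (1 + s'))))) * G.ν (G.N ρ) := by
    refine h3.trans (h4.trans ?_)
    rw [ENNReal.ofReal_mul (p := K0 * 𝒦.card) (by positivity), mul_assoc]
    exact mul_le_mul' le_rfl h5
  have h7 : ENNReal.ofReal (1 / 2) ≤ ENNReal.ofReal (K0 * 𝒦.card * (𝒦.card *
      (Real.exp (G.C - (ρ (some j) + s' - R') / G.C) * Real.exp (G.C * (1 + s'))))) :=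
    (ENNReal.mul_le_mul_iff_left (G.ν_N_pos ρ hρ).ne' (G.ν_N_top ρ).ne).1 h6
  have h8 : (1 : ℝ) / 2 ≤ K0 * 𝒦.card * (𝒦.card *
      (Real.exp (G.C - (ρ (some j) + s' - R') / G.C) * Real.exp (G.C * (1 + s')))) :=
    (ENNReal.ofReal_le_ofReal_iff (by positivity)).1 h7
  have h9 : (1 : ℝ) / 2 ≤ K0 * Real.exp (G.er s) * (Real.exp (G.er s) *
      (Real.exp (G.C - (ρ (some j) + s' - R') / G.C) * Real.exp (G.C * (1 + s')))) := by
    refine h8.trans ?_
    gcongr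
  have h10 : 0 ≤ Real.log (2 * K0) + (G.er s + (G.er s + ((G.C - (ρ (some j) + s' - R') / G.C) +
      G.C * (1 + s')))) := by
    have h11 : (1 : ℝ) ≤ Real.exp (Real.log (2 * K0) + (G.er s + (G.er s +
        ((G.C - (ρ (some j) + s' - R') / G.C) + G.C * (1 + s'))))) := by
      rw [Real.exp_add, Real.exp_log (by linarith), Real.exp_add, Real.exp_add, Real.exp_add]
      linarith
    have := Real.log_le_log one_pos h11
    rwa [Real.log_one, Real.log_exp] at this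
  have h11 : (ρ (some j) + s' - R') / G.C ≤ Real.log (2 * K0) + 2 * G.er s + G.C + G.C * (1 + s') := by
    linarith
  rw [div_le_iff₀ (by linarith)] at h11
  have h12 : ρ (some j) ≤ R' - s' + (Real.log (2 * K0) + 2 * G.er s + G.C + G.C * (1 + s')) * G.C := by
    linarith
  refine h12.trans ?_
  rw [hR', hKf, hs']
  have h13 : 0 ≤ G.C * s := by positivity
  have h14 : 0 ≤ G.C * G.er s := by positivity
  have h15 : 0 ≤ G.C * G.C * s := by positivity
  have h16 : 0 ≤ G.C * G.C * G.er s := by positivity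
  have h17 : 0 ≤ G.C * G.C * G.C * s := by positivity
  have h18 : 0 ≤ G.C * G.C * G.C * G.er s := by positivity
  have h19 : 0 ≤ G.C * Real.log (2 * K0) * s := by positivity
  have h20 : 0 ≤ G.C * Real.log (2 * K0) * G.er s := by positivity
  have h21 : 0 ≤ K' * s := by positivity
  have h22 : 0 ≤ K' * G.er s := by positivity
  have h23 : 0 ≤ G.C * G.C * G.C := by positivity
  have h24 : 0 ≤ G.C * G.C := by positivity
  nlinarith

theorem cbump_none {ι : Type} [DecidableEq ι] (ρ : Option ι → ℝ) (i : ι) (l c : ℝ) :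
    bump ρ (some i) l c none = ρ none := by
  simp [bump]

theorem cbump_self {ι : Type} [DecidableEq ι] (ρ : Option ι → ℝ) (i : ι) (l c : ℝ) :
    bump ρ (some i) l c (some i) = ρ (some i) + l := by
  simp [bump]

theorem cbump_ne {ι : Type} [DecidableEq ι] (ρ : Option ι → ℝ) {i j : ι} (h : j ≠ i) (l c : ℝ) :
    bump ρ (some i) l c (some j) = ρ (some j) - c := by
  have : (some i : Option ι) ≠ some j := by simpa using h.symm
  simp [bump, h.symm]

theorem bump_in (G : Geo S E V ι L) (i : ι) (x : ℝ) (ρ : Option ι → ℝ) (s M e : ℝ) (κ1 κ2 : S)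
    (m2 u : E) (hρ : ∀ j, G.c1 * x ≤ ρ (some j)) (hρ0 : 0 ≤ ρ none) (hs : 0 ≤ s) (hM : 0 ≤ M)
    (hx : 0 ≤ x) (he : 0 ≤ e) (hκ1 : κ1 ∈ G.Ca) (hκ2 : κ2 ∈ G.Ca) (h1 : ‖G.θ κ1‖ ≤ s)
    (h2 : G.C * ‖G.θ κ2‖ ≤ G.c1 / 4 * x) (h3 : G.C * (M + 1) ≤ G.c1 / 2 * x)
    (her1 : G.er ‖G.θ κ1‖ ≤ e) (her2 : G.er ‖G.θ κ2‖ ≤ e) (hb : G.b i (G.θ κ2) ≤ M + s)
    (hm2 : m2 ∈ G.N (sh (bump ρ (some i) M (G.c1 / 2 * x)) s)) (hu : u ∈ G.N fun _ => 0) :
    G.cj κ1 (m2 * G.cj κ2 u) ∈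
      G.N (bump (sh ρ (s + e + G.C + G.C * s + e)) (some i) M (G.C * (M + 1))) := by
  have hC1 := G.one_le_C
  have hC : 0 < G.C := by linarith
  have hc1 := G.c1_pos
  have hcx : 0 ≤ G.c1 * x := by positivity
  have hCs : 0 ≤ G.C * s := by positivity
  set bρ := bump ρ (some i) M (G.c1 / 2 * x) with hbρ
  have hbnn : ∀ o, 0 ≤ bρ o := by
    intro o
    cases o with
    | none => rw [hbρ, cbump_none]; exact hρ0
    | some j =>
      by_cases hj : j = i
      · rw [hj, hbρ, cbump_self]; linarith [hρ i]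
      · rw [hbρ, cbump_ne _ hj]
        linarith [hρ j]
  have h6 : G.cj κ2 u ∈ G.N (sh bρ (s + e)) := by
    refine G.cj_Ca κ2 hκ2 (fun _ => 0) _ (fun _ => le_rfl) (fun o => by
      simp only [sh]; linarith [hbnn o]) (fun o => ?_) u hu
    cases o with
    | none =>
      rw [hbρ]
      simp only [sh, ob, LinearMap.zero_apply, cbump_none]
      linarith
    | some j =>
      by_cases hj : j = i
      · subst hj
        rw [hbρ]
        simp only [sh, ob, cbump_self]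
        linarith [hρ j]
      · rw [hbρ]
        simp only [sh, ob, cbump_ne _ hj]
        have h8 : G.b j (G.θ κ2) ≤ G.C * ‖G.θ κ2‖ := ob_le G (some j) _
        linarith [hρ j]
  have h7 : m2 ∈ G.N (sh bρ (s + e)) := G.N_mono _ _ (fun o => by simp only [sh]; linarith) hm2
  have h8 := G.N_mul _ (fun o => by simp only [sh]; linarith [hbnn o]) _ h7 _ h6
  have h9 : G.cj κ1 (m2 * G.cj κ2 u) ∈ G.N (sh bρ (s + e + G.C + G.C * s + e)) := by
    refine G.cj_Ca κ1 hκ1 _ _ (fun o => by simp only [sh]; linarith [hbnn o]) (fun o => by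
      simp only [sh]; linarith [hbnn o]) (fun o => ?_) _ h8
    have h10 : ob G.b o (G.θ κ1) ≤ G.C * s := (ob_le G o _).trans (by gcongr)
    simp only [sh]
    linarith
  refine G.N_mono _ _ (fun o => ?_) h9
  cases o with
  | none =>
    rw [cbump_none]
    simp only [sh, hbρ, cbump_none]
    exact le_rfl
  | some j =>
    by_cases hj : j = i
    · subst hj
      rw [cbump_self]
      simp only [sh, hbρ, cbump_self]
      linarith
    · rw [cbump_ne _ hj]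
      simp only [sh, hbρ, cbump_ne _ hj]
      linarith

/-- covering of the extended box -/
theorem bump_cov (G : Geo S E V ι L) (i : ι) (x : ℝ) (ρ : Option ι → ℝ) (M t : ℝ)
    (hwin : ∀ j, |ρ (some j) - x * G.p j| ≤ (G.δ0 / 2) * x) (hρ0 : 0 ≤ ρ none) (hM : 0 ≤ M)
    (hMx : M ≤ G.δ0 * x) (ht0 : 0 ≤ t) (ht : t + ρ none ≤ G.δ0 / 2 * x) (hx : 0 ≤ x)
    (h3 : G.C * (M + 1) ≤ G.c1 / 2 * x) :
    ∃ F : Finset E, (F.card : ℝ) ≤ Real.exp (G.H (some i) ρ M + G.C * (1 + t) + G.C) ∧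
      ∀ y ∈ G.N (bump (sh ρ t) (some i) M (G.C * (M + 1))), ∃ z ∈ F, ∃ n ∈ G.N (sh ρ (t + G.C)),
        y = n * z := by
  have hC1 := G.one_le_C
  have hc1 := G.c1_pos
  have hδ0 := G.δ0_pos
  have hdx : 0 ≤ G.δ0 / 2 * x := by positivity
  have hcx : 0 ≤ G.c1 * x := by positivity
  have hρlb : ∀ j, G.c1 * x ≤ ρ (some j) := by
    intro j
    have h1 := (abs_le.1 (hwin j)).1
    have h2 := mul_le_mul_of_nonneg_left (G.p_lb j) hx
    nlinarith
  have hρnn : ∀ o, 0 ≤ ρ o := by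
    intro o
    cases o with
    | none => exact hρ0
    | some j => exact hcx.trans (hρlb j)
  have hρ3nn : ∀ o, 0 ≤ sh ρ t o := fun o => by simp only [sh]; linarith [hρnn o]
  obtain ⟨F, hF1, hF2⟩ := G.cov (some i) x (sh ρ t) M
    (fun j => by
      have h1 := abs_le.1 (hwin j)
      simp only [sh]
      rw [abs_le]
      constructor <;> linarith)
    (hρ3nn none)
    (by
      simp only [sh]
      linarith)
    hM hMx
    (fun j => by
      simp only [sh]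
      linarith [hρlb j])
  refine ⟨F, hF1.trans (Real.exp_le_exp.2 ?_), ?_⟩
  · have := G.H_sh (some i) ρ (sh ρ t) M t hρnn hρ3nn hM ht0 (fun o => by
      simp only [sh]
      rw [add_sub_cancel_left, abs_of_nonneg ht0])
    linarith
  · intro y hy
    obtain ⟨z, hz, n, hn, hyn⟩ := hF2 y hy
    rw [sh_sh'] at hn
    exact ⟨z, hz, n, hn, hyn⟩

/-- the union of the translated boxes -/
theorem trans_vol (G : Geo S E V ι L) (ρ : Option ι → ℝ) (hρ : ∀ o, 0 ≤ ρ o) (T : ℝ) (hT : 0 ≤ T)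
    (F : Finset E) : G.ν (⋃ z ∈ F, {y | y * z⁻¹ ∈ G.N (sh ρ T)}) ≤
      ENNReal.ofReal (F.card * Real.exp (G.C * (1 + T))) * G.ν (G.N ρ) := by
  haveI := G.ν_mm
  haveI := G.ν_right
  calc G.ν (⋃ z ∈ F, {y | y * z⁻¹ ∈ G.N (sh ρ T)}) ≤ ∑ z ∈ F, G.ν {y | y * z⁻¹ ∈ G.N (sh ρ T)} :=
        measure_biUnion_finset_le _ _
    _ ≤ ∑ z ∈ F, ENNReal.ofReal (Real.exp (G.C * (1 + T))) * G.ν (G.N ρ) := by
        refine Finset.sum_le_sum fun z _ => ?_
        have h6 : G.ν {y | y * z⁻¹ ∈ G.N (sh ρ T)} = G.ν (G.N (sh ρ T)) :=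
          measure_preimage_mul_right G.ν z⁻¹ (G.N (sh ρ T))
        rw [h6]
        exact G.ν_dbl ρ hρ T hT
    _ = _ := by
        rw [Finset.sum_const, nsmul_eq_mul, ENNReal.ofReal_mul (by positivity),
          ENNReal.ofReal_natCast, mul_assoc]

theorem cnt_num (K0 C s e t T H c1 c2 K : ℝ) (hK0 : 1 ≤ K0) (hC : 0 < C) (hs : 0 ≤ s) (he : 0 ≤ e)
    (htle : t ≤ (2 + C) * (1 + s + e)) (hT : T = t + 2 * C) (hc1 : c1 ≤ Real.exp (e + e))
    (hc1' : 0 ≤ c1) (hc2 : c2 ≤ Real.exp (H + C * (1 + t) + C)) (hc2' : 0 ≤ c2)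
    (hK : Real.log K0 + 2 + 3 * C + 2 * C * C + 2 * C * (2 + C) ≤ K) :
    K0 * c1 * (c2 * Real.exp (C * (1 + T))) ≤ Real.exp (H + K * (1 + s + e)) := by
  have hlog : 0 ≤ Real.log K0 := Real.log_nonneg hK0
  set Kb : ℝ := Real.log K0 + 2 + 3 * C + 2 * C * C + 2 * C * (2 + C) with hKb
  calc K0 * c1 * (c2 * Real.exp (C * (1 + T)))
      ≤ Real.exp (Real.log K0) * Real.exp (e + e) *
        (Real.exp (H + C * (1 + t) + C) * Real.exp (C * (1 + T))) := by
        rw [Real.exp_log (by linarith)]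
        gcongr
    _ = Real.exp (Real.log K0 + (e + e) + (H + C * (1 + t) + C + C * (1 + T))) := by
        rw [← Real.exp_add, ← Real.exp_add, ← Real.exp_add]
    _ ≤ _ := by
        refine Real.exp_le_exp.2 ?_
        have h6 : Kb * (1 + s + e) ≤ K * (1 + s + e) := mul_le_mul_of_nonneg_right hK (by linarith)
        have h7 : C * t ≤ C * ((2 + C) * (1 + s + e)) := by gcongr
        have h9 : 0 ≤ Real.log K0 * (s + e) := by positivity
        have h10 : 0 ≤ C * (s + e) := by positivity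
        have h11 : 0 ≤ C * C * (s + e) := by positivity
        have h12 : C * (1 + T) = C + C * t + 2 * (C * C) := by rw [hT]; ring
        have h13 : Kb * (1 + s + e) = Real.log K0 + Real.log K0 * (s + e) +
            2 * (1 + s + e) + 3 * C + 3 * (C * (s + e)) + 2 * (C * C) +
            2 * (C * C * (s + e)) + 2 * (C * ((2 + C) * (1 + s + e))) := by
          rw [hKb]
          ring
        have h14 : C * (1 + t) = C + C * t := by ring
        rw [h12, h14]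
        linarith

/-- **upper count, the ray `i` extended by `M`.** -/
theorem bump_count (G : Geo S E V ι L) (Λ : ℝ) : ∃ K δ1 : ℝ, 1 ≤ K ∧ 0 < δ1 ∧ ∀ Ψ : S → S,
    QIe G Λ Ψ → ∀ (g : S) (a0 : E) (i : ι) (x : ℝ) (ρ : Option ι → ℝ) (s M : ℝ) (Ω : Set E),
      (∀ j, |ρ (some j) - x * G.p j| ≤ (G.δ0 / 2) * x) → 0 ≤ ρ none → 0 ≤ s → 0 ≤ M →
      M ≤ δ1 * x → K * (1 + s + ρ none + G.er x) ≤ x →
      (∀ a ∈ Ω, ∃ m1 ∈ G.N (sh ρ s), ∃ κ1 ∈ G.Ca,
        ∃ m2 ∈ G.N (sh (bump ρ (some i) M (G.c1 / 2 * x)) s), ∃ κ2 ∈ G.Ca,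
          ‖G.θ κ1‖ ≤ s ∧ ‖G.θ κ2‖ ≤ δ1 * x ∧ G.b i (G.θ κ2) ≤ M + s ∧
          (Ψ (g * G.inc a0))⁻¹ * Ψ (g * G.inc a) = G.inc m1 * κ1 * (G.inc m2 * κ2)) →
      G.ν Ω ≤ ENNReal.ofReal (Real.exp (G.H (some i) ρ M + K * (1 + s + G.er x))) * G.ν (G.N ρ) := by
  classical
  have hC1 := G.one_le_C
  have hC : 0 < G.C := by linarith
  have hc1 := G.c1_pos
  have hδ0 := G.δ0_pos
  obtain ⟨K0, hK0, hmt⟩ := mt G Λ
  have hlog : 0 ≤ Real.log K0 := Real.log_nonneg hK0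
  set Kb : ℝ := Real.log K0 + 2 + 3 * G.C + 2 * G.C * G.C + 2 * G.C * (2 + G.C) with hKb
  have hKb0 : 0 ≤ Kb := by positivity
  set K : ℝ := 1 + 4 * G.C / G.c1 + 2 * (2 + G.C) / G.δ0 + Kb with hK
  have hKa : 0 ≤ 4 * G.C / G.c1 := by positivity
  have hKc : 0 ≤ 2 * (2 + G.C) / G.δ0 := by positivity
  have hK1 : 1 ≤ K := by rw [hK]; linarith
  set δ1 : ℝ := min 1 (min G.δ0 (G.c1 / (4 * G.C))) with hδ1
  have hδ1p : 0 < δ1 := by
    rw [hδ1]
    refine lt_min one_pos (lt_min hδ0 (by positivity))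
  have hδ1a : δ1 ≤ 1 := min_le_left _ _
  have hδ1b : δ1 ≤ G.δ0 := (min_le_right _ _).trans (min_le_left _ _)
  have hδ1c : δ1 ≤ G.c1 / (4 * G.C) := (min_le_right _ _).trans (min_le_right _ _)
  refine ⟨K, δ1, hK1, hδ1p, fun Ψ hΨ g a0 i x ρ s M Ω hwin hρ0 hs hM hMx hKx hΩ => ?_⟩
  set e : ℝ := G.er x with he
  have he0 : 0 ≤ e := G.er_nonneg x
  have hsum : 1 ≤ 1 + s + ρ none + e := by linarith
  have hx : K ≤ x := le_trans (by nlinarith) hKx
  have hx1 : 1 ≤ x := hK1.trans hx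
  have hx0 : 0 ≤ x := by linarith
  have hsx : s ≤ x := by nlinarith
  have hers : G.er s ≤ e := G.er_mono hsx
  have hδx : δ1 * x ≤ x := by nlinarith
  have herd : G.er (δ1 * x) ≤ e := G.er_mono hδx
  -- smallness
  have hs1 : (2 + G.C) * (1 + s + ρ none + e) ≤ G.δ0 / 2 * x := by
    have h1 : 2 * (2 + G.C) / G.δ0 * (1 + s + ρ none + e) ≤ x := by
      refine le_trans ?_ hKx
      refine mul_le_mul_of_nonneg_right ?_ (by linarith)
      rw [hK]
      linarith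
    rw [div_mul_eq_mul_div, div_le_iff₀ hδ0] at h1
    linarith
  have hs2 : G.C ≤ G.c1 / 4 * x := by
    have h1 : 4 * G.C / G.c1 ≤ x := le_trans (by rw [hK]; linarith) hx
    rw [div_le_iff₀ hc1] at h1
    linarith
  have hs3 : G.C * (δ1 * x) ≤ G.c1 / 4 * x := by
    have h1 : G.C * δ1 ≤ G.c1 / 4 := by
      rw [le_div_iff₀ (by positivity)] at hδ1c
      linarith
    calc G.C * (δ1 * x) = G.C * δ1 * x := by ring
      _ ≤ G.c1 / 4 * x := by gcongr
  have hs4 : G.C * (M + 1) ≤ G.c1 / 2 * x := by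
    have : G.C * M ≤ G.C * (δ1 * x) := by gcongr
    linarith
  -- extents
  have hρlb : ∀ j, G.c1 * x ≤ ρ (some j) := by
    intro j
    have h1 := (abs_le.1 (hwin j)).1
    have h2 := mul_le_mul_of_nonneg_left (G.p_lb j) hx0
    have : 0 ≤ G.δ0 / 2 * x := by positivity
    nlinarith
  have hρnn : ∀ o, 0 ≤ ρ o := by
    intro o
    cases o with
    | none => exact hρ0
    | some j => exact le_trans (by positivity) (hρlb j)
  set t : ℝ := s + e + G.C + G.C * s + e with ht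
  have hCs : 0 ≤ G.C * s := by positivity
  have hCe : 0 ≤ G.C * e := by positivity
  have ht0 : 0 ≤ t := by positivity
  have htle : t ≤ (2 + G.C) * (1 + s + e) := by
    rw [ht]
    linarith
  have htle2 : t + ρ none ≤ G.δ0 / 2 * x := by
    refine le_trans ?_ hs1
    have : 0 ≤ G.C * ρ none := by positivity
    linarith
  obtain ⟨F, hF1, hF2⟩ := bump_cov G i x ρ M t hwin hρ0 hM (hMx.trans (by gcongr)) ht0 htle2 hx0 hs4
  set T : ℝ := t + 2 * G.C with hT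
  have hT0 : 0 ≤ T := by rw [hT]; positivity
  set Z : Set E := ⋃ z ∈ F, {y | y * z⁻¹ ∈ G.N (sh ρ T)} with hZ
  obtain ⟨𝒦1, h𝒦1a, -, h𝒦1b⟩ := G.Ca_fin s hs
  obtain ⟨𝒦2, h𝒦2a, -, h𝒦2b⟩ := G.Ca_fin (δ1 * x) (by positivity)
  have h𝒦 : ((Finset.image₂ (fun a b => a * b) 𝒦1 𝒦2).card : ℝ) ≤ Real.exp (e + e) := by
    have h1 : ((Finset.image₂ (fun a b => a * b) 𝒦1 𝒦2).card : ℝ) ≤ 𝒦1.card * 𝒦2.card := by
      exact_mod_cast Finset.card_image₂_le _ _ _
    refine h1.trans ?_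
    rw [Real.exp_add]
    have h2 : (𝒦1.card : ℝ) ≤ Real.exp e := h𝒦1a.trans (Real.exp_le_exp.2 hers)
    have h3 : (𝒦2.card : ℝ) ≤ Real.exp e := h𝒦2a.trans (Real.exp_le_exp.2 herd)
    gcongr
  have h4 : G.ν Ω ≤ ENNReal.ofReal (K0 * (Finset.image₂ (fun a b => a * b) 𝒦1 𝒦2).card) * G.ν Z := by
    refine hmt Ψ hΨ g (Ψ (g * G.inc a0)) Ω Z _ fun a ha => ?_
    obtain ⟨m1, hm1, κ1, hκ1, m2, hm2, κ2, hκ2, hθ1, hθ2, hbi2, heq⟩ := hΩ a ha
    refine ⟨m1 * G.cj κ1 m2, κ1 * κ2, Finset.mem_image₂.2 ⟨κ1, h𝒦1b κ1 hκ1 hθ1, κ2,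
      h𝒦2b κ2 hκ2 hθ2, rfl⟩, ?_, fun u hu => ?_⟩
    · rw [map_mul, G.inc_cj]
      have : G.inc m1 * (κ1 * G.inc m2 * κ1⁻¹) * (κ1 * κ2) = G.inc m1 * κ1 * (G.inc m2 * κ2) := by
        group
      rw [this, ← heq, mul_inv_cancel_left]
    · have h5 : m1 * G.cj κ1 m2 * G.cj (κ1 * κ2) u = m1 * G.cj κ1 (m2 * G.cj κ2 u) := by
        rw [map_mul, map_mul, MulAut.mul_apply, mul_assoc]
      have h10 := bump_in G i x ρ s M e κ1 κ2 m2 u hρlb hρ0 hs hM hx0 he0 hκ1 hκ2 hθ1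
        ((mul_le_mul_of_nonneg_left hθ2 hC.le).trans hs3) hs4 ((G.er_mono hθ1).trans hers)
        (G.er_mono (hθ2.trans hδx)) hbi2 hm2 hu
      obtain ⟨z, hz, n, hn, hyn⟩ := hF2 _ h10
      rw [h5, hyn]
      simp only [hZ, mem_iUnion]
      refine ⟨z, hz, ?_⟩
      show m1 * (n * z) * z⁻¹ ∈ G.N (sh ρ T)
      have h11 : m1 * (n * z) * z⁻¹ = m1 * n := by group
      rw [h11]
      have h12 : m1 ∈ G.N (sh ρ (t + G.C)) := G.N_mono _ _ (fun o => by
        simp only [sh, ht]; linarith) hm1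
      have h14 := G.N_mul _ (fun o => by simp only [sh]; linarith [hρnn o]) _ h12 _ hn
      rw [sh_sh'] at h14
      have h15 : t + G.C + G.C = T := by rw [hT]; ring
      rwa [h15] at h14
  have h5 := trans_vol G ρ hρnn T hT0 F
  calc G.ν Ω ≤ ENNReal.ofReal (K0 * (Finset.image₂ (fun a b => a * b) 𝒦1 𝒦2).card) *
        (ENNReal.ofReal (F.card * Real.exp (G.C * (1 + T))) * G.ν (G.N ρ)) :=
        h4.trans (mul_le_mul' le_rfl h5)
    _ = ENNReal.ofReal (K0 * (Finset.image₂ (fun a b => a * b) 𝒦1 𝒦2).card *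
        (F.card * Real.exp (G.C * (1 + T)))) * G.ν (G.N ρ) := by
        rw [ENNReal.ofReal_mul (p := K0 * _) (by positivity), mul_assoc]
    _ ≤ _ := by
        refine mul_le_mul' (ENNReal.ofReal_le_ofReal ?_) le_rfl
        exact cnt_num K0 G.C s e t T _ _ _ K hK0 hC hs he0 htle hT h𝒦 (Nat.cast_nonneg _) hF1
          (Nat.cast_nonneg _) (by rw [hK]; linarith)

end Vale.P188.H532
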