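import Vale.Agent.P188.H329.Conn

/-!
# P188, FILL block: connectivity, canonical version
-/

set_option linter.all false

namespace Vale.Agent.P188.H329

open Polynomial Set MeasureTheory

/-- the points from which most of the words `X u`, `‖u‖ ≤ R`, stay in `T` -/
def gsD {ι S : Type} [Group S] {d : Type} [Fintype d] (n : ℕ) (J : Fin n → ι)
    (X : (d → ℝ) → Fin n → ℝ) (R : ℝ) (β : ENNReal) (s : ι → ℝ → S) (T : Set S) : Set S :=
  {z | z ∈ T ∧ volume {u : d → ℝ | u ∈ Metric.closedBall (0 : d → ℝ) R ∧ X u ∉ ch s T n J z} ≤ β}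

theorem ch_mono {ι S : Type} [Group S] {s : ι → ℝ → S} {T T' : Set S} (hT : T ⊆ T') {n : ℕ}
    (J : Fin n → ι) (z : S) : ch s T n J z ⊆ ch s T' n J z := by
  induction n generalizing z with
  | zero => exact fun x hx => hT hx
  | succ n ih => exact fun x hx => ⟨hx.1, hT hx.2.1, ih _ _ hx.2.2⟩

theorem ch_equiv {ι S : Type} [Group S] {s : ι → ℝ → S} {T : Set S} {n : ℕ}
    (J : Fin n → ι) (y z : S) : ch s T n J (y * z) = ch s {e | y * e ∈ T} n J z := by
  induction n generalizing z with
  | zero => rfl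
  | succ n ih =>
    ext x
    show (_ ∧ y * z ∈ T ∧ _ ∈ ch s T n _ (y * z * s (J 0) (x 0))) ↔ (_ ∧ y * z ∈ T ∧ _ ∈ _)
    rw [mul_assoc, ih]

theorem gsD_subset {ι S : Type} [Group S] {d : Type} [Fintype d] {n : ℕ} {J : Fin n → ι}
    {X : (d → ℝ) → Fin n → ℝ} {R : ℝ} {β : ENNReal} {s : ι → ℝ → S} {T : Set S} :
    gsD n J X R β s T ⊆ T := fun _ h => h.1

theorem gsD_mono {ι S : Type} [Group S] {d : Type} [Fintype d] {n : ℕ} {J : Fin n → ι}
    {X : (d → ℝ) → Fin n → ℝ} {R : ℝ} {β : ENNReal} {s : ι → ℝ → S} {T T' : Set S} (hT : T ⊆ T') :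
    gsD n J X R β s T ⊆ gsD n J X R β s T' := by
  rintro z ⟨h1, h2⟩
  refine ⟨hT h1, le_trans (measure_mono ?_) h2⟩
  rintro u ⟨hu, hu2⟩
  exact ⟨hu, fun h => hu2 (ch_mono hT J z h)⟩

theorem gsD_equiv {ι S : Type} [Group S] {d : Type} [Fintype d] {n : ℕ} {J : Fin n → ι}
    {X : (d → ℝ) → Fin n → ℝ} {R : ℝ} {β : ENNReal} {s : ι → ℝ → S} {T : Set S} (y a : S) :
    y * a ∈ gsD n J X R β s T ↔ a ∈ gsD n J X R β s {e | y * e ∈ T} := by
  unfold gsD
  simp only [mem_setOf_eq, ch_equiv]

theorem gsD_meas {ι S : Type} [Group S] [MeasurableSpace S] {d : Type} [Fintype d] {n : ℕ}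
    {J : Fin n → ι} {X : (d → ℝ) → Fin n → ℝ} (hX : Measurable X) {R : ℝ} {β : ENNReal}
    {s : ι → ℝ → S} (hsm : ∀ i, Measurable fun q : S × ℝ => q.1 * s i q.2) {T : Set S}
    (hT : MeasurableSet T) : MeasurableSet (gsD n J X R β s T) := by
  have hVm : MeasurableSet {q : S × (d → ℝ) | q.2 ∈ Metric.closedBall (0 : d → ℝ) R ∧
      X q.2 ∉ ch s T n J q.1} := by
    refine (measurable_snd Metric.isClosed_closedBall.measurableSet).inter ?_
    have h1 : Measurable fun q : S × (d → ℝ) => ((q.1, X q.2) : S × (Fin n → ℝ)) :=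
      measurable_fst.prodMk (hX.comp measurable_snd)
    exact (h1 (ch_measurable hsm hT n J)).compl
  exact hT.inter ((measurable_measure_prodMk_left hVm) measurableSet_Iic)

/-- Connectivity with a canonical large subset. -/
theorem connD (ι : Type) [Finite ι] (r : ℕ) (c : ℕ) (C : ℝ) (hC : 0 ≤ C) :
    ∃ (n : ℕ) (K : ℝ) (d : Type) (_ : Fintype d) (J : Fin n → ι) (X : (d → ℝ) → Fin n → ℝ)
      (R : ℝ) (β : ENNReal), 0 ≤ K ∧ Measurable X ∧
      ∀ (S : Type) [Group S] [MeasurableSpace S] (s : ι → ℝ → S), Rel ι r s →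
      (∀ i, Measurable fun q : S × ℝ => q.1 * s i q.2) →
      ∀ G : Set S, MeasurableSet G →
        (∀ (μ : Measure S) [SFinite μ], (∀ w : S, MeasurePreserving (fun x => x * w) μ μ) →
          ∀ A A' : Set S, MeasurableSet A → (∀ a ∈ A, ∀ y, InP s n 1 a y → y ∈ A') →
          μ (A \ gsD n J X R β s G) ≤ ENNReal.ofReal K * μ (A' \ G)) ∧
        ∀ a ∈ gsD n J X R β s G, ∀ b ∈ gsD n J X R β s G, InP s c C a b →
          Reach s G (2 * n) a b := by
  classical
  set h := uNil ι r with hh
  obtain ⟨f⟩ := exists_frame (uE ι r)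
  haveI : Fintype ι := Fintype.ofFinite ι
  set l0 := f.T r with hl0
  -- radius
  obtain ⟨K2, hK2⟩ : ∃ K2 : ℕ, ∀ (K : Fin c → ι) (w : f.β r) (y : Fin c → ℝ) (u : f.β r → ℝ),
      |f.cc h ((pr h K y)⁻¹ * f.ch h u) w| ≤ K2 * (1 + ‖(y, u)‖) ^ K2 := by
    have hΘp : ∀ a : (Fin c → ι) × f.β r, (fun q : (Fin c → ℝ) × (f.β r → ℝ) =>
        f.cc h ((pr h a.1 q.1)⁻¹ * f.ch h q.2) a.2) ∈ Po ((Fin c → ℝ) × (f.β r → ℝ)) := by
      intro a
      have h1 : PFam h (fun q : (Fin c → ℝ) × (f.β r → ℝ) => (pr h a.1 q.1)⁻¹) :=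
        PFam.inv (PFam.pr h a.1 fun t =>
          Po.lin ((ContinuousLinearMap.proj (R := ℝ) (φ := fun _ : Fin c => ℝ) t).comp
            (ContinuousLinearMap.fst ℝ (Fin c → ℝ) (f.β r → ℝ))))
      have h2 : PFam h (fun q : (Fin c → ℝ) × (f.β r → ℝ) => f.ch h q.2) := by
        refine PFam.ev h _ fun w => ?_
        unfold Frame.ext
        by_cases hw : w ∈ f.bb r
        · simp only [dif_pos hw]
          exact Po.lin ((ContinuousLinearMap.proj (R := ℝ) (φ := fun _ : f.β r => ℝ)
            (⟨w, hw⟩ : f.β r)).comp (ContinuousLinearMap.snd ℝ (Fin c → ℝ) (f.β r → ℝ)))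
        · simp only [dif_neg hw]
          exact Po.const _
      exact PFam.cc f (PFam.mul h1 h2) a.2
    obtain ⟨K2, hK2⟩ := common_bound hΘp
    exact ⟨K2, fun K w y x => hK2 (K, w) (y, x)⟩
  set R : ℝ := K2 * (2 + C) ^ K2 + 1 with hR
  have hR1 : 1 ≤ R := by
    have : (0 : ℝ) ≤ K2 * (2 + C) ^ K2 := by positivity
    linarith
  obtain ⟨M, hM, hMb⟩ := exists_list_bound l0 fun q => |q.2.2.1| * R + |q.2.2.2|
  set l1 := dv M l0 with hl1
  set n := l1.length with hn
  set J : Fin n → ι := fun t => (l1.get t).1 with hJ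
  set X : (f.β r → ℝ) → (Fin n → ℝ) := fun u t => Sym.val (l1.get t) (f.ext u) with hX
  have hXpr : ∀ u, pr h J (X u) = f.ch h u := by
    intro u
    have h1 := ev_eq_pr h l1 (f.ext u)
    rw [← h1, hl1, ev_dv h hM]
    rfl
  have hextb : ∀ u : f.β r → ℝ, ‖u‖ ≤ R → ∀ w, |f.ext u w| ≤ R := by
    intro u hu w
    unfold Frame.ext
    by_cases hw : w ∈ f.bb r
    · rw [dif_pos hw]
      have := norm_le_pi_norm u ⟨w, hw⟩
      rw [Real.norm_eq_abs] at this
      exact this.trans hu
    · rw [dif_neg hw, abs_zero]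
      linarith
  have hX1 : ∀ u : f.β r → ℝ, ‖u‖ ≤ R → ∀ t, |X u t| ≤ 1 := by
    intro u hu t
    refine dv_val hM l0 (f.ext u) ?_ _ (List.get_mem l1 t)
    intro q hq
    refine le_trans ?_ (hMb q hq)
    refine (abs_add_le _ _).trans ?_
    rw [abs_mul]
    have := hextb u hu q.2.1
    gcongr
  have hextm : ∀ w, Measurable fun u : f.β r → ℝ => f.ext u w := by
    intro w
    unfold Frame.ext
    by_cases hw : w ∈ f.bb r
    · simp only [dif_pos hw]
      exact measurable_pi_apply _
    · simp only [dif_neg hw]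
      exact measurable_const
  have hXm : Measurable X := by
    refine measurable_pi_lambda _ fun t => ?_
    show Measurable fun u => (l1.get t).2.2.1 * f.ext u (l1.get t).2.1 + (l1.get t).2.2.2
    exact ((hextm _).const_mul _).add_const _
  set v1 : ENNReal := volume (Metric.closedBall (0 : f.β r → ℝ) 1) with hv1
  set vR : ENNReal := volume (Metric.closedBall (0 : f.β r → ℝ) R) with hvR
  have hv1p : v1 ≠ 0 := (Metric.measure_closedBall_pos volume _ one_pos).ne'
  have hv1t : v1 ≠ ⊤ := measure_closedBall_lt_top.ne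
  have hvRt : vR ≠ ⊤ := measure_closedBall_lt_top.ne
  set β : ENNReal := v1 / 4 with hβ
  have hβ0 : β ≠ 0 := ENNReal.div_ne_zero.2 ⟨hv1p, by norm_num⟩
  have hβt : β ≠ ⊤ := ENNReal.div_ne_top hv1t (by norm_num)
  set Kc : ENNReal := 1 + β⁻¹ * ((n + 1 : ℕ) * vR) with hKc
  have hKct : Kc ≠ ⊤ := ENNReal.add_ne_top.2 ⟨ENNReal.one_ne_top,
    ENNReal.mul_ne_top (ENNReal.inv_ne_top.2 hβ0) (ENNReal.mul_ne_top (ENNReal.natCast_ne_top _) hvRt)⟩
  refine ⟨n, Kc.toReal, f.β r, inferInstance, J, X, R, β, ENNReal.toReal_nonneg, hXm, ?_⟩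
  intro S _ _ s hs hsm G hG
  have h0 : ∀ i, s i 0 = 1 := hs.zero
  set V : Set (S × (f.β r → ℝ)) := {q | q.2 ∈ Metric.closedBall 0 R ∧ X q.2 ∉ ch s G n J q.1} with hV
  have hVm : MeasurableSet V := by
    refine (measurable_snd Metric.isClosed_closedBall.measurableSet).inter ?_
    have h1 : Measurable fun q : S × (f.β r → ℝ) => ((q.1, X q.2) : S × (Fin n → ℝ)) :=
      measurable_fst.prodMk (hXm.comp measurable_snd)
    exact (h1 (ch_measurable hsm hG n J)).compl
  set bad : S → ENNReal := fun z => volume (Prod.mk z ⁻¹' V) with hbad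
  have hbadm : Measurable bad := measurable_measure_prodMk_left hVm
  have hgs : gsD n J X R β s G = {z | z ∈ G ∧ bad z ≤ β} := rfl
  rw [hgs]
  refine ⟨?_, ?_⟩
  · -- most points are in `Gs`
    intro μ _ hmp A A' hA hAA'
    rw [ENNReal.ofReal_toReal hKct]
    have h1 : A \ {z | z ∈ G ∧ bad z ≤ β} ⊆ (A' \ G) ∪ {z | β ≤ A.indicator bad z} := by
      rintro z ⟨hz, hz2⟩
      by_cases hzG : z ∈ G
      · right
        have : β < bad z := by
          by_contra hcon
          exact hz2 ⟨hzG, not_lt.1 hcon⟩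
        show β ≤ A.indicator bad z
        rw [indicator_of_mem hz]
        exact this.le
      · left
        refine ⟨hAA' z hz z ⟨J, fun _ => 0, fun t => by simp, ?_⟩, hzG⟩
        have : prS s J (fun _ => 0) = 1 := by simp [prS, h0]
        rw [this, mul_one]
    have h2 : μ {z | β ≤ A.indicator bad z} ≤ β⁻¹ * ((n + 1 : ℕ) * vR * μ (A' \ G)) := by
      have h3 : μ {z | β ≤ A.indicator bad z} ≤ (∫⁻ z, A.indicator bad z ∂μ) / β :=
        meas_ge_le_lintegral_div (hbadm.indicator hA).aemeasurable hβ0 hβt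
      refine h3.trans ?_
      rw [ENNReal.div_eq_inv_mul]
      gcongr
      -- the integral
      have hVA : MeasurableSet (V ∩ {q : S × (f.β r → ℝ) | q.1 ∈ A}) :=
        hVm.inter (measurable_fst hA)
      have h4 : ∫⁻ z, A.indicator bad z ∂μ = (μ.prod volume) (V ∩ {q | q.1 ∈ A}) := by
        rw [Measure.prod_apply hVA]
        refine lintegral_congr fun z => ?_
        by_cases hz : z ∈ A
        · rw [indicator_of_mem hz]
          show volume (Prod.mk z ⁻¹' V) = _
          congr 1
          ext u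
          simp [hz]
        · rw [indicator_of_notMem hz]
          have : Prod.mk z ⁻¹' (V ∩ {q : S × (f.β r → ℝ) | q.1 ∈ A}) = ∅ := by
            ext u
            simp [hz]
          rw [this, measure_empty]
      rw [h4, Measure.prod_apply_symm hVA]
      calc ∫⁻ u, μ ((fun x => (x, u)) ⁻¹' (V ∩ {q | q.1 ∈ A})) ≤
          ∫⁻ u, (Metric.closedBall (0 : f.β r → ℝ) R).indicator
            (fun _ => (n + 1 : ℕ) * μ (A' \ G)) u := by
            refine lintegral_mono fun u => ?_
            by_cases hu : u ∈ Metric.closedBall (0 : f.β r → ℝ) R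
            · rw [indicator_of_mem hu]
              have hun : ‖u‖ ≤ R := mem_closedBall_zero_iff.1 hu
              have h5 : (fun x => (x, u)) ⁻¹' (V ∩ {q | q.1 ∈ A}) ⊆
                  ⋃ t ∈ Finset.range (n + 1), {z | z ∈ A ∧ z * prS s J (cut t (X u)) ∉ G} := by
                rintro z ⟨⟨_, hz1⟩, hz2⟩
                by_contra hcon
                apply hz1
                refine mem_ch h0 J (X u) z (hX1 u hun) fun t ht => ?_
                by_contra hcon2
                apply hcon
                simp only [mem_iUnion, Finset.mem_range]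
                exact ⟨t, by omega, hz2, hcon2⟩
              refine (measure_mono h5).trans ((measure_biUnion_finset_le _ _).trans ?_)
              have h6 : ∀ t ∈ Finset.range (n + 1),
                  μ {z | z ∈ A ∧ z * prS s J (cut t (X u)) ∉ G} ≤ μ (A' \ G) := by
                intro t _
                set p := prS s J (cut t (X u)) with hp
                have h7 : {z | z ∈ A ∧ z * p ∉ G} ⊆ (fun z => z * p) ⁻¹' (toMeasurable μ (A' \ G)) := by
                  rintro z ⟨hz1, hz2⟩
                  refine subset_toMeasurable _ _ ⟨hAA' z hz1 _ ⟨J, cut t (X u), fun q => ?_, rfl⟩, hz2⟩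
                  unfold cut
                  split_ifs
                  · exact hX1 u hun q
                  · simp
                refine (measure_mono h7).trans ?_
                rw [(hmp p).measure_preimage (measurableSet_toMeasurable _ _).nullMeasurableSet,
                  measure_toMeasurable]
              refine (Finset.sum_le_sum h6).trans ?_
              rw [Finset.sum_const, Finset.card_range, nsmul_eq_mul]
            · rw [indicator_of_notMem hu]
              have : (fun x => (x, u)) ⁻¹' (V ∩ {q : S × (f.β r → ℝ) | q.1 ∈ A}) = ∅ := by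
                rw [eq_empty_iff_forall_notMem]
                intro z hz
                exact hu hz.1.1
              rw [this, measure_empty]
        _ = (n + 1 : ℕ) * vR * μ (A' \ G) := by
            rw [lintegral_indicator_const Metric.isClosed_closedBall.measurableSet]
            ring
    calc μ (A \ {z | z ∈ G ∧ bad z ≤ β}) ≤ μ (A' \ G) + β⁻¹ * ((n + 1 : ℕ) * vR * μ (A' \ G)) :=
          (measure_mono h1).trans ((measure_union_le _ _).trans (by gcongr))
      _ = Kc * μ (A' \ G) := by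
          rw [hKc]
          ring
  · -- two points of `Gs` are connected
    rintro a ⟨haG, ha⟩ b ⟨hbG, hb⟩ ⟨Kw, y, hy, hab⟩
    set g := pr h Kw y with hg
    have hgm : g ∈ F h := pr_mem h _ _
    set Ba : Set (f.β r → ℝ) := Prod.mk a ⁻¹' V with hBa
    set Bb : Set (f.β r → ℝ) := f.tr h g⁻¹ ⁻¹' (Prod.mk b ⁻¹' V) with hBb
    have hBbv : volume Bb ≤ β := by
      have h1 : MeasurableSet (Prod.mk b ⁻¹' V) := measurable_prodMk_left hVm
      rw [hBb, (f.tr_mp h (inv_mem hgm)).measure_preimage h1.nullMeasurableSet]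
      exact hb
    obtain ⟨u, hu1, hu2⟩ : ∃ u ∈ Metric.closedBall (0 : f.β r → ℝ) 1, u ∉ Ba ∪ Bb := by
      by_contra hcon
      push Not at hcon
      have h1 : Metric.closedBall (0 : f.β r → ℝ) 1 ⊆ Ba ∪ Bb := hcon
      have h2 : v1 ≤ β + β := (measure_mono h1).trans ((measure_union_le _ _).trans
        (add_le_add ha hBbv))
      have h3 : β + β < v1 := by
        have h4 : β + β = v1 / 2 := by
          rw [hβ, ← ENNReal.add_div, ← two_mul]
          rw [show (4 : ENNReal) = 2 * 2 by norm_num]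
          exact ENNReal.mul_div_mul_left _ _ (by norm_num) (by norm_num)
        rw [h4]
        exact ENNReal.half_lt_self hv1p hv1t
      exact absurd h2 (not_le.2 h3)
    rw [mem_union, not_or] at hu2
    have hun : ‖u‖ ≤ 1 := mem_closedBall_zero_iff.1 hu1
    set u' := f.tr h g⁻¹ u with hu'
    have hu'n : ‖u'‖ ≤ R := by
      rw [pi_norm_le_iff_of_nonneg (by linarith)]
      intro w
      rw [Real.norm_eq_abs]
      refine (hK2 Kw w y u).trans ?_
      have h9 : ‖(y, u)‖ ≤ 1 + C := by
        rw [Prod.norm_def]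
        refine max_le ?_ (by linarith)
        rw [pi_norm_le_iff_of_nonneg (by linarith)]
        intro t
        rw [Real.norm_eq_abs]
        linarith [hy t]
      have h10 : 1 + ‖(y, u)‖ ≤ 2 + C := by linarith
      rw [hR]
      have : (K2 : ℝ) * (1 + ‖(y, u)‖) ^ K2 ≤ K2 * (2 + C) ^ K2 := by gcongr
      linarith
    have ha2 : X u ∈ ch s G n J a := by
      by_contra hcon
      exact hu2.1 ⟨mem_closedBall_zero_iff.2 (hun.trans hR1), hcon⟩
    have hb2 : X u' ∈ ch s G n J b := by
      by_contra hcon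
      exact hu2.2 ⟨mem_closedBall_zero_iff.2 hu'n, hcon⟩
    have r1 := ch_reach s G n J a ha2
    have r2 := ch_reach s G n J b hb2
    have heq : a * prS s J (X u) = b * prS s J (X u') := by
      have h1 : f.ch h u' = g⁻¹ * f.ch h u := f.ch_tr h (inv_mem hgm) u
      have h2 : f.ch h u = g * f.ch h u' := by rw [h1, mul_inv_cancel_left]
      have h3 : prS s J (X u) = prS s Kw y * prS s J (X u') := by
        rw [prS_eq_wd, prS_eq_wd s Kw, prS_eq_wd s J (X u'), ← wd_append]
        refine hs _ _ ?_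
        rw [wd_append, ← pr_eq_wd, ← pr_eq_wd, ← pr_eq_wd, hXpr, hXpr]
        exact h2
      rw [h3, hab, mul_assoc]
    rw [heq] at r1
    have r3 := r2.symm (fun i x => by rw [← hs.add, add_neg_cancel, hs.zero])
    have := r1.trans r3
    rwa [← two_mul] at this

end Vale.Agent.P188.H329
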