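import Vale.Agent.P188.H329.Conn
import Vale.Agent.P188.H532.Geo

/-!
# P188, route B: connectivity in the natural boxes
-/

set_option linter.all false

namespace Vale.P188.H532

open MeasureTheory Set
open Vale.Agent.P188.H329 (Rel InP prS Reach conn Reach.mono)

variable {S E V ι L : Type} [Group S] [Group E] [MeasurableSpace E] [NormedAddCommGroup V]
    [NormedSpace ℝ V] [Fintype ι] [DecidableEq ι] [Fintype L]

/-- the letters at the extents `ρ` -/
noncomputable abbrev Geo.lt (G : Geo S E V ι L) (ρ : Option ι → ℝ) : L → ℝ → E :=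
  ls G.ray G.τ G.s ρ

theorem Geo.lt_rel (G : Geo S E V ι L) (ρ : Option ι → ℝ) : Rel L G.cl (G.lt ρ) :=
  G.rel.scale (fun a => a) fun a => Real.exp (G.τ a * ρ (G.ray a))

theorem Geo.lt_meas (G : Geo S E V ι L) (ρ : Option ι → ℝ) (a : L) :
    Measurable fun q : E × ℝ => q.1 * G.lt ρ a q.2 := by
  haveI := G.ν_mm
  exact measurable_fst.mul ((G.s_meas a).comp (measurable_snd.const_mul _))

theorem Geo.lt_sh (G : Geo S E V ι L) (ρ : Option ι → ℝ) (r : ℝ) (a : L) (x : ℝ) :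
    G.lt (sh ρ r) a x = G.lt ρ a (Real.exp (G.τ a * r) * x) := by
  show G.s a _ = G.s a _
  congr 1
  rw [← mul_assoc, ← Real.exp_add]
  congr 2
  show G.τ a * (ρ (G.ray a) + r) = _
  ring

theorem sh_sh {ι : Type} (ρ : Option ι → ℝ) (r r' : ℝ) : sh (sh ρ r) r' = sh ρ (r + r') := by
  funext j
  simp only [sh]
  ring

theorem sh_zero {ι : Type} (ρ : Option ι → ℝ) : sh ρ 0 = ρ := by
  funext j
  simp only [sh, add_zero]

/-- a product of letters, from a point of a box -/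
theorem Geo.mem_word (G : Geo S E V ι L) {ρ : Option ι → ℝ} (hρ : ∀ j, 0 ≤ ρ j) {k : ℕ} {a : E}
    (ha : a ∈ G.N (sh ρ (k * G.C))) {n : ℕ} (J : Fin n → L) (x : Fin n → ℝ) (hx : ∀ t, |x t| ≤ 1) :
    a * prS (G.lt ρ) J x ∈ G.N (sh ρ ((k + n : ℕ) * G.C)) := by
  have hC : 0 ≤ G.C := by linarith [G.one_le_C]
  induction n generalizing a k with
  | zero =>
    simpa [prS] using ha
  | succ n ih =>
    have h1 : a * prS (G.lt ρ) J x = a * G.lt ρ (J 0) (x 0) *
        prS (G.lt ρ) (fun t => J t.succ) (fun t => x t.succ) := by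
      simp [prS, List.ofFn_succ, mul_assoc]
    have h2 : a * G.lt ρ (J 0) (x 0) ∈ G.N (sh ρ ((k + 1 : ℕ) * G.C)) := by
      have h3 : G.lt ρ (J 0) (x 0) ∈ G.N (sh ρ (k * G.C)) := by
        refine G.N_mono ρ _ (fun j => ?_) (G.N_ls ρ hρ _ _ (hx 0))
        simp only [sh]
        have : 0 ≤ (k : ℝ) * G.C := by positivity
        linarith
      have h4 := G.N_mul (sh ρ (k * G.C)) (fun j => by
        simp only [sh]
        have : 0 ≤ (k : ℝ) * G.C := by positivity
        linarith [hρ j]) a ha _ h3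
      rw [sh_sh] at h4
      have h5 : (k : ℝ) * G.C + G.C = ((k + 1 : ℕ) : ℝ) * G.C := by push_cast; ring
      rwa [h5] at h4
    rw [h1]
    have := ih h2 (fun t => J t.succ) (fun t => x t.succ) (fun t => hx _)
    have h5 : k + 1 + n = k + (n + 1) := by omega
    rwa [h5] at this

/-- chains stay in a bounded enlargement of the box -/
theorem Geo.reach_mem (G : Geo S E V ι L) {ρ : Option ι → ℝ} (hρ : ∀ j, 0 ≤ ρ j) {T : Set E} {n : ℕ} :
    ∀ {k : ℕ} {a b : E}, a ∈ G.N (sh ρ (k * G.C)) → Reach (G.lt ρ) T n a b →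
      Reach (G.lt ρ) (T ∩ G.N (sh ρ ((k + n : ℕ) * G.C))) n a b := by
  have hC : 0 ≤ G.C := by linarith [G.one_le_C]
  induction n with
  | zero =>
    rintro k a b ha ⟨h1, h2⟩
    exact ⟨⟨h1, by simpa using ha⟩, h2⟩
  | succ n ih =>
    rintro k a b ha ⟨h1, i, x, hx, h2⟩
    have h3 : a * G.lt ρ i x ∈ G.N (sh ρ ((k + 1 : ℕ) * G.C)) := by
      have := G.mem_word hρ ha (n := 1) (fun _ => i) (fun _ => x) fun _ => hx
      simpa [prS] using this
    have h4 := ih h3 h2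
    have h5 : k + 1 + n = k + (n + 1) := by omega
    rw [h5] at h4
    refine ⟨⟨h1, ?_⟩, i, x, hx, h4⟩
    refine G.N_mono _ _ (fun j => ?_) ha
    simp only [sh]
    have : (k : ℝ) * G.C ≤ ((k + (n + 1) : ℕ) : ℝ) * G.C := by
      gcongr
      exact_mod_cast Nat.le_add_right _ _
    linarith

/-- **CONN.** If most points of a big box are in `T`, then most points of the box `N ρ` are connected
to each other inside `T` by chains of a bounded number of letters at the extents `ρ`. -/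
theorem Geo.conn_box (G : Geo S E V ι L) (ε : ℝ) (hε : 0 < ε) :
    ∃ (δ : ℝ) (n : ℕ) (C' : ℝ), 0 < δ ∧ 0 ≤ C' ∧ ∀ ρ : Option ι → ℝ, (∀ j, 0 ≤ ρ j) →
      ∀ T : Set E, MeasurableSet T →
      G.ν (G.N (sh ρ C') \ T) ≤ ENNReal.ofReal δ * G.ν (G.N ρ) →
      ∃ Gs ⊆ T, MeasurableSet Gs ∧ Gs ⊆ G.N ρ ∧
        G.ν (G.N ρ \ Gs) ≤ ENNReal.ofReal ε * G.ν (G.N ρ) ∧
        ∀ a ∈ Gs, ∀ b ∈ Gs, Reach (G.lt ρ) (T ∩ G.N (sh ρ C')) (2 * n) a b := by
  classical
  have hC : 0 ≤ G.C := by linarith [G.one_le_C]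
  haveI := G.ν_mm
  haveI := G.ν_right
  haveI := G.ν_sf
  -- bound of the letters of `a⁻¹ b`
  obtain ⟨M, hM⟩ : ∃ M : ℝ, ∀ a : L, Real.exp (G.τ a * (2 * G.C)) ≤ M := by
    refine ⟨∑ a, Real.exp (G.τ a * (2 * G.C)), fun a => ?_⟩
    exact Finset.single_le_sum (f := fun a => Real.exp (G.τ a * (2 * G.C)))
      (fun _ _ => (Real.exp_pos _).le) (Finset.mem_univ a)
  set M' : ℝ := max M 0 with hM'
  have hM'0 : 0 ≤ M' := le_max_right _ _
  obtain ⟨n, K, hK, hconn⟩ := conn L G.cl G.cg (M' * G.C) (by positivity)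
  set C' : ℝ := (2 * n : ℕ) * G.C with hC'
  have hC'0 : 0 ≤ C' := by positivity
  refine ⟨ε / (K + 1), n, C', by positivity, hC'0, fun ρ hρ T hT hTν => ?_⟩
  set P' : Set E := G.N (sh ρ C') with hP'
  have hP'm : MeasurableSet P' := G.N_meas _
  obtain ⟨Gs, hGs, hGsm, h1, h2⟩ := hconn E G.ν (G.lt ρ) (G.lt_rel ρ) (G.lt_meas ρ)
    (fun w => measurePreserving_mul_right G.ν w) (T ∪ P'ᶜ) (hT.union hP'm.compl)
  have hsub0 : G.N ρ ⊆ G.N (sh ρ ((0 : ℕ) * G.C)) := by
    refine G.N_mono _ _ fun j => ?_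
    simp [sh]
  have hsub : G.N ρ ⊆ P' := by
    refine G.N_mono _ _ fun j => ?_
    simp only [sh]
    linarith
  refine ⟨Gs ∩ G.N ρ, ?_, hGsm.inter (G.N_meas _), inter_subset_right, ?_, ?_⟩
  · rintro a ⟨ha1, ha2⟩
    rcases hGs ha1 with h | h
    · exact h
    · exact absurd (hsub ha2) h
  · have h3 := h1 (G.N ρ) P' (G.N_meas _) ?_
    · have h4 : G.N ρ \ (Gs ∩ G.N ρ) ⊆ G.N ρ \ Gs := by
        rintro a ⟨ha1, ha2⟩
        exact ⟨ha1, fun h => ha2 ⟨h, ha1⟩⟩
      have h5 : P' \ (T ∪ P'ᶜ) ⊆ P' \ T := by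
        rintro a ⟨ha1, ha2⟩
        exact ⟨ha1, fun h => ha2 (Or.inl h)⟩
      refine (measure_mono h4).trans (h3.trans ?_)
      calc ENNReal.ofReal K * G.ν (P' \ (T ∪ P'ᶜ)) ≤
            ENNReal.ofReal K * (ENNReal.ofReal (ε / (K + 1)) * G.ν (G.N ρ)) := by
            gcongr
            exact (measure_mono h5).trans hTν
        _ = ENNReal.ofReal (K * (ε / (K + 1))) * G.ν (G.N ρ) := by
            rw [← mul_assoc, ← ENNReal.ofReal_mul hK]
        _ ≤ _ := by
            gcongr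
            rw [mul_div_assoc', div_le_iff₀ (by positivity)]
            nlinarith
    · rintro a ha y ⟨J, x, hx, rfl⟩
      have h6 := G.mem_word hρ (hsub0 ha) J x hx
      refine G.N_mono _ _ (fun j => ?_) h6
      simp only [sh, hC']
      have : ((0 + n : ℕ) : ℝ) * G.C ≤ ((2 * n : ℕ) : ℝ) * G.C := by
        gcongr
        omega
      linarith
  · rintro a ⟨ha1, ha2⟩ b ⟨hb1, hb2⟩
    have hab : InP (G.lt ρ) G.cg (M' * G.C) a b := by
      have h3 : a⁻¹ * b ∈ G.N (sh ρ (2 * G.C)) := by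
        have h4 := G.N_inv ρ hρ a ha2
        have h5 : b ∈ G.N (sh ρ G.C) := by
          refine G.N_mono _ _ (fun j => ?_) hb2
          simp only [sh]
          linarith
        have h6 := G.N_mul (sh ρ G.C) (fun j => by simp only [sh]; linarith [hρ j]) _ h4 _ h5
        rw [sh_sh] at h6
        rwa [two_mul]
      obtain ⟨J, x, hx, hx2⟩ := G.N_gen (sh ρ (2 * G.C)) (fun j => by
        simp only [sh]; linarith [hρ j]) _ h3
      refine ⟨J, fun t => Real.exp (G.τ (J t) * (2 * G.C)) * x t, fun t => ?_, ?_⟩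
      · rw [abs_mul, abs_of_pos (Real.exp_pos _)]
        exact mul_le_mul ((hM _).trans (le_max_left _ _)) (hx t) (abs_nonneg _) hM'0
      · rw [one_mul] at hx2
        have h7 : prS (G.lt (sh ρ (2 * G.C))) J x =
            prS (G.lt ρ) J (fun t => Real.exp (G.τ (J t) * (2 * G.C)) * x t) := by
          unfold prS
          congr 2
          funext t
          exact G.lt_sh ρ (2 * G.C) (J t) (x t)
        have hx3 : a⁻¹ * b = prS (G.lt (sh ρ (2 * G.C))) J x := hx2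
        rw [← h7, ← hx3, mul_inv_cancel_left]
    have h3 := h2 a ha1 b hb1 hab
    have h4 := G.reach_mem hρ (hsub0 ha2) h3
    have h5 : ((0 + 2 * n : ℕ) : ℝ) * G.C = C' := by rw [hC']; norm_num
    rw [h5] at h4
    refine h4.mono ?_
    rintro y ⟨hy1, hy2⟩
    rcases hy1 with h | h
    · exact ⟨h, hy2⟩
    · exact absurd hy2 h

end Vale.P188.H532
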