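import Vale.Agent.P188.H329.ConnD
import Vale.Agent.P188.H329.ConnGeo

/-!
# P188, route B: connectivity in the natural boxes, canonical version
-/

set_option linter.all false

namespace Vale.P188.H532

open MeasureTheory Set
open Vale.Agent.P188.H329 (Rel InP prS Reach conn Reach.mono gsD gsD_subset gsD_mono gsD_equiv gsD_meas
  connD)

variable {S E V ι L : Type} [Group S] [Group E] [MeasurableSpace E] [NormedAddCommGroup V]
    [NormedSpace ℝ V] [Fintype ι] [DecidableEq ι] [Fintype L]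

/-- chains are left invariant -/
theorem reach_left {s : L → ℝ → E} {T : Set E} (y : E) {n : ℕ} :
    ∀ {a b : E}, Reach s T n (y * a) (y * b) ↔ Reach s {e | y * e ∈ T} n a b := by
  induction n with
  | zero =>
    intro a b
    constructor
    · rintro ⟨h1, h2⟩
      exact ⟨h1, mul_left_cancel h2⟩
    · rintro ⟨h1, h2⟩
      exact ⟨h1, by rw [h2]⟩
  | succ n ih =>
    intro a b
    constructor
    · rintro ⟨h1, i, x, hx, h2⟩
      rw [mul_assoc] at h2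
      exact ⟨h1, i, x, hx, ih.1 h2⟩
    · rintro ⟨h1, i, x, hx, h2⟩
      refine ⟨h1, i, x, hx, ?_⟩
      rw [mul_assoc]
      exact ih.2 h2

/-- **CONN, canonical version.** -/
theorem Geo.conn_can (G : Geo S E V ι L) (C₀ : ℝ) (hC₀ : 0 ≤ C₀) :
    ∃ (n : ℕ) (K C' : ℝ) (Gs : (Option ι → ℝ) → Set E → Set E), 0 ≤ K ∧ 0 ≤ C' ∧
      (∀ ρ T, Gs ρ T ⊆ T) ∧ (∀ ρ T T', T ⊆ T' → Gs ρ T ⊆ Gs ρ T') ∧
      (∀ ρ T, MeasurableSet T → MeasurableSet (Gs ρ T)) ∧
      (∀ ρ T y a, y * a ∈ Gs ρ T ↔ a ∈ Gs ρ {e | y * e ∈ T}) ∧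
      (∀ ρ : Option ι → ℝ, (∀ j, 0 ≤ ρ j) → ∀ T, MeasurableSet T →
        G.ν (G.N ρ \ Gs ρ T) ≤ ENNReal.ofReal K * G.ν (G.N (sh ρ C') \ T)) ∧
      (∀ ρ : Option ι → ℝ, (∀ j, 0 ≤ ρ j) → ∀ T, MeasurableSet T → ∀ a ∈ Gs ρ T, ∀ b ∈ Gs ρ T,
        a⁻¹ * b ∈ G.N (sh ρ C₀) →
        Reach (G.lt ρ) (T ∩ {e | a⁻¹ * e ∈ G.N (sh ρ C')}) (2 * n) a b) := by
  classical
  have hC : 0 ≤ G.C := by linarith [G.one_le_C]
  haveI := G.ν_mm
  haveI := G.ν_right
  haveI := G.ν_sf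
  obtain ⟨M, hM⟩ : ∃ M : ℝ, ∀ a : L, Real.exp (G.τ a * C₀) ≤ M := by
    refine ⟨∑ a, Real.exp (G.τ a * C₀), fun a => ?_⟩
    exact Finset.single_le_sum (f := fun a => Real.exp (G.τ a * C₀))
      (fun _ _ => (Real.exp_pos _).le) (Finset.mem_univ a)
  set M' : ℝ := max M 0 with hM'
  have hM'0 : 0 ≤ M' := le_max_right _ _
  obtain ⟨n, K, d, _, J, X, R, β, hK, hXm, hconn⟩ := connD L G.cl G.cg (M' * G.C) (by positivity)
  set C' : ℝ := (2 * n : ℕ) * G.C with hC'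
  have hC'0 : 0 ≤ C' := by positivity
  refine ⟨n, K, C', fun ρ T => gsD n J X R β (G.lt ρ) T, hK, hC'0, fun ρ T => gsD_subset,
    fun ρ T T' h => gsD_mono h, fun ρ T hT => gsD_meas hXm (G.lt_meas ρ) hT,
    fun ρ T y a => gsD_equiv y a, ?_, ?_⟩
  · intro ρ hρ T hT
    have hsub0 : G.N ρ ⊆ G.N (sh ρ ((0 : ℕ) * G.C)) := by
      refine G.N_mono _ _ fun j => ?_
      simp [sh]
    refine (hconn E (G.lt ρ) (G.lt_rel ρ) (G.lt_meas ρ) T hT).1 G.ν
      (fun w => measurePreserving_mul_right G.ν w) (G.N ρ) (G.N (sh ρ C')) (G.N_meas _) ?_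
    rintro a ha y ⟨J, x, hx, rfl⟩
    have h6 := G.mem_word hρ (hsub0 ha) J x hx
    refine G.N_mono _ _ (fun j => ?_) h6
    simp only [sh, hC']
    have : ((0 + n : ℕ) : ℝ) * G.C ≤ ((2 * n : ℕ) : ℝ) * G.C := by
      gcongr
      omega
    linarith
  · intro ρ hρ T hT a ha b hb hab0
    have hab : InP (G.lt ρ) G.cg (M' * G.C) a b := by
      obtain ⟨J, x, hx, hx2⟩ := G.N_gen (sh ρ C₀) (fun j => by
        simp only [sh]; linarith [hρ j]) _ hab0
      refine ⟨J, fun t => Real.exp (G.τ (J t) * C₀) * x t, fun t => ?_, ?_⟩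
      · rw [abs_mul, abs_of_pos (Real.exp_pos _)]
        exact mul_le_mul ((hM _).trans (le_max_left _ _)) (hx t) (abs_nonneg _) hM'0
      · rw [one_mul] at hx2
        have h7 : prS (G.lt (sh ρ C₀)) J x =
            prS (G.lt ρ) J (fun t => Real.exp (G.τ (J t) * C₀) * x t) := by
          unfold prS
          congr 2
          funext t
          exact G.lt_sh ρ C₀ (J t) (x t)
        have hx3 : a⁻¹ * b = prS (G.lt (sh ρ C₀)) J x := hx2
        rw [← h7, ← hx3, mul_inv_cancel_left]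
    have h3 := (hconn E (G.lt ρ) (G.lt_rel ρ) (G.lt_meas ρ) T hT).2 a ha b hb hab
    have h3' : Reach (G.lt ρ) T (2 * n) (a * 1) (a * (a⁻¹ * b)) := by
      rw [mul_one, mul_inv_cancel_left]
      exact h3
    have h1 : (1 : E) ∈ G.N (sh ρ ((0 : ℕ) * G.C)) := G.N_one _ fun j => by
      simp only [sh, Nat.cast_zero, zero_mul, add_zero]
      exact hρ j
    have h4 := G.reach_mem hρ h1 ((reach_left a).1 h3')
    have h5 : ((0 + 2 * n : ℕ) : ℝ) * G.C = C' := by rw [hC']; norm_num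
    rw [h5] at h4
    have h6 : Reach (G.lt ρ) (T ∩ {e | a⁻¹ * e ∈ G.N (sh ρ C')}) (2 * n) (a * 1) (a * (a⁻¹ * b)) := by
      refine (reach_left a).2 (h4.mono ?_)
      rintro y ⟨hy1, hy2⟩
      refine ⟨hy1, ?_⟩
      show a⁻¹ * (a * y) ∈ G.N (sh ρ C')
      rwa [inv_mul_cancel_left]
    rw [mul_one, mul_inv_cancel_left] at h6
    exact h6

end Vale.P188.H532
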