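import Mathlib.RingTheory.Nilpotent.Exp
import Mathlib.Algebra.Polynomial.Derivative
import Mathlib.Algebra.Polynomial.AlgebraMap
import Mathlib.Analysis.Real.Cardinality
import Mathlib.Tactic

/-!
# P188, FILL block, part 1: the curve group

`A` a real algebra, `e : ι → A` a finite family such that all words of length `> r` in the `e i`
vanish. The curve group `F` is the group of polynomial curves `X ↦ ∏ exp (X x_t e_{i_t})`.
-/

set_option linter.all false

namespace Vale.Agent.P188.H329

open Polynomial Finset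

variable {A : Type} [Ring A] [Algebra ℝ A]

/-- vanishing order at least `j` -/
def Ord (j : ℕ) (p : A[X]) : Prop := ∀ k < j, p.coeff k = 0

theorem Ord.mono {j k : ℕ} {p : A[X]} (h : Ord k p) (hjk : j ≤ k) : Ord j p :=
  fun i hi => h i (lt_of_lt_of_le hi hjk)

theorem Ord.add {j : ℕ} {p q : A[X]} (hp : Ord j p) (hq : Ord j q) : Ord j (p + q) :=
  fun i hi => by rw [coeff_add, hp i hi, hq i hi, add_zero]

theorem Ord.sub {j : ℕ} {p q : A[X]} (hp : Ord j p) (hq : Ord j q) : Ord j (p - q) :=
  fun i hi => by rw [coeff_sub, hp i hi, hq i hi, sub_zero]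

theorem Ord.neg {j : ℕ} {p : A[X]} (hp : Ord j p) : Ord j (-p) :=
  fun i hi => by rw [coeff_neg, hp i hi, neg_zero]

theorem ord_zero (p : A[X]) : Ord 0 p := fun i hi => absurd hi (Nat.not_lt_zero _)

theorem Ord.mul {j k : ℕ} {p q : A[X]} (hp : Ord j p) (hq : Ord k q) : Ord (j + k) (p * q) := by
  intro i hi
  rw [coeff_mul]
  refine Finset.sum_eq_zero fun x hx => ?_
  rw [mem_antidiagonal] at hx
  by_cases h : x.1 < j
  · rw [hp _ h, zero_mul]
  · rw [hq _ (by omega), mul_zero]

theorem Ord.coeff_mul {j k : ℕ} {p q : A[X]} (hp : Ord j p) (hq : Ord k q) :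
    (p * q).coeff (j + k) = p.coeff j * q.coeff k := by
  rw [Polynomial.coeff_mul]
  refine Finset.sum_eq_single_of_mem (j, k) (by simp) fun x hx hne => ?_
  rw [mem_antidiagonal] at hx
  by_cases h : x.1 < j
  · rw [hp _ h, zero_mul]
  · have : x.2 < k := by
      by_contra h2
      apply hne
      have : x.1 = j := by omega
      have : x.2 = k := by omega
      ext <;> simp [*]
    rw [hq _ this, mul_zero]

theorem Ord.mul_left {j : ℕ} {p q : A[X]} (hq : Ord j q) : Ord j (p * q) := by
  have := (ord_zero p).mul hq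
  rwa [zero_add] at this

theorem Ord.mul_right {j : ℕ} {p q : A[X]} (hp : Ord j p) : Ord j (p * q) := by
  have := hp.mul (ord_zero q)
  rwa [add_zero] at this

/-! ### graded subalgebras -/

/-- the derivation `X d/dX` -/
noncomputable def D (p : A[X]) : A[X] := derivative p * X

theorem D_mul (p q : A[X]) : D (p * q) = D p * q + p * D q := by
  unfold D
  rw [derivative_mul, add_mul, mul_assoc, mul_assoc, mul_assoc, X_mul]

theorem coeff_D (p : A[X]) (k : ℕ) : (D p).coeff k = (k : ℝ) • p.coeff k := by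
  unfold D
  cases k with
  | zero => simp
  | succ k =>
    rw [coeff_mul_X, coeff_derivative]
    have : (((k + 1 : ℕ) : ℝ)) • p.coeff (k + 1) = (k + 1 : ℕ) • p.coeff (k + 1) := by
      rw [← Nat.cast_smul_eq_nsmul ℝ]
    rw [this, nsmul_eq_mul]
    push_cast
    have hc : Commute (p.coeff (k + 1)) ((k : A) + 1) := by
      have := Nat.cast_commute (k + 1) (p.coeff (k + 1))
      push_cast at this
      exact this.symm
    exact hc.eq

theorem D_one : D (1 : A[X]) = 0 := by
  unfold D
  simp

/-! ### exponentials of nilpotent elements of a real algebra -/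

section exp

variable {B : Type} [Ring B] [Algebra ℝ B]

/-- the exponential, truncated at order `n` -/
noncomputable def rexp (n : ℕ) (a : B) : B := ∑ k ∈ range n, ((k.factorial : ℝ)⁻¹) • a ^ k

/-- the rational structure -/
@[reducible] noncomputable def ratMod (B : Type) [Ring B] [Algebra ℝ B] : Module ℚ B :=
  Module.compHom B (algebraMap ℚ ℝ)

theorem rexp_eq {n : ℕ} {a : B} (h : a ^ n = 0) :
    rexp n a = @IsNilpotent.exp B _ (ratMod B) a := by
  letI := ratMod B
  rw [IsNilpotent.exp_eq_sum h]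
  refine Finset.sum_congr rfl fun k _ => ?_
  have : ((k.factorial : ℚ)⁻¹ • a ^ k : B) = (algebraMap ℚ ℝ (k.factorial : ℚ)⁻¹) • a ^ k := rfl
  rw [this]
  congr 1
  simp

theorem rexp_congr {n m : ℕ} {a : B} (h : a ^ n = 0) (h' : a ^ m = 0) : rexp n a = rexp m a := by
  rw [rexp_eq h, rexp_eq h']

theorem rexp_add {n m l : ℕ} {a b : B} (hc : Commute a b) (ha : a ^ n = 0) (hb : b ^ m = 0)
    (hab : (a + b) ^ l = 0) : rexp l (a + b) = rexp n a * rexp m b := by
  letI := ratMod B
  rw [rexp_eq ha, rexp_eq hb, rexp_eq hab]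
  exact IsNilpotent.exp_add_of_commute hc ⟨n, ha⟩ ⟨m, hb⟩

theorem rexp_zero {n : ℕ} (hn : 0 < n) : rexp n (0 : B) = 1 := by
  unfold rexp
  rw [Finset.sum_eq_single_of_mem 0 (by simpa using hn)]
  · simp
  · intro k _ hk
    simp [zero_pow hk]

/-- conjugation by an exponential in terms of iterated brackets -/
theorem rexp_conj {n : ℕ} {a p : B} (ha : a ^ n = 0) (M : Submodule ℝ B)
    (hM : ∀ q ∈ M, q * a - a * q ∈ M) (hp : p ∈ M) : rexp n (-a) * p * rexp n a ∈ M := by
  letI := ratMod (Module.End ℝ B)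
  have ha' : (-a) ^ n = 0 := by rw [neg_pow, ha, mul_zero]
  set L : Module.End ℝ B := LinearMap.mulLeft ℝ (-a) with hL
  set R : Module.End ℝ B := LinearMap.mulRight ℝ a with hR
  have hLp : ∀ k, L ^ k = LinearMap.mulLeft ℝ ((-a) ^ k) := fun k => LinearMap.pow_mulLeft ..
  have hRp : ∀ k, R ^ k = LinearMap.mulRight ℝ (a ^ k) := fun k => LinearMap.pow_mulRight ..
  have hL0 : L ^ n = 0 := by rw [hLp, ha']; simp
  have hR0 : R ^ n = 0 := by rw [hRp, ha]; simp
  have hc : Commute L R := LinearMap.commute_mulLeft_right ..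
  obtain ⟨l, hl⟩ := hc.isNilpotent_add ⟨n, hL0⟩ ⟨n, hR0⟩
  have hsum := rexp_add hc hL0 hR0 hl
  have e1 : rexp n L = LinearMap.mulLeft ℝ (rexp n (-a)) := by
    ext x
    simp [rexp, hLp, LinearMap.sum_apply, Finset.sum_mul]
  have e2 : rexp n R = LinearMap.mulRight ℝ (rexp n a) := by
    ext x
    simp [rexp, hRp, LinearMap.sum_apply, Finset.mul_sum]
  have e3 : rexp n (-a) * p * rexp n a = (rexp l (L + R)) p := by
    rw [hsum, e1, e2]
    simp [mul_assoc]
  rw [e3]
  have e4 : ∀ k, ((L + R) ^ k) p ∈ M := by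
    intro k
    induction k with
    | zero => simpa using hp
    | succ k ih =>
      rw [pow_succ', Module.End.mul_apply]
      have := hM _ ih
      have h5 : (L + R) (((L + R) ^ k) p) = ((L + R) ^ k) p * a - a * ((L + R) ^ k) p := by
        simp [hL, hR, sub_eq_add_neg, add_comm]
      rw [h5]
      exact this
  unfold rexp
  rw [LinearMap.sum_apply]
  exact Submodule.sum_mem _ fun k _ => by
    rw [LinearMap.smul_apply]
    exact M.smul_mem _ (e4 k)

end exp

end Vale.Agent.P188.H329
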