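import Mathlib.MeasureTheory.Constructions.Pi
import Mathlib.MeasureTheory.Measure.Lebesgue.Basic
import Mathlib.MeasureTheory.Group.Measure
import Mathlib.Tactic

/-!
# P188, FILL block, part 6: triangular maps preserve Lebesgue measure
-/

set_option linter.all false

namespace Vale.Agent.P188.H329

open MeasureTheory Set

theorem mp_shear {β : Type} [Fintype β] (p : β → Prop) [DecidablePred p]
    (ψ : (β → ℝ) → (β → ℝ)) (hψ : Measurable ψ) (h0 : ∀ s w, ¬ p w → ψ s w = 0)
    (hd : ∀ s s', (∀ w, ¬ p w → s w = s' w) → ψ s = ψ s') :
    MeasurePreserving (fun s => s + ψ s) (volume : Measure (β → ℝ)) volume := by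
  classical
  set E := MeasurableEquiv.piEquivPiSubtypeProd (fun _ : β => ℝ) (fun w => ¬ p w) with hE
  have hEm : MeasurePreserving E volume volume :=
    volume_preserving_piEquivPiSubtypeProd (fun _ : β => ℝ) (fun w => ¬ p w)
  set g : ({w // ¬ p w} → ℝ) → ({w // ¬ ¬ p w} → ℝ) → ({w // ¬ ¬ p w} → ℝ) :=
    fun a c => c + fun w => ψ (E.symm (a, 0)) w.1 with hg
  have hgm : Measurable (Function.uncurry g) := by
    simp only [hg, Function.uncurry_def]
    refine measurable_snd.add ?_
    refine measurable_pi_lambda _ fun w => ?_
    refine (measurable_pi_apply w.1).comp (hψ.comp (E.symm.measurable.comp ?_))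
    exact measurable_fst.prodMk measurable_const
  have hG : MeasurePreserving (fun q : ({w // ¬ p w} → ℝ) × ({w // ¬ ¬ p w} → ℝ) =>
      (id q.1, g q.1 q.2)) (volume.prod volume) (volume.prod volume) := by
    refine MeasurePreserving.skew_product (MeasurePreserving.id _) hgm ?_
    refine Filter.Eventually.of_forall fun a => ?_
    exact (measurePreserving_add_right volume
      (fun w : {w // ¬ ¬ p w} => ψ (E.symm (a, 0)) w.1)).map_eq
  have key : (fun s => s + ψ s) = E.symm ∘ (fun q => (id q.1, g q.1 q.2)) ∘ E := by
    funext s
    have h1 : E (s + ψ s) = (id (E s).1, g (E s).1 (E s).2) := by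
      refine Prod.ext ?_ ?_
      · funext w
        show s w.1 + ψ s w.1 = s w.1
        rw [h0 s w.1 w.2, add_zero]
      · funext w
        show s w.1 + ψ s w.1 = s w.1 + ψ (E.symm ((E s).1, 0)) w.1
        congr 1
        refine congrFun (hd _ _ fun v hv => ?_) w.1
        have : E (E.symm ((E s).1, 0)) = ((E s).1, 0) := E.apply_symm_apply _
        have h2 := congrFun (congrArg Prod.fst this) ⟨v, hv⟩
        exact h2.symm
    show s + ψ s = E.symm _
    rw [Function.comp_apply, ← h1, E.symm_apply_apply]
  rw [key]
  exact (hEm.symm E).comp (hG.comp hEm)

theorem mp_triangular {β : Type} [Fintype β] (len : β → ℕ) (Λ : (β → ℝ) → (β → ℝ))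
    (hΛ : Measurable Λ)
    (htri : ∀ s s' w, (∀ v, len v < len w → s v = s' v) → Λ s w - s w = Λ s' w - s' w) :
    MeasurePreserving Λ (volume : Measure (β → ℝ)) volume := by
  classical
  have key : ∀ j : ℕ, MeasurePreserving (fun s : β → ℝ => fun w => if len w < j then Λ s w else s w)
      (volume : Measure (β → ℝ)) volume := by
    intro j
    induction j with
    | zero =>
      have : (fun s : β → ℝ => fun w => if len w < 0 then Λ s w else s w) = id := by
        funext s w
        simp
      rw [this]
      exact MeasurePreserving.id _
    | succ j ih =>
      set ψ : (β → ℝ) → (β → ℝ) := fun s w => if len w = j then Λ s w - s w else 0 with hψ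
      have h1 : MeasurePreserving (fun s => s + ψ s) (volume : Measure (β → ℝ)) volume := by
        refine mp_shear (fun w => len w = j) ψ ?_ ?_ ?_
        · refine measurable_pi_lambda _ fun w => ?_
          simp only [hψ]
          by_cases hw : len w = j
          · simp only [if_pos hw]
            exact ((measurable_pi_apply w).comp hΛ).sub (measurable_pi_apply w)
          · simp only [if_neg hw]
            exact measurable_const
        · intro s w hw
          simp only [hψ, if_neg hw]
        · intro s s' hs
          funext w
          simp only [hψ]
          split_ifs with hw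
          · exact htri s s' w fun v hv => hs v (by omega)
          · rfl
      have h2 : (fun s : β → ℝ => fun w => if len w < j + 1 then Λ s w else s w) =
          (fun s : β → ℝ => fun w => if len w < j then Λ s w else s w) ∘ fun s => s + ψ s := by
        funext s w
        show (if len w < j + 1 then Λ s w else s w) =
          if len w < j then Λ (s + ψ s) w else (s + ψ s) w
        rcases lt_trichotomy (len w) j with h | h | h
        · rw [if_pos (by omega), if_pos h]
          have h3 := htri (s + ψ s) s w fun v hv => by
            show s v + ψ s v = s v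
            simp only [hψ]
            rw [if_neg (by omega), add_zero]
          have h4 : (s + ψ s) w = s w := by
            show s w + ψ s w = s w
            simp only [hψ]
            rw [if_neg (by omega), add_zero]
          rw [h4] at h3
          linarith
        · rw [if_pos (by omega), if_neg (by omega)]
          show Λ s w = s w + ψ s w
          simp only [hψ]
          rw [if_pos h]
          ring
        · rw [if_neg (by omega), if_neg (by omega)]
          show s w = s w + ψ s w
          simp only [hψ]
          rw [if_neg (by omega), add_zero]
      rw [h2]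
      exact ih.comp h1
  obtain ⟨J, hJ⟩ : ∃ J, ∀ w, len w < J := by
    refine ⟨(Finset.univ.sup len) + 1, fun w => ?_⟩
    exact Nat.lt_succ_of_le (Finset.le_sup (Finset.mem_univ w))
  have h5 := key J
  have h6 : (fun s : β → ℝ => fun w => if len w < J then Λ s w else s w) = Λ := by
    funext s w
    rw [if_pos (hJ w)]
  rwa [h6] at h5

end Vale.Agent.P188.H329
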