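import Vale.Agent.P188.H329.Frame
import Vale.Agent.P188.H329.AC
import Vale.Agent.P188.H329.Shear

/-!
# P188, FILL block, part 7: analytic families in the curve group
-/

set_option linter.all false

namespace Vale.Agent.P188.H329

open Polynomial Set

variable {A : Type} [NormedRing A] [NormedAlgebra ℝ A] [FiniteDimensional ℝ A] {ι : Type}
variable {e : ι → A} {r : ℕ} {P : Type} [NormedAddCommGroup P] [NormedSpace ℝ P]

/-- analytic family of elements of the curve group -/
def Fam (h : Nil e r) (g : P → A[X]ˣ) : Prop :=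
  (∀ p, g p ∈ F h) ∧ ∀ k, AnalyticOnNhd ℝ (fun p => (g p : A[X]).coeff k) univ

theorem Fam.mul {h : Nil e r} {g g' : P → A[X]ˣ} (hg : Fam h g) (hg' : Fam h g') :
    Fam h (fun p => g p * g' p) := by
  refine ⟨fun p => mul_mem (hg.1 p) (hg'.1 p), fun k => ?_⟩
  have : (fun p => ((g p * g' p : A[X]ˣ) : A[X]).coeff k) =
      fun p => ∑ x ∈ Finset.antidiagonal k, (g p : A[X]).coeff x.1 * (g' p : A[X]).coeff x.2 := by
    funext p
    rw [Units.val_mul, Polynomial.coeff_mul]
  rw [this]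
  intro p hp
  refine Finset.analyticAt_fun_sum _ fun x _ => ?_
  exact (hg.2 _ p hp).mul (hg'.2 _ p hp)

theorem Fam.inv {h : Nil e r} {g : P → A[X]ˣ} (hg : Fam h g) : Fam h (fun p => (g p)⁻¹) := by
  refine ⟨fun p => inv_mem (hg.1 p), fun k => ?_⟩
  induction k using Nat.strong_induction_on with
  | _ k ih =>
    have e1 : ∀ p, (((g p)⁻¹ : A[X]ˣ) : A[X]).coeff k = (if k = 0 then 1 else 0) -
        ∑ x ∈ (Finset.antidiagonal k).erase (0, k),
          (g p : A[X]).coeff x.1 * (((g p)⁻¹ : A[X]ˣ) : A[X]).coeff x.2 := by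
      intro p
      have h1 : ((g p : A[X]) * (((g p)⁻¹ : A[X]ˣ) : A[X])).coeff k = if k = 0 then 1 else 0 := by
        rw [← Units.val_mul, mul_inv_cancel, Units.val_one, coeff_one]
      rw [Polynomial.coeff_mul, ← Finset.add_sum_erase _ _ (show (0, k) ∈ Finset.antidiagonal k by simp)]
        at h1
      have h2 : (g p : A[X]).coeff 0 = 1 := (F_Uo (hg.1 p)).coeff_zero one_pos
      simp only [h2, one_mul] at h1
      rw [← h1]
      abel
    have e2 : (fun p => (((g p)⁻¹ : A[X]ˣ) : A[X]).coeff k) = fun p => (if k = 0 then 1 else 0) -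
        ∑ x ∈ (Finset.antidiagonal k).erase (0, k),
          (g p : A[X]).coeff x.1 * (((g p)⁻¹ : A[X]ˣ) : A[X]).coeff x.2 := funext e1
    rw [e2]
    intro p hp
    refine analyticAt_const.sub (Finset.analyticAt_fun_sum _ fun x hx => ?_)
    rw [Finset.mem_erase, Finset.mem_antidiagonal] at hx
    have hx2 : x.2 < k := by
      by_contra h3
      apply hx.1
      ext
      · show x.1 = 0; omega
      · show x.2 = k; omega
    exact (hg.2 _ p hp).mul (ih x.2 hx2 p hp)

theorem Fam.const {h : Nil e r} {g : A[X]ˣ} (hg : g ∈ F h) : Fam h (fun _ : P => g) :=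
  ⟨fun _ => hg, fun _ _ _ => analyticAt_const⟩

theorem Fam.lu (h : Nil e r) (i : ι) {x : P → ℝ} (hx : AnalyticOnNhd ℝ x univ) :
    Fam h (fun p => H329.lu h i (x p)) := by
  refine ⟨fun p => lu_mem h i _, fun k => ?_⟩
  have : (fun p => ((H329.lu h i (x p) : A[X]ˣ) : A[X]).coeff k) =
      fun p => (if k < r + 1 then (k.factorial : ℝ)⁻¹ else 0) • (x p ^ k • e i ^ k) := by
    funext p
    rw [lu_val, lt_coeff]
    split_ifs
    · rw [smul_smul]
    · simp
  rw [this]
  intro p hp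
  have h1 : AnalyticAt ℝ (fun p => x p ^ k) p := (hx p hp).pow k
  have h2 : AnalyticAt ℝ (fun _ : P => e i ^ k) p := analyticAt_const
  have h3 : AnalyticAt ℝ (fun p => x p ^ k • e i ^ k) p := h1.smul h2
  have h4 : AnalyticAt ℝ (fun _ : P => if k < r + 1 then (k.factorial : ℝ)⁻¹ else 0) p :=
    analyticAt_const
  exact h4.smul h3

theorem Fam.ev (h : Nil e r) (l : List (Sym ι)) {s : P → List ι → ℝ}
    (hs : ∀ w, AnalyticOnNhd ℝ (fun p => s p w) univ) : Fam h (fun p => H329.ev h l (s p)) := by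
  induction l with
  | nil =>
    simp only [ev_nil]
    exact Fam.const (P := P) (one_mem (F h))
  | cons q l ih =>
    simp only [ev_cons]
    refine Fam.mul (Fam.lu h _ ?_) ih
    intro p hp
    unfold Sym.val
    exact (analyticAt_const.mul (hs _ p hp)).add analyticAt_const

theorem Fam.cf {h : Nil e r} (f : Frame e) {g : P → A[X]ˣ} (hg : Fam h g) (j : ℕ) (w : List ι) :
    AnalyticOnNhd ℝ (fun p => f.κ w ((g p : A[X]).coeff j)) univ := by
  intro p hp
  have h1 : (fun p => f.κ w ((g p : A[X]).coeff j)) =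
      fun p => (LinearMap.toContinuousLinearMap (f.κ w)) ((g p : A[X]).coeff j) := rfl
  rw [h1]
  exact ((LinearMap.toContinuousLinearMap (f.κ w)).analyticAt _).comp' (hg.2 j p hp)

theorem Fam.peel {h : Nil e r} (f : Frame e) {g : P → A[X]ˣ} (hg : Fam h g) (j : ℕ) :
    Fam h (fun p => f.peel h j (g p)) := by
  induction j with
  | zero => exact hg
  | succ j ih =>
    simp only [f.peel_succ]
    exact (Fam.ev h _ fun w => Fam.cf f ih _ w).inv.mul ih

theorem Fam.co {h : Nil e r} (f : Frame e) {g : P → A[X]ˣ} (hg : Fam h g) (w : List ι) :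
    AnalyticOnNhd ℝ (fun p => f.co h (g p) w) univ := Fam.cf f (Fam.peel f hg _) _ w

/-! ### coordinates indexed by a finite type -/

open Classical in
/-- the basis words -/
noncomputable def Frame.bb (f : Frame e) (r : ℕ) : Finset (List ι) := (Finset.Icc 1 r).biUnion f.B

theorem Frame.mem_bb (f : Frame e) {w : List ι} : w ∈ f.bb r ↔ ∃ j, 0 < j ∧ j ≤ r ∧ w ∈ f.B j := by
  classical
  unfold Frame.bb
  rw [@Finset.mem_biUnion]
  constructor
  · rintro ⟨j, hj, hw⟩
    rw [Finset.mem_Icc] at hj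
    exact ⟨j, hj.1, hj.2, hw⟩
  · rintro ⟨j, h1, h2, hw⟩
    exact ⟨j, Finset.mem_Icc.2 ⟨h1, h2⟩, hw⟩

/-- coordinate space -/
abbrev Frame.β (f : Frame e) (r : ℕ) : Type := {w // w ∈ f.bb r}

open Classical in
/-- extension by zero -/
noncomputable def Frame.ext (f : Frame e) (s : f.β r → ℝ) : List ι → ℝ :=
  fun w => if hw : w ∈ f.bb r then s ⟨w, hw⟩ else 0

theorem Frame.ext_mem (f : Frame e) (s : f.β r → ℝ) (w : f.β r) : f.ext s w.1 = s w := by
  unfold Frame.ext
  rw [dif_pos w.2]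

/-- the chart -/
noncomputable def Frame.ch (f : Frame e) (h : Nil e r) (s : f.β r → ℝ) : A[X]ˣ :=
  H329.ev h (f.T r) (f.ext s)

/-- the coordinates -/
noncomputable def Frame.cc (f : Frame e) (h : Nil e r) (g : A[X]ˣ) : f.β r → ℝ :=
  fun w => f.co h g w.1

theorem Frame.tl_index (f : Frame e) (n j : ℕ) (hn : j + n ≤ r) :
    ∀ q ∈ f.tl j n, q.2.1 ∈ f.bb r := by
  induction n generalizing j with
  | zero => intro q hq; simp [Frame.tl] at hq
  | succ n ih =>
    intro q hq
    rw [Frame.tl, List.mem_append] at hq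
    rcases hq with hq | hq
    · exact f.mem_bb.2 ⟨j + 1, Nat.succ_pos j, by omega, f.tw_index _ q hq⟩
    · exact ih (j + 1) (by omega) q hq

theorem Frame.cc_ch (f : Frame e) (h : Nil e r) (s : f.β r → ℝ) : f.cc h (f.ch h s) = s := by
  funext w
  obtain ⟨j, h1, h2, h3⟩ := f.mem_bb.1 w.2
  show f.co h (H329.ev h (f.T r) (f.ext s)) w.1 = s w
  rw [f.co_ev h _ h1 h2 h3, f.ext_mem]

theorem Frame.ch_cc (f : Frame e) (h : Nil e r) {g : A[X]ˣ} (hg : g ∈ F h) :
    f.ch h (f.cc h g) = g := by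
  conv_rhs => rw [← f.ev_co h hg]
  refine ev_congr h fun q hq => ?_
  have := f.tl_index (r := r) r 0 (by omega) q hq
  exact f.ext_mem _ ⟨q.2.1, this⟩

theorem Frame.ch_mem (f : Frame e) (h : Nil e r) (s : f.β r → ℝ) : f.ch h s ∈ F h :=
  ev_mem h _ _

theorem Fam.ch (f : Frame e) (h : Nil e r) {s : P → f.β r → ℝ}
    (hs : ∀ w, AnalyticOnNhd ℝ (fun p => s p w) univ) : Fam h (fun p => f.ch h (s p)) := by
  refine Fam.ev h _ fun w => ?_
  unfold Frame.ext
  by_cases hw : w ∈ f.bb r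
  · simp only [dif_pos hw]
    exact hs ⟨w, hw⟩
  · simp only [dif_neg hw]
    exact fun _ _ => analyticAt_const

theorem Fam.cc {h : Nil e r} (f : Frame e) {g : P → A[X]ˣ} (hg : Fam h g) :
    AnalyticOnNhd ℝ (fun p => f.cc h (g p)) univ := by
  intro p hp
  rw [analyticAt_pi_iff]
  exact fun w => Fam.co f hg w.1 p hp

theorem Fam.cc_continuous {h : Nil e r} (f : Frame e) {g : P → A[X]ˣ} (hg : Fam h g) :
    Continuous (fun p => f.cc h (g p)) := by
  rw [continuous_iff_continuousAt]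
  exact fun p => (Fam.cc f hg p (mem_univ p)).continuousAt

/-- left translation in coordinates -/
noncomputable def Frame.tr (f : Frame e) (h : Nil e r) (g : A[X]ˣ) (s : f.β r → ℝ) : f.β r → ℝ :=
  f.cc h (g * f.ch h s)

theorem Frame.ch_tr (f : Frame e) (h : Nil e r) {g : A[X]ˣ} (hg : g ∈ F h) (s : f.β r → ℝ) :
    f.ch h (f.tr h g s) = g * f.ch h s := f.ch_cc h (mul_mem hg (f.ch_mem h s))

theorem Frame.fam_id (f : Frame e) (h : Nil e r) : Fam h (fun s : f.β r → ℝ => f.ch h s) := by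
  refine Fam.ch f h fun w s _ => ?_
  exact (ContinuousLinearMap.proj (R := ℝ) (φ := fun _ : f.β r => ℝ) w).analyticAt s

theorem Frame.tr_continuous (f : Frame e) (h : Nil e r) {g : A[X]ˣ} (hg : g ∈ F h) :
    Continuous (f.tr h g) := Fam.cc_continuous f ((Fam.const hg).mul (f.fam_id h))

open MeasureTheory in
theorem Frame.tr_mp (f : Frame e) (h : Nil e r) {g : A[X]ˣ} (hg : g ∈ F h) :
    MeasurePreserving (f.tr h g) volume volume := by
  refine mp_triangular (fun w : f.β r => w.1.length) (f.tr h g) (f.tr_continuous h hg).measurable ?_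
  intro s s' w hs
  obtain ⟨j, h1, h2, h3⟩ := f.mem_bb.1 w.2
  have hl := f.len j w.1 h3
  have := f.co_triangular h hg (f.ext s) (f.ext s') h1 h2 (fun v hv => by
    unfold Frame.ext
    by_cases hvb : v ∈ f.bb r
    · rw [dif_pos hvb, dif_pos hvb]
      exact hs ⟨v, hvb⟩ (by show v.length < w.1.length; omega)
    · rw [dif_neg hvb, dif_neg hvb]) h3
  rw [f.ext_mem s w, f.ext_mem s' w] at this
  exact this

end Vale.Agent.P188.H329
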