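import Vale.Agent.P188.H329.Peel
import Mathlib.LinearAlgebra.LinearIndependent.Lemmas
import Mathlib.Data.Set.Finite.List

/-!
# P188, FILL block, part 4: coordinates of the second kind
-/

set_option linter.all false

namespace Vale.Agent.P188.H329

open Polynomial Finset

variable {A : Type} [Ring A] [Algebra ℝ A] {ι : Type}

open Classical in
theorem exists_level [Finite ι] (e : ι → A) (j : ℕ) :
    ∃ (B : Finset (List ι)) (κ : List ι → (A →ₗ[ℝ] ℝ)), (∀ w ∈ B, w.length = j) ∧
      (∀ a ∈ Lay e j, a = ∑ w ∈ B, κ w a • br e w) ∧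
      (∀ w ∈ B, ∀ v ∈ B, κ w (br e v) = if w = v then 1 else 0) := by
  classical
  have hfin : Finite {w : List ι // w.length = j} := List.finite_length_eq ι j
  obtain ⟨K, a, hinj, hspan, hli⟩ := exists_linearIndependent' ℝ
    (fun w : {w : List ι // w.length = j} => br e w.1)
  haveI : Finite K := Finite.of_injective a hinj
  haveI : Fintype K := Fintype.ofFinite K
  set v' : K → A := (fun w : {w : List ι // w.length = j} => br e w.1) ∘ a with hv'
  obtain ⟨g, hg⟩ := LinearMap.exists_leftInverse_of_injective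
    (Finsupp.linearCombination ℝ v') (LinearMap.ker_eq_bot.2 hli)
  have hinj2 : Function.Injective fun k : K => (a k).1 := fun x y hxy => hinj (Subtype.ext hxy)
  set B : Finset (List ι) := Finset.univ.map ⟨fun k : K => (a k).1, hinj2⟩ with hB
  set κ : List ι → (A →ₗ[ℝ] ℝ) := fun w =>
    if h : ∃ k : K, (a k).1 = w then (Finsupp.lapply h.choose) ∘ₗ g else 0 with hκ
  have hκa : ∀ k x, κ (a k).1 x = g x k := by
    intro k x
    have h : ∃ k' : K, (a k').1 = (a k).1 := ⟨k, rfl⟩
    have h2 : h.choose = k := hinj2 h.choose_spec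
    simp only [hκ]
    rw [dif_pos h, h2]
    rfl
  have hgv : ∀ k, g (v' k) = Finsupp.single k 1 := by
    intro k
    have := LinearMap.congr_fun hg (Finsupp.single k 1)
    simpa using this
  refine ⟨B, κ, ?_, ?_, ?_⟩
  · intro w hw
    rw [hB, Finset.mem_map] at hw
    obtain ⟨k, _, rfl⟩ := hw
    exact (a k).2
  · intro x hx
    have hx2 : x ∈ Submodule.span ℝ (Set.range v') := by
      rw [hspan]
      unfold Lay at hx
      refine Submodule.span_mono ?_ hx
      rintro y ⟨w, hw, rfl⟩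
      exact ⟨⟨w, hw⟩, rfl⟩
    have key : ∀ y ∈ Submodule.span ℝ (Set.range v'), y = ∑ k, g y k • v' k := by
      intro y hy
      induction hy using Submodule.span_induction with
      | mem y hy =>
        obtain ⟨k, rfl⟩ := hy
        rw [hgv, Finset.sum_eq_single k]
        · simp
        · intro b _ hb
          simp [Finsupp.single_apply, hb.symm]
        · simp
      | zero => simp
      | add y z _ _ hy hz =>
        conv_lhs => rw [hy, hz]
        rw [← Finset.sum_add_distrib]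
        refine Finset.sum_congr rfl fun k _ => ?_
        rw [map_add, Finsupp.add_apply, add_smul]
      | smul c y _ hy =>
        conv_lhs => rw [hy]
        rw [Finset.smul_sum]
        refine Finset.sum_congr rfl fun k _ => ?_
        rw [map_smul, Finsupp.smul_apply, smul_assoc]
    rw [hB, Finset.sum_map]
    conv_lhs => rw [key x hx2]
    refine Finset.sum_congr rfl fun k _ => ?_
    show g x k • v' k = κ (a k).1 x • br e (a k).1
    rw [hκa]
    rfl
  · intro w hw v hv
    rw [hB, Finset.mem_map] at hw hv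
    obtain ⟨k, _, rfl⟩ := hw
    obtain ⟨l, _, rfl⟩ := hv
    show κ (a k).1 (br e (a l).1) = if (a k).1 = (a l).1 then 1 else 0
    rw [hκa]
    have h3 : g (br e (a l).1) = Finsupp.single l 1 := hgv l
    rw [h3, Finsupp.single_apply]
    by_cases h : l = k
    · subst h; simp
    · rw [if_neg h, if_neg fun h2 => h (hinj2 h2).symm]

/-- Basis words of the layers, with coordinate functionals. -/
structure Frame (e : ι → A) where
  B : ℕ → Finset (List ι)
  κ : List ι → (A →ₗ[ℝ] ℝ)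
  len : ∀ j, ∀ w ∈ B j, w.length = j
  expand : ∀ j, ∀ a ∈ Lay e j, a = ∑ w ∈ B j, κ w a • br e w
  dual : ∀ j, ∀ w ∈ B j, ∀ v ∈ B j, w = v → κ w (br e v) = 1
  dual' : ∀ j, ∀ w ∈ B j, ∀ v ∈ B j, w ≠ v → κ w (br e v) = 0

theorem exists_frame [Finite ι] (e : ι → A) : Nonempty (Frame e) := by
  classical
  choose B κ h1 h2 h3 using exists_level e
  refine ⟨⟨B, fun w => κ w.length w, h1, ?_, ?_, ?_⟩⟩
  · intro j a ha
    rw [h2 j a ha]
    conv_lhs => rw [← h2 j a ha]
    conv_lhs => rw [h2 j a ha]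
    refine Finset.sum_congr rfl fun w hw => ?_
    rw [← h2 j a ha, h1 j w hw]
  · intro j w hw v hv hwv
    show κ w.length w (br e v) = 1
    rw [h1 j w hw, h3 j w hw v hv, if_pos hwv]
  · intro j w hw v hv hwv
    show κ w.length w (br e v) = 0
    rw [h1 j w hw, h3 j w hw v hv, if_neg hwv]

variable {e : ι → A} {r : ℕ}

/-- the word of the `j`-th layer -/
noncomputable def Frame.tw (f : Frame e) (j : ℕ) : List (Sym ι) := (f.B j).toList.flatMap fun w => vw w w

theorem Frame.tw_index (f : Frame e) (j : ℕ) : ∀ q ∈ f.tw j, q.2.1 ∈ f.B j := by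
  intro q hq
  unfold Frame.tw at hq
  rw [List.mem_flatMap] at hq
  obtain ⟨w, hw, hq⟩ := hq
  rw [vw_index w w q hq]
  exact Finset.mem_toList.1 hw

theorem ev_flatMap_spec (h : Nil e r) (s : List ι → ℝ) {j : ℕ} (hj : 0 < j) (L : List (List ι))
    (hL : ∀ w ∈ L, w.length = j) :
    Uo j (ev h (L.flatMap fun w => vw w w) s) ∧
      ((ev h (L.flatMap fun w => vw w w) s : A[X]ˣ) : A[X]).coeff j =
        (L.map fun w => s w • br e w).sum := by
  induction L with
  | nil =>
    rw [List.flatMap_nil, ev_nil]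
    refine ⟨Uo.one j, ?_⟩
    rw [Units.val_one, coeff_one, if_neg (by omega)]
    simp
  | cons w L ih =>
    obtain ⟨h1, h2⟩ := ih fun v hv => hL v (List.mem_cons_of_mem _ hv)
    have hw : w.length = j := hL w (List.mem_cons_self ..)
    have hw0 : w ≠ [] := by
      intro h0
      rw [h0] at hw
      simp at hw
      omega
    obtain ⟨h3, h4⟩ := vw_spec h w s w hw0
    rw [hw] at h3 h4
    rw [List.flatMap_cons, ev_append]
    refine ⟨h3.mul h1, ?_⟩
    rw [Uo.coeff_mul hj h3 h1, h4, h2, List.map_cons, List.sum_cons]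

theorem Frame.tw_spec (f : Frame e) (h : Nil e r) {j : ℕ} (hj : 0 < j) (s : List ι → ℝ) :
    Uo j (ev h (f.tw j) s) ∧
      ((ev h (f.tw j) s : A[X]ˣ) : A[X]).coeff j = ∑ w ∈ f.B j, s w • br e w := by
  have := ev_flatMap_spec h s hj (f.B j).toList fun w hw => f.len j w (Finset.mem_toList.1 hw)
  refine ⟨this.1, ?_⟩
  unfold Frame.tw
  rw [this.2, Finset.sum_map_toList]

theorem Frame.κ_sum (f : Frame e) {j : ℕ} {w : List ι} (hw : w ∈ f.B j) (s : List ι → ℝ) :
    f.κ w (∑ v ∈ f.B j, s v • br e v) = s w := by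
  rw [map_sum, Finset.sum_eq_single_of_mem w hw]
  · rw [map_smul, f.dual j w hw w hw rfl, smul_eq_mul, mul_one]
  · intro v hv hne
    rw [map_smul, f.dual' j w hw v hv hne.symm, smul_zero]

/-- coordinates of the `j`-th coefficient -/
noncomputable def Frame.cf (f : Frame e) (j : ℕ) (g : A[X]ˣ) : List ι → ℝ :=
  fun w => f.κ w ((g : A[X]).coeff j)

/-- successive peeling of the layers -/
noncomputable def Frame.peel (f : Frame e) (h : Nil e r) : ℕ → A[X]ˣ → A[X]ˣ
  | 0, g => g
  | j + 1, g => (ev h (f.tw (j + 1)) (f.cf (j + 1) (f.peel h j g)))⁻¹ * f.peel h j g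

theorem Frame.peel_zero (f : Frame e) (h : Nil e r) (g : A[X]ˣ) : f.peel h 0 g = g := rfl

theorem Frame.peel_succ (f : Frame e) (h : Nil e r) (j : ℕ) (g : A[X]ˣ) :
    f.peel h (j + 1) g =
      (ev h (f.tw (j + 1)) (f.cf (j + 1) (f.peel h j g)))⁻¹ * f.peel h j g := rfl

theorem F_Uo {h : Nil e r} {g : A[X]ˣ} (hg : g ∈ F h) : Uo 1 g := by
  refine F_induction (h := h) (p := Uo 1) (Uo.one 1) (fun i x g ih => (lu_Uo h i x).mul ih) hg

theorem Frame.peel_mem (f : Frame e) (h : Nil e r) {g : A[X]ˣ} (hg : g ∈ F h) (j : ℕ) :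
    f.peel h j g ∈ F h := by
  induction j with
  | zero => exact hg
  | succ j ih =>
    rw [f.peel_succ]
    exact mul_mem (inv_mem (ev_mem h _ _)) ih

theorem Frame.peel_Uo (f : Frame e) (h : Nil e r) {g : A[X]ˣ} (hg : g ∈ F h) (j : ℕ) :
    Uo (j + 1) (f.peel h j g) := by
  induction j with
  | zero => exact F_Uo hg
  | succ j ih =>
    rw [f.peel_succ]
    have hmem := lead_mem (f.peel_mem h hg j) (Nat.succ_pos j) ih
    obtain ⟨h1, h2⟩ := f.tw_spec h (Nat.succ_pos j) (f.cf (j + 1) (f.peel h j g))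
    set p := f.peel h j g with hp
    set t := ev h (f.tw (j + 1)) (f.cf (j + 1) p) with ht
    have h3 : (t : A[X]).coeff (j + 1) = (p : A[X]).coeff (j + 1) := by
      rw [h2]
      exact (f.expand (j + 1) _ hmem).symm
    have h4 : Uo (j + 1) (t⁻¹ * p) := h1.inv.mul ih
    have h5 : ((t⁻¹ * p : A[X]ˣ) : A[X]).coeff (j + 1) = 0 := by
      rw [Uo.coeff_mul (Nat.succ_pos j) h1.inv ih, Uo.coeff_inv (Nat.succ_pos j) h1, h3,
        neg_add_cancel]
    intro k hk
    rcases Nat.lt_succ_iff_lt_or_eq.1 hk with hk | hk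
    · exact h4 k hk
    · rw [hk, Uo.coeff_sub_one (Nat.succ_pos j), h5]

theorem Frame.peel_r (f : Frame e) (h : Nil e r) {g : A[X]ˣ} (hg : g ∈ F h) :
    f.peel h r g = 1 := F_eq_one (f.peel_mem h hg r) (f.peel_Uo h hg r)

/-- the coordinates -/
noncomputable def Frame.co (f : Frame e) (h : Nil e r) (g : A[X]ˣ) : List ι → ℝ :=
  fun w => f.κ w ((f.peel h (w.length - 1) g : A[X]).coeff w.length)

/-- layers `j+1, ..., j+n` -/
noncomputable def Frame.tl (f : Frame e) : ℕ → ℕ → List (Sym ι)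
  | _, 0 => []
  | j, n + 1 => f.tw (j + 1) ++ f.tl (j + 1) n

theorem Frame.ev_cf (f : Frame e) (h : Nil e r) (j : ℕ) (g : A[X]ˣ) :
    ev h (f.tw (j + 1)) (f.cf (j + 1) (f.peel h j g)) = ev h (f.tw (j + 1)) (f.co h g) := by
  refine ev_congr h fun q hq => ?_
  have h1 := f.tw_index (j + 1) q hq
  have h2 := f.len _ _ h1
  show f.κ q.2.1 _ = f.κ q.2.1 _
  rw [h2]
  rfl

theorem Frame.peel_eq (f : Frame e) (h : Nil e r) {g : A[X]ˣ} (hg : g ∈ F h) (n j : ℕ)
    (hn : j + n = r) : f.peel h j g = ev h (f.tl j n) (f.co h g) := by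
  induction n generalizing j with
  | zero =>
    have : j = r := by omega
    subst this
    rw [f.peel_r h hg, Frame.tl, ev_nil]
  | succ n ih =>
    rw [Frame.tl, ev_append, ← ih (j + 1) (by omega), f.peel_succ, f.ev_cf, mul_inv_cancel_left]

/-- the full word -/
noncomputable def Frame.T (f : Frame e) (r : ℕ) : List (Sym ι) := f.tl 0 r

theorem Frame.ev_co (f : Frame e) (h : Nil e r) {g : A[X]ˣ} (hg : g ∈ F h) :
    ev h (f.T r) (f.co h g) = g := (f.peel_eq h hg r 0 (zero_add r)).symm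

theorem Frame.tl_Uo (f : Frame e) (h : Nil e r) (s : List ι → ℝ) (n j : ℕ) :
    Uo (j + 1) (ev h (f.tl j n) s) := by
  induction n generalizing j with
  | zero => rw [Frame.tl, ev_nil]; exact Uo.one _
  | succ n ih =>
    rw [Frame.tl, ev_append]
    exact (f.tw_spec h (Nat.succ_pos j) s).1.mul ((ih (j + 1)).mono (by omega))

theorem Frame.peel_ev (f : Frame e) (h : Nil e r) (s : List ι → ℝ) (j n : ℕ) (hn : j + n = r) :
    f.peel h j (ev h (f.T r) s) = ev h (f.tl j n) s := by
  induction j generalizing n with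
  | zero =>
    have : n = r := by omega
    subst this
    rfl
  | succ j ih =>
    have h1 := ih (n + 1) (by omega)
    rw [f.peel_succ, h1, Frame.tl, ev_append]
    have h2 : ev h (f.tw (j + 1)) (f.cf (j + 1) (ev h (f.tw (j + 1)) s * ev h (f.tl (j + 1) n) s))
        = ev h (f.tw (j + 1)) s := by
      refine ev_congr h fun q hq => ?_
      obtain ⟨h3, h4⟩ := f.tw_spec h (Nat.succ_pos j) s
      have h5 := f.tl_Uo h s n (j + 1)
      show f.κ q.2.1 _ = _
      have h6 : ((ev h (f.tl (j + 1) n) s : A[X]ˣ) : A[X]).coeff (j + 1) = 0 := by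
        have := h5 (j + 1) (by omega)
        rwa [Uo.coeff_sub_one (Nat.succ_pos j)] at this
      rw [Uo.coeff_mul (Nat.succ_pos j) h3 (h5.mono (by omega)), h4, h6, add_zero,
        f.κ_sum (f.tw_index _ q hq)]
    rw [h2, inv_mul_cancel_left]

theorem Frame.co_ev (f : Frame e) (h : Nil e r) (s : List ι → ℝ) {j : ℕ} (hj : 0 < j) (hjr : j ≤ r)
    {w : List ι} (hw : w ∈ f.B j) : f.co h (ev h (f.T r) s) w = s w := by
  have hl := f.len j w hw
  obtain ⟨i, rfl⟩ : ∃ i, j = i + 1 := ⟨j - 1, by omega⟩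
  obtain ⟨n, hn⟩ : ∃ n, r = i + (n + 1) := ⟨r - i - 1, by omega⟩
  unfold Frame.co
  rw [hl, Nat.add_sub_cancel, f.peel_ev h s i (n + 1) hn.symm, Frame.tl, ev_append]
  obtain ⟨h3, h4⟩ := f.tw_spec h (Nat.succ_pos i) s
  have h5 := f.tl_Uo h s n (i + 1)
  have h6 : ((ev h (f.tl (i + 1) n) s : A[X]ˣ) : A[X]).coeff (i + 1) = 0 := by
    have := h5 (i + 1) (by omega)
    rwa [Uo.coeff_sub_one (Nat.succ_pos i)] at this
  rw [Uo.coeff_mul (Nat.succ_pos i) h3 (h5.mono (by omega)), h4, h6, add_zero, f.κ_sum hw]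

theorem coeff_mul_Uo {j k : ℕ} (hk : k < j) (p u : A[X]ˣ) (hu : Uo j u) :
    ((p * u : A[X]ˣ) : A[X]).coeff k = (p : A[X]).coeff k := by
  have : ((p * u : A[X]ˣ) : A[X]) = (p : A[X]) + (p : A[X]) * ((u : A[X]) - 1) := by
    rw [Units.val_mul]; noncomm_ring
  rw [this, coeff_add, Ord.mul_left hu k hk, add_zero]

theorem Frame.peel_mul (f : Frame e) (h : Nil e r) {j : ℕ} (g u : A[X]ˣ) (hu : Uo j u) (i : ℕ)
    (hi : i < j) : f.peel h i (g * u) = f.peel h i g * u := by
  induction i with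
  | zero => rfl
  | succ i ih =>
    have h1 := ih (by omega)
    rw [f.peel_succ, f.peel_succ, h1]
    have h2 : f.cf (i + 1) (f.peel h i g * u) = f.cf (i + 1) (f.peel h i g) := by
      funext w
      unfold Frame.cf
      rw [coeff_mul_Uo hi _ _ hu]
    rw [h2, mul_assoc]

theorem Frame.co_mul_lt (f : Frame e) (h : Nil e r) {j : ℕ} (g u : A[X]ˣ) (hu : Uo j u)
    {w : List ι} (hw0 : 0 < w.length) (hw : w.length < j) : f.co h (g * u) w = f.co h g w := by
  unfold Frame.co
  rw [f.peel_mul h g u hu _ (by omega), coeff_mul_Uo hw _ _ hu]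

theorem Frame.co_mul_eq (f : Frame e) (h : Nil e r) {g u : A[X]ˣ} (hg : g ∈ F h)
    {w : List ι} (hw0 : 0 < w.length) (hu : Uo w.length u) :
    f.co h (g * u) w = f.co h g w + f.κ w ((u : A[X]).coeff w.length) := by
  unfold Frame.co
  rw [f.peel_mul h g u hu _ (by omega)]
  have h1 : Uo w.length (f.peel h (w.length - 1) g) := by
    have := f.peel_Uo h hg (w.length - 1)
    rwa [Nat.sub_add_cancel hw0] at this
  rw [Uo.coeff_mul hw0 h1 hu, map_add]

theorem Frame.ev_tl_split (f : Frame e) (h : Nil e r) (s s' : List ι → ℝ) (j n : ℕ) (m : ℕ)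
    (hs : ∀ v : List ι, v.length < j → s v = s' v) (hm : m < j) (hn : j ≤ m + n + 1) :
    ∃ P u u' : A[X]ˣ, ev h (f.tl m n) s = P * u ∧ ev h (f.tl m n) s' = P * u' ∧ P ∈ F h ∧
      Uo j u ∧ Uo j u' ∧ u ∈ F h ∧ u' ∈ F h ∧ 
      (j ≤ m + n → (u : A[X]).coeff j = ∑ w ∈ f.B j, s w • br e w ∧
        (u' : A[X]).coeff j = ∑ w ∈ f.B j, s' w • br e w) := by
  induction n generalizing m with
  | zero =>
    refine ⟨1, 1, 1, ?_, ?_, one_mem _, Uo.one _, Uo.one _, one_mem _, one_mem _, ?_⟩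
    · rw [Frame.tl, ev_nil, mul_one]
    · rw [Frame.tl, ev_nil, mul_one]
    · intro hjm; omega
  | succ n ih =>
    by_cases hm1 : m + 1 < j
    · obtain ⟨P, u, u', h1, h2, h3, h4, h5, h6, h7, h8⟩ := ih (m + 1) hm1 (by omega)
      refine ⟨ev h (f.tw (m + 1)) s * P, u, u', ?_, ?_, mul_mem (ev_mem h _ _) h3, h4, h5, h6, h7, ?_⟩
      · rw [Frame.tl, ev_append, h1, mul_assoc]
      · rw [Frame.tl, ev_append, h2, mul_assoc]
        congr 1
        refine ev_congr h fun q hq => (hs _ ?_).symm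
        rw [f.len _ _ (f.tw_index _ q hq)]
        exact hm1
      · intro hj
        exact h8 (by omega)
    · have hjm : j = m + 1 := by omega
      subst hjm
      refine ⟨1, ev h (f.tl m (n + 1)) s, ev h (f.tl m (n + 1)) s', (one_mul _).symm,
        (one_mul _).symm, one_mem _, f.tl_Uo h s _ _, f.tl_Uo h s' _ _, ev_mem h _ _, ev_mem h _ _, ?_⟩
      intro _
      have key : ∀ t : List ι → ℝ, ((ev h (f.tl m (n + 1)) t : A[X]ˣ) : A[X]).coeff (m + 1) =
          ∑ w ∈ f.B (m + 1), t w • br e w := by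
        intro t
        rw [Frame.tl, ev_append]
        obtain ⟨h3, h4⟩ := f.tw_spec h (Nat.succ_pos m) t
        have h5 := f.tl_Uo h t n (m + 1)
        have h6 : ((ev h (f.tl (m + 1) n) t : A[X]ˣ) : A[X]).coeff (m + 1) = 0 := by
          have := h5 (m + 1) (by omega)
          rwa [Uo.coeff_sub_one (Nat.succ_pos m)] at this
        rw [Uo.coeff_mul (Nat.succ_pos m) h3 (h5.mono (by omega)), h4, h6, add_zero]
      exact ⟨key s, key s'⟩

/-- Left translation is triangular with identity diagonal. -/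
theorem Frame.co_triangular (f : Frame e) (h : Nil e r) {g : A[X]ˣ} (hg : g ∈ F h)
    (s s' : List ι → ℝ) {j : ℕ} (hj : 0 < j) (hjr : j ≤ r)
    (hs : ∀ v : List ι, v.length < j → s v = s' v) {w : List ι} (hw : w ∈ f.B j) :
    f.co h (g * ev h (f.T r) s) w - s w = f.co h (g * ev h (f.T r) s') w - s' w := by
  obtain ⟨P, u, u', h1, h2, h3, h4, h5, h6, h7, h8⟩ :=
    f.ev_tl_split h s s' j r 0 hs hj (by omega)
  obtain ⟨h9, h10⟩ := h8 (by omega)
  have hl := f.len j w hw
  have key : ∀ (t : List ι → ℝ) (v : A[X]ˣ), ev h (f.tl 0 r) t = P * v → Uo j v →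
      (v : A[X]).coeff j = ∑ w ∈ f.B j, t w • br e w →
      f.co h (g * ev h (f.T r) t) w - t w = f.co h (g * P) w := by
    intro t v e1 e2 e3
    unfold Frame.T
    rw [e1, ← mul_assoc, f.co_mul_eq h (mul_mem hg h3) (by omega) (by rw [hl]; exact e2), hl, e3,
      f.κ_sum hw]
    ring
  rw [key s u h1 h4 h9, key s' u' h2 h5 h10]

end Vale.Agent.P188.H329
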