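import Vale.Agent.P188.H329.Frame

/-!
# P188, FILL block, part 18: exponentials of Lie elements belong to the curve group
-/

set_option linter.all false

namespace Vale.Agent.P188.H329

open Polynomial Finset

variable {A : Type} [Ring A] [Algebra ℝ A] {ι : Type}

/-! ### brackets of layers -/

theorem lay_lie (e : ι → A) {i : ℕ} {a : A} (ha : a ∈ Lay e i) :
    ∀ {j : ℕ} {b : A}, b ∈ Lay e j → a * b - b * a ∈ Lay e (i + j) := by
  have key : ∀ (w : List ι) {j : ℕ} {b : A}, b ∈ Lay e j →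
      br e w * b - b * br e w ∈ Lay e (w.length + j) := by
    intro w
    induction w with
    | nil =>
      intro j b hb
      simp [br, Submodule.zero_mem]
    | cons i w ih =>
      cases w with
      | nil =>
        intro j b hb
        have := lay_bracket e i hb
        simp only [List.length_cons, List.length_nil, zero_add]
        rw [add_comm]
        exact this
      | cons i' w =>
        intro j b hb
        have h1 := ih hb
        have h2 := lay_bracket e i h1
        have h3 := ih (lay_bracket e i hb)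
        have h4 : (i :: i' :: w).length + j = (i' :: w).length + j + 1 := by simp; omega
        rw [h4]
        have h5 : (i' :: w).length + (j + 1) = (i' :: w).length + j + 1 := by omega
        rw [h5] at h3
        have h6 := Submodule.sub_mem _ h2 h3
        convert h6 using 1
        simp only [br]
        noncomm_ring
  intro j b hb
  unfold Lay at ha
  induction ha using Submodule.span_induction with
  | mem x hx =>
    obtain ⟨w, hw, rfl⟩ := hx
    rw [← hw]
    exact key w hb
  | zero => simp [Submodule.zero_mem]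
  | add x y _ _ hx hy =>
    have := Submodule.add_mem _ hx hy
    convert this using 1
    noncomm_ring
  | smul c x _ hx =>
    have := Submodule.smul_mem _ c hx
    convert this using 1
    simp [smul_sub]

theorem LayP_lie {e : ι → A} {p q : A[X]} (hp : p ∈ LayP e) (hq : q ∈ LayP e) :
    p * q - q * p ∈ LayP e := by
  intro k
  rw [coeff_sub, Polynomial.coeff_mul, Polynomial.coeff_mul,
    ← Finset.Nat.sum_antidiagonal_swap (f := fun x : ℕ × ℕ => q.coeff x.1 * p.coeff x.2),
    ← Finset.sum_sub_distrib]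
  refine Submodule.sum_mem _ fun x hx => ?_
  rw [mem_antidiagonal] at hx
  rw [← hx]
  exact lay_lie e (hp x.1) (hq x.2)

/-! ### the grading -/

/-- all coefficients homogeneous -/
def WdP (e : ι → A) (p : A[X]) : Prop := ∀ k, p.coeff k ∈ Wd e k

theorem WdP.mul {e : ι → A} {p q : A[X]} (hp : WdP e p) (hq : WdP e q) : WdP e (p * q) := by
  intro k
  rw [Polynomial.coeff_mul]
  refine Submodule.sum_mem _ fun x hx => ?_
  rw [mem_antidiagonal] at hx
  rw [← hx]
  exact Wd_mul (hp x.1) (hq x.2)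

theorem WdP.one (e : ι → A) : WdP e 1 := by
  intro k
  rw [coeff_one]
  split_ifs with hk
  · subst hk
    exact Submodule.subset_span ⟨[], rfl, rfl⟩
  · exact Submodule.zero_mem _

theorem WdP.pow {e : ι → A} {p : A[X]} (hp : WdP e p) (n : ℕ) : WdP e (p ^ n) := by
  induction n with
  | zero => rw [pow_zero]; exact WdP.one e
  | succ n ih => rw [pow_succ]; exact ih.mul hp

theorem WdP.sub {e : ι → A} {p q : A[X]} (hp : WdP e p) (hq : WdP e q) : WdP e (p - q) := by
  intro k
  rw [coeff_sub]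
  exact Submodule.sub_mem _ (hp k) (hq k)

theorem WdP.smul {e : ι → A} {p : A[X]} (hp : WdP e p) (c : ℝ) : WdP e (c • p) := by
  intro k
  rw [coeff_smul]
  exact Submodule.smul_mem _ _ (hp k)

theorem WdP.sum {e : ι → A} {α : Type} {s : Finset α} {p : α → A[X]} (hp : ∀ a ∈ s, WdP e (p a)) :
    WdP e (∑ a ∈ s, p a) := by
  intro k
  rw [finset_sum_coeff]
  exact Submodule.sum_mem _ fun a ha => hp a ha k

theorem br_mem_Wd (e : ι → A) (w : List ι) : br e w ∈ Wd e w.length := by
  induction w with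
  | nil => exact Submodule.zero_mem _
  | cons i w ih =>
    cases w with
    | nil => exact Submodule.subset_span ⟨[i], rfl, by simp [br]⟩
    | cons j w =>
      have h1 : e i ∈ Wd e 1 := Submodule.subset_span ⟨[i], rfl, by simp⟩
      have h2 := Wd_mul h1 ih
      have h3 := Wd_mul ih h1
      have e1 : (i :: j :: w).length = 1 + (j :: w).length := by simp; omega
      rw [e1]
      rw [add_comm] at h3
      exact Submodule.sub_mem _ h2 h3

theorem Lay_le_Wd (e : ι → A) (k : ℕ) : Lay e k ≤ Wd e k := by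
  unfold Lay
  rw [Submodule.span_le]
  rintro a ⟨w, hw, rfl⟩
  rw [← hw]
  exact br_mem_Wd e w

theorem LayP.WdP {e : ι → A} {p : A[X]} (hp : p ∈ LayP e) : WdP e p := fun k => Lay_le_Wd e k (hp k)

theorem LayP.Ord {e : ι → A} {p : A[X]} (hp : p ∈ LayP e) : Ord 1 p := by
  intro k hk
  have : k = 0 := by omega
  subst this
  exact lay_zero e (hp 0)

theorem Ord.pow {p : A[X]} (hp : Ord 1 p) (n : ℕ) : Ord n (p ^ n) := by
  induction n with
  | zero => exact ord_zero _
  | succ n ih => rw [pow_succ]; exact ih.mul hp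

theorem eq_zero_of_Ord_WdP {e : ι → A} {r n : ℕ} (h : Nil e r) (hn : r < n) {p : A[X]}
    (h1 : Ord n p) (h2 : WdP e p) : p = 0 := by
  ext k
  rw [coeff_zero]
  by_cases hk : k < n
  · exact h1 k hk
  · exact h.Wd_zero (by omega) (h2 k)

theorem LayP.nilp {e : ι → A} {r : ℕ} (h : Nil e r) {p : A[X]} (hp : p ∈ LayP e) :
    p ^ (r + 1) = 0 :=
  eq_zero_of_Ord_WdP h (Nat.lt_succ_self r) (Ord.pow (LayP.Ord hp) _) (WdP.pow (LayP.WdP hp) _)

/-! ### logarithmic derivative of an exponential -/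

/-- iterated commutators with `m` -/
noncomputable def dl (m w : A[X]) : ℕ → A[X]
  | 0 => w
  | l + 1 => dl m w l * m - m * dl m w l

theorem D_pow (m : A[X]) (k : ℕ) :
    D (m ^ k) = ∑ l ∈ range k, (k.choose (l + 1)) • (m ^ (k - 1 - l) * dl m (D m) l) := by
  induction k with
  | zero => simp [D_one]
  | succ k ih =>
    have h1 : D (m ^ (k + 1)) = D (m ^ k) * m + m ^ k * D m := by rw [pow_succ, D_mul]
    rw [h1, ih, Finset.sum_mul]
    have h2 : ∀ l ∈ range k, (k.choose (l + 1)) • (m ^ (k - 1 - l) * dl m (D m) l) * m =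
        (k.choose (l + 1)) • (m ^ (k - l) * dl m (D m) l) +
        (k.choose (l + 1)) • (m ^ (k - (l + 1)) * dl m (D m) (l + 1)) := by
      intro l hl
      rw [mem_range] at hl
      have e1 : m ^ (k - l) = m ^ (k - 1 - l) * m := by
        rw [← pow_succ]
        congr 1
        omega
      have e2 : k - (l + 1) = k - 1 - l := by omega
      rw [e1, e2, ← smul_add, smul_mul_assoc]
      congr 1
      simp only [dl]
      noncomm_ring
    rw [Finset.sum_congr rfl h2, Finset.sum_add_distrib]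
    -- shift the second sum
    have h3 : ∑ l ∈ range k, (k.choose (l + 1)) • (m ^ (k - (l + 1)) * dl m (D m) (l + 1)) +
        m ^ k * D m = ∑ l ∈ range (k + 1), (k.choose l) • (m ^ (k - l) * dl m (D m) l) := by
      rw [Finset.sum_range_succ']
      simp [dl]
    have h4 : ∑ l ∈ range k, (k.choose (l + 1)) • (m ^ (k - l) * dl m (D m) l) =
        ∑ l ∈ range (k + 1), (k.choose (l + 1)) • (m ^ (k - l) * dl m (D m) l) := by
      rw [Finset.sum_range_succ]
      simp
    rw [add_assoc, h3, h4, ← Finset.sum_add_distrib]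
    refine Finset.sum_congr rfl fun l hl => ?_
    rw [← add_smul]
    congr 1
    rw [Nat.choose_succ_succ, add_comm]

theorem dl_mem {e : ι → A} {m w : A[X]} (hm : m ∈ LayP e) (hw : w ∈ LayP e) (l : ℕ) :
    dl m w l ∈ LayP e := by
  induction l with
  | zero => exact hw
  | succ l ih => exact LayP_lie ih hm

theorem dl_Ord {m w : A[X]} (hm : Ord 1 m) (hw : Ord 1 w) (l : ℕ) : Ord (l + 1) (dl m w l) := by
  induction l with
  | zero => exact hw
  | succ l ih =>
    refine (ih.mul hm).sub ?_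
    have := hm.mul ih
    rwa [add_comm] at this

theorem D_mem {e : ι → A} {m : A[X]} (hm : m ∈ LayP e) : D m ∈ LayP e := by
  intro k
  rw [coeff_D]
  exact Submodule.smul_mem _ _ (hm k)

theorem smul_D (c : ℝ) (p : A[X]) : D (c • p) = c • D p := by
  ext k
  rw [coeff_D, coeff_smul, coeff_smul, coeff_D, smul_comm]

theorem D_sum {α : Type} (s : Finset α) (p : α → A[X]) : D (∑ a ∈ s, p a) = ∑ a ∈ s, D (p a) := by
  ext k
  rw [coeff_D, finset_sum_coeff, finset_sum_coeff, Finset.smul_sum]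
  exact Finset.sum_congr rfl fun a _ => (coeff_D _ _).symm

theorem D_rexp {e : ι → A} {r : ℕ} (h : Nil e r) {m : A[X]} (hm : m ∈ LayP e) :
    D (rexp (r + 1) m) = rexp (r + 1) m *
      ∑ l ∈ range (r + 1), (((l + 1).factorial : ℝ)⁻¹) • dl m (D m) l := by
  have hz : ∀ a l : ℕ, r < a + (l + 1) → m ^ a * dl m (D m) l = 0 := by
    intro a l hal
    refine eq_zero_of_Ord_WdP h hal ?_ ?_
    · exact (Ord.pow (LayP.Ord hm) a).mul (dl_Ord (LayP.Ord hm) (LayP.Ord (D_mem hm)) l)
    · exact (WdP.pow (LayP.WdP hm) a).mul (LayP.WdP (dl_mem hm (D_mem hm) l))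
  have h1 : D (rexp (r + 1) m) = ∑ k ∈ range (r + 1), ∑ l ∈ range k,
      (((k - 1 - l).factorial : ℝ)⁻¹ * ((l + 1).factorial : ℝ)⁻¹) •
        (m ^ (k - 1 - l) * dl m (D m) l) := by
    unfold rexp
    rw [D_sum]
    refine Finset.sum_congr rfl fun k _ => ?_
    rw [smul_D, D_pow, Finset.smul_sum]
    refine Finset.sum_congr rfl fun l hl => ?_
    rw [mem_range] at hl
    rw [← Nat.cast_smul_eq_nsmul ℝ, smul_smul]
    congr 1
    have h2 : ((k.choose (l + 1) : ℕ) : ℝ) * ((l + 1).factorial : ℝ) * ((k - 1 - l).factorial : ℝ) =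
        (k.factorial : ℝ) := by
      have := Nat.choose_mul_factorial_mul_factorial (n := k) (k := l + 1) (by omega)
      have e2 : k - (l + 1) = k - 1 - l := by omega
      rw [e2] at this
      exact_mod_cast this
    have h3 : ((l + 1).factorial : ℝ) ≠ 0 := by exact_mod_cast (l + 1).factorial_ne_zero
    have h4 : ((k - 1 - l).factorial : ℝ) ≠ 0 := by exact_mod_cast (k - 1 - l).factorial_ne_zero
    have h5 : (k.factorial : ℝ) ≠ 0 := by exact_mod_cast k.factorial_ne_zero
    rw [← h2]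
    have h6 : ((k.choose (l + 1) : ℕ) : ℝ) ≠ 0 := by
      intro h7
      rw [h7] at h2
      simp at h2
      exact h5 h2.symm
    field_simp
  set f : ℕ → ℕ → A[X] := fun a l => ((a.factorial : ℝ)⁻¹ * ((l + 1).factorial : ℝ)⁻¹) •
    (m ^ a * dl m (D m) l) with hf
  have hf0 : ∀ a l, r < a + (l + 1) → f a l = 0 := by
    intro a l hal
    simp only [hf]
    rw [hz a l hal, smul_zero]
  have h2 : ∑ k ∈ range (r + 1), ∑ l ∈ range k, f (k - 1 - l) l =
      ∑ y ∈ (range (r + 1) ×ˢ range (r + 1)).filter (fun y => y.1 + y.2 < r), f y.2 y.1 := by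
    rw [Finset.sum_sigma']
    refine Finset.sum_nbij' (fun x => (x.2, x.1 - 1 - x.2)) (fun y => ⟨y.1 + y.2 + 1, y.1⟩)
      ?_ ?_ ?_ ?_ ?_
    · rintro ⟨k, l⟩ hx
      rw [mem_sigma, mem_range, mem_range] at hx
      rw [mem_filter, mem_product, mem_range, mem_range]
      dsimp only at hx ⊢
      omega
    · rintro ⟨l, a⟩ hy
      rw [mem_filter, mem_product, mem_range, mem_range] at hy
      rw [mem_sigma, mem_range, mem_range]
      dsimp only at hy ⊢
      omega
    · rintro ⟨k, l⟩ hx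
      rw [mem_sigma, mem_range, mem_range] at hx
      dsimp only at hx ⊢
      have : l + (k - 1 - l) + 1 = k := by omega
      rw [this]
    · rintro ⟨l, a⟩ hy
      dsimp only
      have : l + a + 1 - 1 - l = a := by omega
      rw [this]
    · rintro ⟨k, l⟩ hx
      rfl
  have h3 : ∑ y ∈ (range (r + 1) ×ˢ range (r + 1)).filter (fun y => y.1 + y.2 < r), f y.2 y.1 =
      ∑ y ∈ range (r + 1) ×ˢ range (r + 1), f y.2 y.1 := by
    refine Finset.sum_subset (Finset.filter_subset _ _) fun y hy hy2 => ?_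
    refine hf0 _ _ ?_
    rw [mem_filter, not_and, not_lt] at hy2
    have := hy2 hy
    omega
  rw [h1, h2, h3, Finset.sum_product_right]
  unfold rexp
  rw [Finset.sum_mul_sum]
  refine Finset.sum_congr rfl fun a _ => Finset.sum_congr rfl fun l _ => ?_
  simp only [hf]
  rw [smul_mul_smul_comm]

/-! ### the enlarged group -/

/-- Properties that make the peeling procedure work. -/
structure Fh (e : ι → A) (g : A[X]ˣ) : Prop where
  uo : Uo 1 g
  conj : ∀ p ∈ LayP e, ((g⁻¹ : A[X]ˣ) : A[X]) * p * (g : A[X]) ∈ LayP e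
  log : ((g⁻¹ : A[X]ˣ) : A[X]) * D (g : A[X]) ∈ LayP e
  wd : WdP e (g : A[X])

theorem Fh.mul_left {e : ι → A} {r : ℕ} {h : Nil e r} {t g : A[X]ˣ} (ht : t ∈ F h) (hg : Fh e g) :
    Fh e (t * g) := by
  have e1 : (((t * g)⁻¹ : A[X]ˣ) : A[X]) = ((g⁻¹ : A[X]ˣ) : A[X]) * ((t⁻¹ : A[X]ˣ) : A[X]) := by
    rw [mul_inv_rev, Units.val_mul]
  have e2 : ((t * g : A[X]ˣ) : A[X]) = (t : A[X]) * (g : A[X]) := Units.val_mul _ _
  have e3 : ((t⁻¹ : A[X]ˣ) : A[X]) * (t : A[X]) = 1 := by
    rw [← Units.val_mul, inv_mul_cancel, Units.val_one]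
  refine ⟨(F_Uo ht).mul hg.uo, ?_, ?_, ?_⟩
  · intro p hp
    have h1 := hg.conj _ (conj_mem ht p hp)
    rw [e1, e2]
    convert h1 using 1
    simp only [mul_assoc]
  · rw [e1, e2, D_mul]
    have h1 := hg.conj _ (logder ht)
    have h2 := Submodule.add_mem _ h1 hg.log
    convert h2 using 1
    have e4 : ∀ q : A[X], ((t⁻¹ : A[X]ˣ) : A[X]) * ((t : A[X]) * q) = q := by
      intro q
      rw [← mul_assoc, e3, one_mul]
    simp only [mul_add, mul_assoc, e4]
  · rw [e2]
    exact WdP.mul (fun k => F_coeff_mem ht k) hg.wd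

/-- lead_mem for the enlarged class -/
theorem Fh.lead_mem {e : ι → A} {g : A[X]ˣ} (hg : Fh e g) {j : ℕ}
    (hj : 0 < j) (ho : Ord j ((g : A[X]) - 1)) : (g : A[X]).coeff j ∈ Lay e j := by
  have h1 := hg.log j
  have hD : Ord j (D (g : A[X])) := by
    intro k hk
    rw [coeff_D]
    cases k with
    | zero => simp
    | succ k =>
      have := ho _ hk
      rw [coeff_sub, coeff_one, if_neg (by omega), sub_zero] at this
      rw [this, smul_zero]
  have h2 : (((g⁻¹ : A[X]ˣ) : A[X]) * D (g : A[X])).coeff (0 + j) =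
      ((g⁻¹ : A[X]ˣ) : A[X]).coeff 0 * (D (g : A[X])).coeff j := (ord_zero _).coeff_mul hD
  have h3 : ((g⁻¹ : A[X]ˣ) : A[X]).coeff 0 = 1 := hg.uo.inv.coeff_zero one_pos
  rw [zero_add, h3, one_mul, coeff_D] at h2
  rw [h2] at h1
  have h6 := Submodule.smul_mem _ ((j : ℝ)⁻¹) h1
  rwa [smul_smul, inv_mul_cancel₀ (by exact_mod_cast hj.ne'), one_smul] at h6

theorem Fh.eq_one {e : ι → A} {r : ℕ} (h : Nil e r) {g : A[X]ˣ} (hg : Fh e g)
    (ho : Ord (r + 1) ((g : A[X]) - 1)) : g = 1 := by
  apply Units.ext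
  rw [Units.val_one]
  have := eq_zero_of_Ord_WdP h (Nat.lt_succ_self r) ho (hg.wd.sub (WdP.one e))
  rwa [sub_eq_zero] at this

theorem Frame.peel_Fh {e : ι → A} {r : ℕ} (f : Frame e) (h : Nil e r) {g : A[X]ˣ} (hg : Fh e g)
    (j : ℕ) : Fh e (f.peel h j g) := by
  induction j with
  | zero => exact hg
  | succ j ih =>
    rw [f.peel_succ]
    exact Fh.mul_left (inv_mem (ev_mem h _ _)) ih

theorem Frame.peel_Uo_Fh {e : ι → A} {r : ℕ} (f : Frame e) (h : Nil e r) {g : A[X]ˣ}
    (hg : Fh e g) (j : ℕ) : Uo (j + 1) (f.peel h j g) := by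
  induction j with
  | zero => exact hg.uo
  | succ j ih =>
    rw [f.peel_succ]
    have hmem := (f.peel_Fh h hg j).lead_mem (Nat.succ_pos j) ih
    obtain ⟨h1, h2⟩ := f.tw_spec h (Nat.succ_pos j) (f.cf (j + 1) (f.peel h j g))
    set p := f.peel h j g with hp
    set t := ev h (f.tw (j + 1)) (f.cf (j + 1) p) with ht
    have h3 : (t : A[X]).coeff (j + 1) = (p : A[X]).coeff (j + 1) := by
      rw [h2]
      exact (f.expand (j + 1) _ hmem).symm
    have h4 : Uo (j + 1) (t⁻¹ * p) := h1.inv.mul ih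
    have h5 : ((t⁻¹ * p : A[X]ˣ) : A[X]).coeff (j + 1) = 0 := by
      rw [Uo.coeff_mul (Nat.succ_pos j) h1.inv ih, Uo.coeff_inv (Nat.succ_pos j) h1, h3,
        neg_add_cancel]
    intro k hk
    rcases Nat.lt_succ_iff_lt_or_eq.1 hk with hk | hk
    · exact h4 k hk
    · rw [hk, Uo.coeff_sub_one (Nat.succ_pos j), h5]

theorem Frame.peel_eq_Fh {e : ι → A} {r : ℕ} (f : Frame e) (h : Nil e r) {g : A[X]ˣ}
    (hg : Fh e g) (n j : ℕ) (hn : j + n = r) : f.peel h j g = ev h (f.tl j n) (f.co h g) := by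
  induction n generalizing j with
  | zero =>
    have : j = r := by omega
    subst this
    rw [Fh.eq_one h (f.peel_Fh h hg j) (f.peel_Uo_Fh h hg j), Frame.tl, ev_nil]
  | succ n ih =>
    rw [Frame.tl, ev_append, ← ih (j + 1) (by omega), f.peel_succ, f.ev_cf, mul_inv_cancel_left]

theorem Frame.ev_co_Fh {e : ι → A} {r : ℕ} (f : Frame e) (h : Nil e r) {g : A[X]ˣ} (hg : Fh e g) :
    ev h (f.T r) (f.co h g) = g := (f.peel_eq_Fh h hg r 0 (zero_add r)).symm

/-- the unit `exp m` -/
noncomputable def eu {e : ι → A} {r : ℕ} (h : Nil e r) {m : A[X]} (hm : m ∈ LayP e) : A[X]ˣ where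
  val := rexp (r + 1) m
  inv := rexp (r + 1) (-m)
  val_inv := by
    have h1 := LayP.nilp h hm
    have h2 := LayP.nilp h (Submodule.neg_mem _ hm)
    rw [← rexp_add (Commute.neg_right (Commute.refl m)) h1 h2 (l := r + 1) (by
      rw [add_neg_cancel, zero_pow (Nat.succ_ne_zero r)]), add_neg_cancel,
      rexp_zero (Nat.succ_pos r)]
  inv_val := by
    have h1 := LayP.nilp h hm
    have h2 := LayP.nilp h (Submodule.neg_mem _ hm)
    rw [← rexp_add (Commute.neg_left (Commute.refl m)) h2 h1 (l := r + 1) (by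
      rw [neg_add_cancel, zero_pow (Nat.succ_ne_zero r)]), neg_add_cancel,
      rexp_zero (Nat.succ_pos r)]

theorem eu_Fh {e : ι → A} {r : ℕ} (h : Nil e r) {m : A[X]} (hm : m ∈ LayP e) : Fh e (eu h hm) := by
  have hval : ((eu h hm : A[X]ˣ) : A[X]) = rexp (r + 1) m := rfl
  have hinv : (((eu h hm)⁻¹ : A[X]ˣ) : A[X]) = rexp (r + 1) (-m) := rfl
  refine ⟨?_, ?_, ?_, ?_⟩
  · unfold Uo
    rw [hval]
    intro k hk
    have hk0 : k = 0 := by omega
    subst hk0
    unfold rexp
    rw [coeff_sub, finset_sum_coeff, Finset.sum_range_succ']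
    have : ∑ k ∈ range r, (((k + 1).factorial : ℝ)⁻¹ • m ^ (k + 1)).coeff 0 = 0 := by
      refine Finset.sum_eq_zero fun k _ => ?_
      rw [coeff_smul, Ord.pow (LayP.Ord hm) (k + 1) 0 (Nat.succ_pos k), smul_zero]
    rw [this]
    simp
  · intro p hp
    rw [hval, hinv]
    exact rexp_conj (LayP.nilp h hm) (LayP e) (fun q hq => LayP_lie hq hm) hp
  · have h1 : D ((eu h hm : A[X]ˣ) : A[X]) = ((eu h hm : A[X]ˣ) : A[X]) *
        ∑ l ∈ range (r + 1), (((l + 1).factorial : ℝ)⁻¹) • dl m (D m) l := by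
      rw [hval]
      exact D_rexp h hm
    rw [h1, ← mul_assoc, ← Units.val_mul, inv_mul_cancel, Units.val_one, one_mul]
    exact Submodule.sum_mem _ fun l _ => Submodule.smul_mem _ _ (dl_mem hm (D_mem hm) l)
  · rw [hval]
    unfold rexp
    exact WdP.sum fun k _ => (WdP.pow (LayP.WdP hm) k).smul _

end Vale.Agent.P188.H329
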