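import Vale.Agent.P188.H329.Gen
import Vale.Agent.P188.H329.PackQ

/-!
# P188, FILL block, part 19: bounded generation with polynomial control
-/

set_option linter.all false

namespace Vale.Agent.P188.H329

open Polynomial Finset

/-! ### the relation between the universal algebra and a given algebra -/

section rel

variable {ι : Type} [Finite ι] {r : ℕ} {A : Type} [Ring A] [Algebra ℝ A]

/-- `a` acts on the vacuum like `b` -/
def Rr (e : ι → A) (r : ℕ) (a : UA ι r) (b : A) : Prop := ∀ M : UA ι r, La e r (a * M) = b * La e r M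

theorem Rr.unique {e : ι → A} {a : UA ι r} {b b' : A} (h : Rr e r a b) (h' : Rr e r a b') : b = b' := by
  have h1 := h 1
  have h2 := h' 1
  rw [h1, La_one, mul_one, mul_one] at h2
  exact h2

theorem Rr.gen {e : ι → A} (h : Nil e r) (i : ι) : Rr e r (uE ι r i) (e i) := fun M => La_mul h i M

theorem Rr.one (e : ι → A) : Rr e r (1 : UA ι r) 1 := fun M => by rw [one_mul, one_mul]

theorem Rr.zero (e : ι → A) : Rr e r (0 : UA ι r) 0 := fun M => by rw [zero_mul, zero_mul, map_zero]

theorem Rr.add {e : ι → A} {a a' : UA ι r} {b b' : A} (h : Rr e r a b) (h' : Rr e r a' b') :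
    Rr e r (a + a') (b + b') := fun M => by rw [add_mul, add_mul, map_add, h M, h' M]

theorem Rr.sub {e : ι → A} {a a' : UA ι r} {b b' : A} (h : Rr e r a b) (h' : Rr e r a' b') :
    Rr e r (a - a') (b - b') := fun M => by rw [sub_mul, sub_mul, map_sub, h M, h' M]

theorem Rr.mul {e : ι → A} {a a' : UA ι r} {b b' : A} (h : Rr e r a b) (h' : Rr e r a' b') :
    Rr e r (a * a') (b * b') := fun M => by rw [mul_assoc, h, h' M, mul_assoc]

theorem Rr.smul {e : ι → A} {a : UA ι r} {b : A} (h : Rr e r a b) (c : ℝ) :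
    Rr e r (c • a) (c • b) := fun M => by rw [smul_mul_assoc, map_smul, h M, smul_mul_assoc]

theorem Rr.sum {e : ι → A} {α : Type} {s : Finset α} {a : α → UA ι r} {b : α → A}
    (h : ∀ k ∈ s, Rr e r (a k) (b k)) : Rr e r (∑ k ∈ s, a k) (∑ k ∈ s, b k) := by
  intro M
  rw [Finset.sum_mul, Finset.sum_mul, map_sum]
  exact Finset.sum_congr rfl fun k hk => h k hk M

theorem Rr.pow {e : ι → A} {a : UA ι r} {b : A} (h : Rr e r a b) (n : ℕ) :
    Rr e r (a ^ n) (b ^ n) := by
  induction n with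
  | zero => rw [pow_zero, pow_zero]; exact Rr.one e
  | succ n ih => rw [pow_succ, pow_succ]; exact ih.mul h

theorem Rr.br {e : ι → A} (h : Nil e r) (w : List ι) : Rr e r (H329.br (uE ι r) w) (H329.br e w) := by
  induction w with
  | nil => exact Rr.zero e
  | cons i w ih =>
    cases w with
    | nil => exact Rr.gen h i
    | cons j w => exact ((Rr.gen h i).mul ih).sub (ih.mul (Rr.gen h i))

/-- coefficientwise relation -/
def RP (e : ι → A) (r : ℕ) (p : (UA ι r)[X]) (q : A[X]) : Prop := ∀ k, Rr e r (p.coeff k) (q.coeff k)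

theorem RP.unique {e : ι → A} {p : (UA ι r)[X]} {q q' : A[X]} (h : RP e r p q) (h' : RP e r p q') :
    q = q' := by
  ext k
  exact (h k).unique (h' k)

theorem RP.mul {e : ι → A} {p p' : (UA ι r)[X]} {q q' : A[X]} (h : RP e r p q) (h' : RP e r p' q') :
    RP e r (p * p') (q * q') := by
  intro k
  rw [Polynomial.coeff_mul, Polynomial.coeff_mul]
  exact Rr.sum fun x _ => (h x.1).mul (h' x.2)

theorem RP.one (e : ι → A) : RP e r (1 : (UA ι r)[X]) 1 := by
  intro k
  rw [coeff_one, coeff_one]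
  split_ifs
  · exact Rr.one e
  · exact Rr.zero e

theorem RP.pow {e : ι → A} {p : (UA ι r)[X]} {q : A[X]} (h : RP e r p q) (n : ℕ) :
    RP e r (p ^ n) (q ^ n) := by
  induction n with
  | zero => rw [pow_zero, pow_zero]; exact RP.one e
  | succ n ih => rw [pow_succ, pow_succ]; exact ih.mul h

theorem RP.smul {e : ι → A} {p : (UA ι r)[X]} {q : A[X]} (h : RP e r p q) (c : ℝ) :
    RP e r (c • p) (c • q) := by
  intro k
  rw [coeff_smul, coeff_smul]
  exact (h k).smul c

theorem RP.sum {e : ι → A} {α : Type} {s : Finset α} {p : α → (UA ι r)[X]} {q : α → A[X]}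
    (h : ∀ k ∈ s, RP e r (p k) (q k)) : RP e r (∑ k ∈ s, p k) (∑ k ∈ s, q k) := by
  intro k
  rw [finset_sum_coeff, finset_sum_coeff]
  exact Rr.sum fun a ha => h a ha k

theorem RP.monomial {e : ι → A} (n : ℕ) {a : UA ι r} {b : A} (h : Rr e r a b) :
    RP e r (Polynomial.monomial n a) (Polynomial.monomial n b) := by
  intro k
  rw [coeff_monomial, coeff_monomial]
  split_ifs
  · exact h
  · exact Rr.zero e

theorem RP.rexp {e : ι → A} {p : (UA ι r)[X]} {q : A[X]} (h : RP e r p q) (n : ℕ) :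
    RP e r (H329.rexp n p) (H329.rexp n q) := by
  unfold H329.rexp
  exact RP.sum fun k _ => (h.pow k).smul _

theorem RP.lt {e : ι → A} (h : Nil e r) (i : ι) (x : ℝ) :
    RP e r (H329.lt (uE ι r) r i x) (H329.lt e r i x) := by
  unfold H329.lt mon
  exact (RP.monomial 1 ((Rr.gen h i).smul x)).rexp _

theorem RP.wd {e : ι → A} (h : Nil e r) (l : List (ι × ℝ)) :
    RP e r ((H329.wd (lu (uNil ι r)) l : (UA ι r)[X]ˣ) : (UA ι r)[X])
      ((H329.wd (lu h) l : A[X]ˣ) : A[X]) := by
  induction l with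
  | nil => exact RP.one e
  | cons q l ih =>
    have e1 : H329.wd (lu (uNil ι r)) (q :: l) = lu (uNil ι r) q.1 q.2 * H329.wd (lu (uNil ι r)) l := by
      simp [H329.wd]
    have e2 : H329.wd (lu h) (q :: l) = lu h q.1 q.2 * H329.wd (lu h) l := by
      simp [H329.wd]
    rw [e1, e2, Units.val_mul, Units.val_mul]
    exact (RP.lt h q.1 q.2).mul ih

end rel

/-! ### Lie elements with parameters -/

section lie

variable {ι : Type} [Finite ι] {A : Type} [Ring A] [Algebra ℝ A]

/-- the curve `∑ y_w X^{|w|} br w` -/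
noncomputable def lc (e : ι → A) (r : ℕ) (y : UW ι r → ℝ) : A[X] :=
  ∑ w : UW ι r, monomial w.val.length (y w • br e w.val)

theorem lc_mem (e : ι → A) (r : ℕ) (y : UW ι r → ℝ) : lc e r y ∈ LayP e := by
  unfold lc
  refine Submodule.sum_mem _ fun w _ => fun k => ?_
  rw [coeff_monomial]
  split_ifs with hk
  · rw [← hk]
    exact Submodule.smul_mem _ _ (br_mem e w.val)
  · exact Submodule.zero_mem _

theorem RP.lc {e : ι → A} {r : ℕ} (h : Nil e r) (y : UW ι r → ℝ) :
    RP e r (H329.lc (uE ι r) r y) (H329.lc e r y) := by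
  unfold H329.lc
  exact RP.sum fun w _ => RP.monomial _ ((Rr.br h w.val).smul (y w))

theorem ev1_smul (c : ℝ) (p : A[X]) : ev1 A (c • p) = c • ev1 A p := by
  have h1 : c • p = C (algebraMap ℝ A c) * p := by
    ext k
    rw [coeff_smul, coeff_C_mul, Algebra.smul_def]
  have h2 : ev1 A (C (algebraMap ℝ A c)) = algebraMap ℝ A c := by
    show eval₂ (RingHom.id A) 1 (C _) = _
    rw [eval₂_C, RingHom.id_apply]
  rw [h1, map_mul, h2, Algebra.smul_def]

theorem ev1_monomial (n : ℕ) (a : A) : ev1 A (monomial n a) = a := by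
  show eval₂ (RingHom.id A) 1 (monomial n a) = a
  rw [eval₂_monomial, one_pow, mul_one, RingHom.id_apply]

theorem ev1_rexp (n : ℕ) (p : A[X]) : ev1 A (rexp n p) = rexp n (ev1 A p) := by
  unfold rexp
  rw [map_sum]
  refine Finset.sum_congr rfl fun k _ => ?_
  rw [ev1_smul, map_pow]

theorem ev1_lc (e : ι → A) (r : ℕ) (y : UW ι r → ℝ) :
    ev1 A (lc e r y) = ∑ w : UW ι r, y w • br e w.val := by
  unfold lc
  rw [map_sum]
  exact Finset.sum_congr rfl fun w _ => ev1_monomial _ _

end lie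

/-! ### the polynomial family `exp (lc y)` -/

section fam

variable {ι : Type} [Finite ι] {A : Type} [NormedRing A] [NormedAlgebra ℝ A] [FiniteDimensional ℝ A]
variable {P : Type} [NormedAddCommGroup P] [NormedSpace ℝ P]

/-- curves depending polynomially on a parameter -/
def PoP (p : P → A[X]) : Prop := ∀ k, PoA (fun x => (p x).coeff k)

theorem PoP.mul {p q : P → A[X]} (hp : PoP p) (hq : PoP q) : PoP (fun x => p x * q x) := by
  intro k
  have : (fun x => (p x * q x).coeff k) =
      fun x => ∑ a ∈ Finset.antidiagonal k, (p x).coeff a.1 * (q x).coeff a.2 := by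
    funext x
    rw [Polynomial.coeff_mul]
  rw [this]
  exact PoA.sum fun a _ => PoA.mul (hp _) (hq _)

theorem PoP.pow {p : P → A[X]} (hp : PoP p) (n : ℕ) : PoP (fun x => p x ^ n) := by
  induction n with
  | zero =>
    intro k
    simp only [pow_zero]
    exact PoA.const _
  | succ n ih =>
    simp only [pow_succ]
    exact ih.mul hp

theorem PoP.rexp {p : P → A[X]} (hp : PoP p) (n : ℕ) : PoP (fun x => H329.rexp n (p x)) := by
  intro k
  have : (fun x => (H329.rexp n (p x)).coeff k) =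
      fun x => ∑ j ∈ range n, ((j.factorial : ℝ)⁻¹) • ((p x) ^ j).coeff k := by
    funext x
    unfold H329.rexp
    rw [finset_sum_coeff]
    exact Finset.sum_congr rfl fun j _ => coeff_smul _ _ _
  rw [this]
  refine PoA.sum fun j _ => ?_
  intro φ
  have h1 := hp.pow j k φ
  have h2 : (fun x => φ (((j.factorial : ℝ)⁻¹) • ((p x) ^ j).coeff k)) =
      fun x => ((j.factorial : ℝ)⁻¹) * φ (((p x) ^ j).coeff k) := by
    funext x
    rw [map_smul, smul_eq_mul]
  rw [h2]
  exact Po.mul (Po.const _) h1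

theorem PoP.lc (e : ι → A) (r : ℕ) : PoP (fun y : UW ι r → ℝ => H329.lc e r y) := by
  intro k
  have : (fun y : UW ι r → ℝ => (H329.lc e r y).coeff k) =
      fun y => ∑ w : UW ι r, y w • (if w.val.length = k then br e w.val else 0) := by
    funext y
    unfold H329.lc
    rw [finset_sum_coeff]
    refine Finset.sum_congr rfl fun w _ => ?_
    rw [coeff_monomial]
    split_ifs
    · rfl
    · rw [smul_zero]
  rw [this]
  refine PoA.sum fun w _ => ?_
  exact PoA.smul (Po.lin (ContinuousLinearMap.proj (R := ℝ) (φ := fun _ : UW ι r => ℝ) w)) _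

end fam

/-- **Bounded generation.** Exponentials of Lie elements are products of boundedly many letters of
polynomially controlled size, by a universal polynomial formula. -/
theorem gen (ι : Type) [Finite ι] (r : ℕ) : ∃ (m : ℕ) (J : Fin m → ι) (K : ℕ)
    (x : (UW ι r → ℝ) → Fin m → ℝ), (∀ t, (fun y => x y t) ∈ Po (UW ι r → ℝ)) ∧
      (∀ y t, |x y t| ≤ K * (1 + ‖y‖) ^ K) ∧
      ∀ (A : Type) [Ring A] [Algebra ℝ A] (e : ι → A) (h : Nil e r) (y : UW ι r → ℝ),
        rexp (r + 1) (∑ w : UW ι r, y w • br e w.val) = ((prS (xu h) J (x y) : Aˣ) : A) := by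
  classical
  have hU := uNil ι r
  obtain ⟨f⟩ := exists_frame (uE ι r)
  set l0 := f.T r with hl0
  set g : (UW ι r → ℝ) → (UA ι r)[X]ˣ := fun y => eu hU (lc_mem (uE ι r) r y) with hg
  have hgF : ∀ y, g y ∈ F hU := by
    intro y
    have h0 : ev hU (f.T r) (f.co hU (g y)) = g y :=
      f.ev_co_Fh hU (eu_Fh hU (lc_mem (uE ι r) r y))
    rw [← h0]
    exact ev_mem hU _ _
  have hgP : PFam hU g := by
    refine ⟨hgF, ?_⟩
    exact (PoP.lc (uE ι r) r).rexp (r + 1)
  have hx : ∀ t : Fin l0.length, (fun y => Sym.val (l0.get t) (f.co hU (g y))) ∈ Po (UW ι r → ℝ) := by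
    intro t
    have h1 : (fun y => f.co hU (g y) (l0.get t).2.1) ∈ Po (UW ι r → ℝ) := PFam.co f hgP _
    have h2 : (fun y => (l0.get t).2.2.1 * f.co hU (g y) (l0.get t).2.1) ∈ Po (UW ι r → ℝ) :=
      Po.mul (Po.const _) h1
    exact Po.add h2 (Po.const _)
  obtain ⟨K, hK⟩ := common_bound hx
  refine ⟨l0.length, fun t => (l0.get t).1, K, fun y t => Sym.val (l0.get t) (f.co hU (g y)), hx,
    fun y t => hK t y, ?_⟩
  intro A _ _ e h y
  set J : Fin l0.length → ι := fun t => (l0.get t).1 with hJ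
  set x : Fin l0.length → ℝ := fun t => Sym.val (l0.get t) (f.co hU (g y)) with hx'
  -- in the universal group
  have h1 : g y = wd (lu hU) (List.ofFn fun t => (J t, x t)) := by
    have h2 := f.ev_co_Fh hU (eu_Fh hU (lc_mem (uE ι r) r y))
    rw [ev_eq_pr, pr_eq_wd] at h2
    exact h2.symm
  have h3 : RP e r ((g y : (UA ι r)[X]ˣ) : (UA ι r)[X]) (rexp (r + 1) (lc e r y)) := (RP.lc h y).rexp _
  rw [h1] at h3
  have h4 : rexp (r + 1) (lc e r y) = ((wd (lu h) (List.ofFn fun t => (J t, x t)) : A[X]ˣ) : A[X]) :=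
    h3.unique (RP.wd h _)
  have h5 := congrArg (ev1 A) h4
  rw [ev1_rexp, ev1_lc] at h5
  rw [h5, prS_eq_wd]
  have h6 : wd (xu h) (List.ofFn fun t => (J t, x t)) =
      Units.map (ev1 A : A[X] →* A) (wd (lu h) (List.ofFn fun t => (J t, x t))) :=
    wd_map (Units.map (ev1 A : A[X] →* A)) (lu h) _
  rw [h6]
  rfl

end Vale.Agent.P188.H329
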