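import Vale.Agent.P188.H329.Curve

/-!
# P188, FILL block, part 2: letters, the derivation trick
-/

set_option linter.all false

namespace Vale.Agent.P188.H329

open Polynomial Finset

variable {A : Type} [Ring A] [Algebra ℝ A] {ι : Type}

/-- all words of length `> r` in the `e i` vanish -/
def Nil (e : ι → A) (r : ℕ) : Prop := ∀ w : List ι, r < w.length → (w.map e).prod = 0

/-- the monomial `X x e_i` -/
noncomputable def mon (e : ι → A) (i : ι) (x : ℝ) : A[X] := monomial 1 (x • e i)

theorem mon_pow (e : ι → A) (i : ι) (x : ℝ) (k : ℕ) :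
    mon e i x ^ k = monomial k (x ^ k • e i ^ k) := by
  unfold mon
  rw [monomial_pow, one_mul, smul_pow]

theorem Nil.pow_eq_zero {e : ι → A} {r : ℕ} (h : Nil e r) (i : ι) : e i ^ (r + 1) = 0 := by
  have := h (List.replicate (r + 1) i) (by simp)
  simpa using this

theorem Nil.mon_pow {e : ι → A} {r : ℕ} (h : Nil e r) (i : ι) (x : ℝ) :
    mon e i x ^ (r + 1) = 0 := by
  rw [H329.mon_pow, h.pow_eq_zero, smul_zero, monomial_zero_right]

/-- the curve `exp (X x e_i)` -/
noncomputable def lt (e : ι → A) (r : ℕ) (i : ι) (x : ℝ) : A[X] := rexp (r + 1) (mon e i x)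

theorem lt_coeff (e : ι → A) (r : ℕ) (i : ι) (x : ℝ) (k : ℕ) :
    (lt e r i x).coeff k = if k < r + 1 then ((k.factorial : ℝ)⁻¹ * x ^ k) • e i ^ k else 0 := by
  unfold lt rexp
  rw [finset_sum_coeff]
  split_ifs with hk
  · rw [Finset.sum_eq_single_of_mem k (by simpa using hk)]
    · rw [mon_pow, coeff_smul, coeff_monomial, if_pos rfl, smul_smul]
    · intro j _ hj
      rw [mon_pow, coeff_smul, coeff_monomial, if_neg hj, smul_zero]
  · refine Finset.sum_eq_zero fun j hj => ?_
    rw [Finset.mem_range] at hj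
    rw [mon_pow, coeff_smul, coeff_monomial, if_neg (by omega), smul_zero]

theorem lt_coeff_zero (e : ι → A) (r : ℕ) (i : ι) (x : ℝ) : (lt e r i x).coeff 0 = 1 := by
  rw [lt_coeff, if_pos (Nat.succ_pos _)]
  simp

theorem lt_coeff_one (e : ι → A) {r : ℕ} (hr : 0 < r) (i : ι) (x : ℝ) :
    (lt e r i x).coeff 1 = x • e i := by
  rw [lt_coeff, if_pos (by omega)]
  simp

theorem mon_add (e : ι → A) (i : ι) (x y : ℝ) : mon e i (x + y) = mon e i x + mon e i y := by
  unfold mon
  rw [add_smul, map_add]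

theorem mon_neg (e : ι → A) (i : ι) (x : ℝ) : mon e i (-x) = -mon e i x := by
  unfold mon
  rw [neg_smul, monomial_neg]

theorem mon_comm (e : ι → A) (i : ι) (x y : ℝ) : Commute (mon e i x) (mon e i y) := by
  unfold mon Commute SemiconjBy
  rw [monomial_mul_monomial, monomial_mul_monomial]
  simp [smul_smul, mul_comm]

theorem Nil.lt_add {e : ι → A} {r : ℕ} (h : Nil e r) (i : ι) (x y : ℝ) :
    lt e r i (x + y) = lt e r i x * lt e r i y := by
  unfold lt
  rw [mon_add]
  exact rexp_add (mon_comm e i x y) (h.mon_pow i x) (h.mon_pow i y)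
    (by rw [← mon_add]; exact h.mon_pow i _)

theorem lt_zero (e : ι → A) (r : ℕ) (i : ι) : lt e r i 0 = 1 := by
  unfold lt
  have : mon e i 0 = 0 := by simp [mon]
  rw [this]
  exact rexp_zero (Nat.succ_pos _)

/-- the letter as a unit -/
noncomputable def lu {e : ι → A} {r : ℕ} (h : Nil e r) (i : ι) (x : ℝ) : A[X]ˣ where
  val := lt e r i x
  inv := lt e r i (-x)
  val_inv := by rw [← h.lt_add, add_neg_cancel, lt_zero]
  inv_val := by rw [← h.lt_add, neg_add_cancel, lt_zero]

@[simp] theorem lu_val {e : ι → A} {r : ℕ} (h : Nil e r) (i : ι) (x : ℝ) :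
    ((lu h i x : A[X]ˣ) : A[X]) = lt e r i x := rfl

@[simp] theorem lu_inv {e : ι → A} {r : ℕ} (h : Nil e r) (i : ι) (x : ℝ) :
    (lu h i x)⁻¹ = lu h i (-x) := by
  apply Units.ext
  rfl

theorem lu_add {e : ι → A} {r : ℕ} (h : Nil e r) (i : ι) (x y : ℝ) :
    lu h i (x + y) = lu h i x * lu h i y := by
  apply Units.ext
  exact h.lt_add i x y

theorem lu_zero {e : ι → A} {r : ℕ} (h : Nil e r) (i : ι) : lu h i 0 = 1 := by
  apply Units.ext
  exact lt_zero e r i

/-- The group of curves. -/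
noncomputable def F {e : ι → A} {r : ℕ} (h : Nil e r) : Subgroup A[X]ˣ :=
  Subgroup.closure {g | ∃ i x, g = lu h i x}

theorem lu_mem {e : ι → A} {r : ℕ} (h : Nil e r) (i : ι) (x : ℝ) : lu h i x ∈ F h :=
  Subgroup.subset_closure ⟨i, x, rfl⟩

theorem F_induction {e : ι → A} {r : ℕ} {h : Nil e r} {p : A[X]ˣ → Prop} (one : p 1)
    (step : ∀ i x g, p g → p (lu h i x * g)) {g : A[X]ˣ} (hg : g ∈ F h) : p g := by
  unfold F at hg
  induction hg using Subgroup.closure_induction_left with
  | one => exact one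
  | mul_left x hx y hy ih =>
    obtain ⟨i, t, rfl⟩ := hx
    exact step _ _ _ ih
  | inv_mul_cancel x hx y hy ih =>
    obtain ⟨i, t, rfl⟩ := hx
    rw [lu_inv]
    exact step _ _ _ ih

/-! ### iterated brackets -/

/-- the iterated bracket `[e_{w_1}, [e_{w_2}, ...]]` -/
def br (e : ι → A) : List ι → A
  | [] => 0
  | [i] => e i
  | i :: j :: w => e i * br e (j :: w) - br e (j :: w) * e i

/-- `L_k`, spanned by the `k`-fold brackets -/
def Lay (e : ι → A) (k : ℕ) : Submodule ℝ A := Submodule.span ℝ {a | ∃ w : List ι, w.length = k ∧ a = br e w}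

theorem br_mem (e : ι → A) (w : List ι) : br e w ∈ Lay e w.length :=
  Submodule.subset_span ⟨w, rfl, rfl⟩

theorem lay_zero (e : ι → A) {a : A} (ha : a ∈ Lay e 0) : a = 0 := by
  unfold Lay at ha
  have : {a | ∃ w : List ι, w.length = 0 ∧ a = br e w} ⊆ {0} := by
    rintro a ⟨w, hw, rfl⟩
    rw [List.length_eq_zero_iff] at hw
    subst hw
    rfl
  have h2 := Submodule.span_mono (R := ℝ) this ha
  simpa using h2

theorem e_mem (e : ι → A) (i : ι) : e i ∈ Lay e 1 := br_mem e [i]

theorem lay_bracket (e : ι → A) (i : ι) {k : ℕ} {a : A} (ha : a ∈ Lay e k) :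
    e i * a - a * e i ∈ Lay e (k + 1) := by
  unfold Lay at ha
  induction ha using Submodule.span_induction with
  | mem x hx =>
    obtain ⟨w, hw, rfl⟩ := hx
    cases w with
    | nil => simp [br, Submodule.zero_mem]
    | cons j w =>
      have := br_mem e (i :: j :: w)
      rw [List.length_cons, hw] at this
      exact this
  | zero => simp [Submodule.zero_mem]
  | add x y _ _ hx hy =>
    have := Submodule.add_mem _ hx hy
    convert this using 1
    noncomm_ring
  | smul c x _ hx =>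
    have := Submodule.smul_mem _ c hx
    convert this using 1
    simp [smul_sub]

/-- curves all of whose coefficients lie in the layers -/
def LayP (e : ι → A) : Submodule ℝ A[X] where
  carrier := {p | ∀ k, p.coeff k ∈ Lay e k}
  add_mem' := fun hp hq k => by rw [coeff_add]; exact Submodule.add_mem _ (hp k) (hq k)
  zero_mem' := fun k => by rw [coeff_zero]; exact Submodule.zero_mem _
  smul_mem' := fun c p hp k => by rw [coeff_smul]; exact Submodule.smul_mem _ c (hp k)

theorem mem_LayP {e : ι → A} {p : A[X]} : p ∈ LayP e ↔ ∀ k, p.coeff k ∈ Lay e k := Iff.rfl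

theorem mon_mem (e : ι → A) (i : ι) (x : ℝ) : mon e i x ∈ LayP e := by
  intro k
  unfold mon
  rw [coeff_monomial]
  split_ifs with h
  · subst h
    exact Submodule.smul_mem _ _ (e_mem e i)
  · exact Submodule.zero_mem _

theorem LayP_bracket (e : ι → A) (i : ι) (x : ℝ) {p : A[X]} (hp : p ∈ LayP e) :
    p * mon e i x - mon e i x * p ∈ LayP e := by
  intro k
  unfold mon
  rw [coeff_sub]
  cases k with
  | zero =>
    have h0 : p.coeff 0 = 0 := lay_zero e (hp 0)
    simp [mul_coeff_zero, Submodule.zero_mem]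
  | succ k =>
    have h1 : (p * monomial 1 (x • e i)).coeff (k + 1) = p.coeff k * (x • e i) := by
      rw [← C_mul_X_pow_eq_monomial, pow_one, ← mul_assoc, coeff_mul_X, coeff_mul_C]
    have h2 : (monomial 1 (x • e i) * p).coeff (k + 1) = (x • e i) * p.coeff k := by
      rw [← C_mul_X_pow_eq_monomial, pow_one, mul_assoc, X_mul, ← mul_assoc, coeff_mul_X,
        coeff_C_mul]
    rw [h1, h2]
    have := Submodule.smul_mem _ (-x) (lay_bracket e i (hp k))
    convert this using 1
    simp only [smul_sub, neg_smul, mul_smul_comm, smul_mul_assoc]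
    abel

theorem LayP_conj {e : ι → A} {r : ℕ} (h : Nil e r) (i : ι) (x : ℝ) {p : A[X]} (hp : p ∈ LayP e) :
    lt e r i (-x) * p * lt e r i x ∈ LayP e := by
  unfold lt
  rw [mon_neg]
  exact rexp_conj (h.mon_pow i x) (LayP e) (fun q hq => LayP_bracket e i x hq) hp

theorem D_lt {e : ι → A} {r : ℕ} (h : Nil e r) (i : ι) (x : ℝ) :
    D (lt e r i x) = lt e r i x * mon e i x := by
  ext k
  rw [coeff_D]
  unfold mon
  cases k with
  | zero => simp [mul_coeff_zero]
  | succ k =>
    have h1 : (lt e r i x * monomial 1 (x • e i)).coeff (k + 1) =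
        (lt e r i x).coeff k * (x • e i) := by
      rw [← C_mul_X_pow_eq_monomial, pow_one, ← mul_assoc, coeff_mul_X, coeff_mul_C]
    rw [h1, lt_coeff, lt_coeff]
    by_cases hk : k + 1 < r + 1
    · rw [if_pos hk, if_pos (by omega)]
      rw [smul_smul, smul_mul_assoc, mul_smul_comm, smul_smul, ← pow_succ]
      congr 1
      rw [Nat.factorial_succ]
      push_cast
      have : (k.factorial : ℝ) ≠ 0 := by exact_mod_cast k.factorial_ne_zero
      field_simp
      ring
    · rw [if_neg hk, smul_zero]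
      split_ifs with h2
      · have : k = r := by omega
        subst this
        rw [smul_mul_assoc, mul_smul_comm, ← pow_succ, h.pow_eq_zero]
        simp
      · simp

theorem conj_mem {e : ι → A} {r : ℕ} {h : Nil e r} {g : A[X]ˣ} (hg : g ∈ F h) :
    ∀ p ∈ LayP e, ((g⁻¹ : A[X]ˣ) : A[X]) * p * (g : A[X]) ∈ LayP e := by
  refine F_induction (h := h) (p := fun g => ∀ p ∈ LayP e,
    ((g⁻¹ : A[X]ˣ) : A[X]) * p * (g : A[X]) ∈ LayP e) ?_ ?_ hg
  · intro p hp
    simpa using hp
  · intro i x g ih p hp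
    have e1 : (((lu h i x * g)⁻¹ : A[X]ˣ) : A[X]) = ((g⁻¹ : A[X]ˣ) : A[X]) * lt e r i (-x) := by
      rw [mul_inv_rev, Units.val_mul, lu_inv, lu_val]
    have e2 : ((lu h i x * g : A[X]ˣ) : A[X]) = lt e r i x * (g : A[X]) := by
      rw [Units.val_mul, lu_val]
    rw [e1, e2]
    have := ih _ (LayP_conj h i x hp)
    convert this using 1
    simp only [mul_assoc]

/-- The derivation trick. -/
theorem logder {e : ι → A} {r : ℕ} {h : Nil e r} {g : A[X]ˣ} (hg : g ∈ F h) :
    ((g⁻¹ : A[X]ˣ) : A[X]) * D (g : A[X]) ∈ LayP e := by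
  have key : g ∈ F h ∧ ((g⁻¹ : A[X]ˣ) : A[X]) * D (g : A[X]) ∈ LayP e := by
    refine F_induction (h := h) (p := fun g => g ∈ F h ∧
      ((g⁻¹ : A[X]ˣ) : A[X]) * D (g : A[X]) ∈ LayP e) ?_ ?_ hg
    · refine ⟨one_mem _, ?_⟩
      simp [D_one, Submodule.zero_mem]
    · intro i x g ih
      refine ⟨mul_mem (lu_mem h i x) ih.1, ?_⟩
      have e1 : (((lu h i x * g)⁻¹ : A[X]ˣ) : A[X]) = ((g⁻¹ : A[X]ˣ) : A[X]) * lt e r i (-x) := by
        rw [mul_inv_rev, Units.val_mul, lu_inv, lu_val]
      have e2 : ((lu h i x * g : A[X]ˣ) : A[X]) = lt e r i x * (g : A[X]) := by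
        rw [Units.val_mul, lu_val]
      have e3 : lt e r i (-x) * lt e r i x = 1 := by
        rw [← h.lt_add, neg_add_cancel, lt_zero]
      rw [e1, e2, D_mul, D_lt h]
      have h1 := conj_mem ih.1 _ (mon_mem e i x)
      have h2 := Submodule.add_mem _ h1 ih.2
      convert h2 using 1
      have e4 : ∀ q : A[X], lt e r i (-x) * (lt e r i x * q) = q := by
        intro q
        rw [← mul_assoc, e3, one_mul]
      simp only [mul_add, mul_assoc, e4]
  exact key.2

/-- If a curve in `F` is `1 + O(X^j)` then its `j`-th coefficient lies in `L_j`. -/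
theorem lead_mem {e : ι → A} {r : ℕ} {h : Nil e r} {g : A[X]ˣ} (hg : g ∈ F h) {j : ℕ}
    (hj : 0 < j) (ho : Ord j ((g : A[X]) - 1)) : (g : A[X]).coeff j ∈ Lay e j := by
  have h1 := logder hg j
  have hD : Ord j (D (g : A[X])) := by
    intro k hk
    rw [coeff_D]
    cases k with
    | zero => simp
    | succ k =>
      have := ho _ hk
      rw [coeff_sub, coeff_one, if_neg (by omega), sub_zero] at this
      rw [this, smul_zero]
  have h2 : (((g⁻¹ : A[X]ˣ) : A[X]) * D (g : A[X])).coeff (0 + j) =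
      ((g⁻¹ : A[X]ˣ) : A[X]).coeff 0 * (D (g : A[X])).coeff j := (ord_zero _).coeff_mul hD
  have h3 : ((g⁻¹ : A[X]ˣ) : A[X]).coeff 0 = 1 := by
    have h4 : (((g⁻¹ : A[X]ˣ) : A[X]) * (g : A[X])).coeff 0 = 1 := by
      rw [← Units.val_mul, inv_mul_cancel]
      simp
    rw [mul_coeff_zero] at h4
    have h5 : (g : A[X]).coeff 0 = 1 := by
      have := ho 0 hj
      rw [coeff_sub, coeff_one_zero, sub_eq_zero] at this
      exact this
    rwa [h5, mul_one] at h4
  rw [zero_add, h3, one_mul, coeff_D] at h2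
  rw [h2] at h1
  have h6 := Submodule.smul_mem _ ((j : ℝ)⁻¹) h1
  rwa [smul_smul, inv_mul_cancel₀ (by exact_mod_cast hj.ne'), one_smul] at h6

/-! ### the grading by word length -/

/-- spans of words of length `k` -/
def Wd (e : ι → A) (k : ℕ) : Submodule ℝ A :=
  Submodule.span ℝ {a | ∃ w : List ι, w.length = k ∧ a = (w.map e).prod}

theorem Wd_mul {e : ι → A} {k l : ℕ} {a b : A} (ha : a ∈ Wd e k) (hb : b ∈ Wd e l) :
    a * b ∈ Wd e (k + l) := by
  unfold Wd at ha
  induction ha using Submodule.span_induction with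
  | mem x hx =>
    obtain ⟨w, hw, rfl⟩ := hx
    unfold Wd at hb
    induction hb using Submodule.span_induction with
    | mem y hy =>
      obtain ⟨v, hv, rfl⟩ := hy
      refine Submodule.subset_span ⟨w ++ v, by simp [hw, hv], by simp⟩
    | zero => simp [Submodule.zero_mem]
    | add y z _ _ hy hz => rw [mul_add]; exact Submodule.add_mem _ hy hz
    | smul c y _ hy => rw [mul_smul_comm]; exact Submodule.smul_mem _ _ hy
  | zero => simp [Submodule.zero_mem]
  | add y z _ _ hy hz => rw [add_mul]; exact Submodule.add_mem _ hy hz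
  | smul c y _ hy => rw [smul_mul_assoc]; exact Submodule.smul_mem _ _ hy

theorem Nil.Wd_zero {e : ι → A} {r k : ℕ} (h : Nil e r) (hk : r < k) {a : A} (ha : a ∈ Wd e k) :
    a = 0 := by
  unfold Wd at ha
  have : {a | ∃ w : List ι, w.length = k ∧ a = (w.map e).prod} ⊆ {0} := by
    rintro a ⟨w, hw, rfl⟩
    exact h w (by omega)
  have h2 := Submodule.span_mono (R := ℝ) this ha
  simpa using h2

theorem F_coeff_mem {e : ι → A} {r : ℕ} {h : Nil e r} {g : A[X]ˣ} (hg : g ∈ F h) (k : ℕ) :
    (g : A[X]).coeff k ∈ Wd e k := by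
  revert k
  refine F_induction (h := h) (p := fun g => ∀ k, (g : A[X]).coeff k ∈ Wd e k) ?_ ?_ hg
  · intro k
    rw [Units.val_one, coeff_one]
    split_ifs with hk
    · subst hk
      exact Submodule.subset_span ⟨[], rfl, rfl⟩
    · exact Submodule.zero_mem _
  · intro i x g ih k
    rw [Units.val_mul, lu_val, Polynomial.coeff_mul]
    refine Submodule.sum_mem _ fun q hq => ?_
    rw [mem_antidiagonal] at hq
    rw [← hq]
    refine Wd_mul ?_ (ih _)
    rw [lt_coeff]
    split_ifs
    · refine Submodule.smul_mem _ _ (Submodule.subset_span ⟨List.replicate q.1 i, by simp, by simp⟩)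
    · exact Submodule.zero_mem _

theorem F_coeff_zero_of_lt {e : ι → A} {r : ℕ} {h : Nil e r} {g : A[X]ˣ} (hg : g ∈ F h) {k : ℕ}
    (hk : r < k) : (g : A[X]).coeff k = 0 := h.Wd_zero hk (F_coeff_mem hg k)

theorem F_eq_one {e : ι → A} {r : ℕ} {h : Nil e r} {g : A[X]ˣ} (hg : g ∈ F h)
    (ho : Ord (r + 1) ((g : A[X]) - 1)) : g = 1 := by
  apply Units.ext
  rw [Units.val_one]
  ext k
  by_cases hk : k < r + 1
  · have := ho k hk
    rwa [coeff_sub, sub_eq_zero] at this
  · rw [F_coeff_zero_of_lt hg (by omega), coeff_one, if_neg (by omega)]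

end Vale.Agent.P188.H329
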