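import Mathlib.MeasureTheory.Group.Measure
import Mathlib.MeasureTheory.Measure.Prod

/-!
# P188, route B: laws of products

`mix`: if a set `G` is met by most points of every box `z * x * q`, `q ∈ Q`, and the set `A` is almost
invariant under the right translations by `x * q * x⁻¹`, then `z * x ∈ G` for most `z ∈ A`, for the
fixed element `x`.

`chain`: a point of `A` and a word all of whose prefixes are good and whose end point is good.
-/

set_option linter.all false

namespace Vale.Agent.P188.H329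

open Set MeasureTheory

theorem mixΩ {S : Type*} [Group S] [MeasurableSpace S] {μ : Measure S} [SFinite μ]
    (mp : ∀ w : S, MeasurePreserving (fun x => x * w) μ μ) {Ω : Type*} [MeasurableSpace Ω]
    (P : Measure Ω) [SFinite P] (hP0 : P univ ≠ 0) (hP1 : P univ ≠ ⊤) (q : Ω → S)
    (hq : Measurable fun p : S × Ω => p.1 * q p.2) {A G : Set S} (hA : MeasurableSet A)
    (hG : MeasurableSet G) (hA1 : μ A ≠ ⊤) (x : S) {ε ε₁ : ENNReal}
    (h1 : ∀ z ∈ A, P {ω | z * x * q ω ∉ G} ≤ ε * P univ)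
    (h2 : ∀ᵐ ω ∂P, μ {z | z ∈ A ∧ z * (x * q ω * x⁻¹) ∉ A} ≤ ε₁ * μ A) :
    μ {z | z ∈ A ∧ z * x ∉ G} ≤ (ε + ε₁) * μ A := by
  have hmul : ∀ w : S, Measurable fun z : S => z * w := fun w => (mp w).measurable
  have key : ∀ ω, μ {z | z ∈ A ∧ z * x ∉ G} ≤ μ {z | z ∈ A ∧ z * x * q ω ∉ G} +
      μ {z | z ∈ A ∧ z * (x * q ω * x⁻¹) ∉ A} := by
    intro ω
    set a := x * q ω * x⁻¹ with ha
    have hm1 : MeasurableSet {z | z ∈ A ∧ z * x ∉ G} :=
      hA.inter (hmul x hG.compl)
    have e1 : μ {z | z ∈ A ∧ z * x ∉ G} = μ {z | z * a ∈ A ∧ z * a * x ∉ G} :=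
      ((mp a).measure_preimage hm1.nullMeasurableSet).symm
    have hAa : MeasurableSet {z | z * a ∈ A} := hmul a hA
    have e2 : μ ({z | z * a ∈ A} \ A) = μ (A \ {z | z * a ∈ A}) := by
      have h3 : μ {z | z * a ∈ A} = μ A := (mp a).measure_preimage hA.nullMeasurableSet
      have h4 := measure_inter_add_diff (μ := μ) {z | z * a ∈ A} hA
      have h5 := measure_inter_add_diff (μ := μ) A hAa
      rw [inter_comm, h3] at h4
      have h6 : μ (A ∩ {z | z * a ∈ A}) ≠ ⊤ := measure_ne_top_of_subset inter_subset_left hA1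
      exact (ENNReal.add_right_inj h6).1 (h4.trans h5.symm)
    rw [e1]
    calc μ {z | z * a ∈ A ∧ z * a * x ∉ G} ≤
        μ ({z | z ∈ A ∧ z * x * q ω ∉ G} ∪ ({z | z * a ∈ A} \ A)) := by
          refine measure_mono ?_
          rintro z ⟨hz1, hz2⟩
          by_cases hz : z ∈ A
          · left
            refine ⟨hz, ?_⟩
            have : z * x * q ω = z * a * x := by rw [ha]; group
            rw [this]
            exact hz2
          · right
            exact ⟨hz1, hz⟩
      _ ≤ _ := (measure_union_le _ _).trans (by rw [e2]; rfl)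
  have hV : MeasurableSet {p : S × Ω | p.1 ∈ A ∧ p.1 * x * q p.2 ∉ G} := by
    refine (measurable_fst hA).inter ?_
    have : Measurable fun p : S × Ω => p.1 * x * q p.2 :=
      hq.comp (((hmul x).comp measurable_fst).prodMk measurable_snd)
    exact this hG.compl
  have hint : μ {z | z ∈ A ∧ z * x ∉ G} * P univ ≤ (ε + ε₁) * μ A * P univ := by
    calc μ {z | z ∈ A ∧ z * x ∉ G} * P univ = ∫⁻ _ω, μ {z | z ∈ A ∧ z * x ∉ G} ∂P := by
          rw [lintegral_const]
      _ ≤ ∫⁻ ω, (μ {z | z ∈ A ∧ z * x * q ω ∉ G} + ε₁ * μ A) ∂P := by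
          refine lintegral_mono_ae ?_
          filter_upwards [h2] with ω hω
          exact (key ω).trans (by gcongr)
      _ = ∫⁻ ω, μ {z | z ∈ A ∧ z * x * q ω ∉ G} ∂P + ε₁ * μ A * P univ := by
          rw [lintegral_add_right _ measurable_const, lintegral_const]
      _ = (μ.prod P) {p : S × Ω | p.1 ∈ A ∧ p.1 * x * q p.2 ∉ G} + ε₁ * μ A * P univ := by
          rw [Measure.prod_apply_symm hV]
          rfl
      _ = ∫⁻ z, P {ω | z ∈ A ∧ z * x * q ω ∉ G} ∂μ + ε₁ * μ A * P univ := by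
          rw [Measure.prod_apply hV]
          rfl
      _ ≤ ∫⁻ z, A.indicator (fun _ => ε * P univ) z ∂μ + ε₁ * μ A * P univ := by
          gcongr with z
          by_cases hz : z ∈ A
          · rw [indicator_of_mem hz]
            refine (measure_mono ?_).trans (h1 z hz)
            exact fun ω hω => hω.2
          · rw [indicator_of_notMem hz]
            have : {ω | z ∈ A ∧ z * x * q ω ∉ G} = ∅ := by
              rw [eq_empty_iff_forall_notMem]
              exact fun ω hω => hz hω.1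
            rw [this, measure_empty]
      _ = (ε + ε₁) * μ A * P univ := by
          rw [lintegral_indicator_const hA]
          ring
  exact (ENNReal.mul_le_mul_iff_left hP0 hP1).1 hint

/-- **KEY POINT 1 of route B.** -/
theorem mix {S : Type*} [Group S] [MeasurableSpace S] [MeasurableMul₂ S] {μ : Measure S} [SFinite μ]
    (mp : ∀ w : S, MeasurePreserving (fun x => x * w) μ μ) {A Q G : Set S} (hA : MeasurableSet A)
    (hQ : MeasurableSet Q) (hG : MeasurableSet G) (hA1 : μ A ≠ ⊤) (hQ0 : μ Q ≠ 0) (hQ1 : μ Q ≠ ⊤)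
    (x : S) {ε ε₁ : ENNReal} (h1 : ∀ z ∈ A, μ {q | q ∈ Q ∧ z * x * q ∉ G} ≤ ε * μ Q)
    (h2 : ∀ q ∈ Q, μ {z | z ∈ A ∧ z * (x * q * x⁻¹) ∉ A} ≤ ε₁ * μ A) :
    μ {z | z ∈ A ∧ z * x ∉ G} ≤ (ε + ε₁) * μ A := by
  have hu : (μ.restrict Q) univ = μ Q := by rw [Measure.restrict_apply_univ]
  refine mixΩ mp (μ.restrict Q) (by rwa [hu]) (by rwa [hu]) (fun q => q) measurable_mul hA hG hA1 x
    (fun z hz => ?_) ?_
  · rw [hu]
    have hm : MeasurableSet {ω | z * x * ω ∉ G} := (measurable_const_mul (z * x)) hG.compl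
    rw [Measure.restrict_apply hm]
    refine (measure_mono ?_).trans (h1 z hz)
    exact fun q hq => ⟨hq.2, hq.1⟩
  · exact (ae_restrict_mem hQ).mono fun q hq => h2 q hq

/-- **The chain.** `w q ω` is the product of the first `q` letters of the word `ω`. -/
theorem chain {S : Type*} [Group S] [MeasurableSpace S] {μ : Measure S} [SFinite μ]
    {Ω : Type*} [MeasurableSpace Ω] (P : Measure Ω) [SFinite P] {A : Set S} (hA : MeasurableSet A)
    (hA0 : μ A ≠ 0) (hA1 : μ A ≠ ⊤) (hP0 : P univ ≠ 0) (hP1 : P univ ≠ ⊤) {m : ℕ}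
    (w : ℕ → Ω → S) (hw : ∀ q ≤ m, Measurable fun p : S × Ω => p.1 * w q p.2)
    (G : ℕ → Set S) (hG : ∀ q < m, MeasurableSet (G q)) {Gend : Set S} (hGe : MeasurableSet Gend)
    {ε θ : ENNReal} (hεθ : m * ε + θ < 1)
    (h1 : ∀ q < m, ∀ ω, μ {z | z ∈ A ∧ z * w q ω ∉ G q} ≤ ε * μ A)
    (h2 : ∀ z ∈ A, P {ω | z * w m ω ∉ Gend} ≤ θ * P univ) :
    ∃ z ∈ A, ∃ ω, (∀ q < m, z * w q ω ∈ G q) ∧ z * w m ω ∈ Gend := by
  by_contra hcon
  push Not at hcon
  set V : ℕ → Set (S × Ω) := fun q => {p | p.1 ∈ A ∧ p.1 * w q p.2 ∉ G q} with hV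
  set W : Set (S × Ω) := {p | p.1 ∈ A ∧ p.1 * w m p.2 ∉ Gend} with hW
  have hVm : ∀ q < m, MeasurableSet (V q) := fun q hq =>
    (measurable_fst hA).inter ((hw q hq.le) (hG q hq).compl)
  have hWm : MeasurableSet W := (measurable_fst hA).inter ((hw m le_rfl) hGe.compl)
  have hcov : A ×ˢ (univ : Set Ω) ⊆ (⋃ q ∈ Finset.range m, V q) ∪ W := by
    rintro ⟨z, ω⟩ ⟨hz, -⟩
    by_cases h : ∀ q < m, z * w q ω ∈ G q
    · right
      exact ⟨hz, hcon z hz ω h⟩
    · left
      push Not at h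
      obtain ⟨q, hq, hq2⟩ := h
      simp only [mem_iUnion, Finset.mem_range]
      exact ⟨q, hq, hz, hq2⟩
  have hVle : ∀ q < m, (μ.prod P) (V q) ≤ ε * μ A * P univ := by
    intro q hq
    rw [Measure.prod_apply_symm (hVm q hq), ← lintegral_const]
    exact lintegral_mono fun ω => h1 q hq ω
  have hWle : (μ.prod P) W ≤ θ * μ A * P univ := by
    rw [Measure.prod_apply hWm]
    calc ∫⁻ z, P (Prod.mk z ⁻¹' W) ∂μ ≤ ∫⁻ z, A.indicator (fun _ => θ * P univ) z ∂μ := by
          refine lintegral_mono fun z => ?_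
          by_cases hz : z ∈ A
          · rw [indicator_of_mem hz]
            exact (measure_mono fun ω hω => hω.2).trans (h2 z hz)
          · rw [indicator_of_notMem hz]
            have : Prod.mk z ⁻¹' W = ∅ := by
              rw [eq_empty_iff_forall_notMem]
              exact fun ω hω => hz hω.1
            rw [this, measure_empty]
      _ = _ := by
          rw [lintegral_indicator_const hA]
          ring
  have hle : μ A * P univ ≤ (m * ε + θ) * (μ A * P univ) := by
    calc μ A * P univ = (μ.prod P) (A ×ˢ univ) := (Measure.prod_prod _ _).symm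
      _ ≤ (μ.prod P) ((⋃ q ∈ Finset.range m, V q) ∪ W) := measure_mono hcov
      _ ≤ (∑ q ∈ Finset.range m, (μ.prod P) (V q)) + (μ.prod P) W :=
          (measure_union_le _ _).trans (by gcongr; exact measure_biUnion_finset_le _ _)
      _ ≤ (∑ q ∈ Finset.range m, ε * μ A * P univ) + θ * μ A * P univ := by
          gcongr with q hq
          exact hVle q (Finset.mem_range.1 hq)
      _ = _ := by
          rw [Finset.sum_const, Finset.card_range, nsmul_eq_mul]
          ring
  have h0 : μ A * P univ ≠ 0 := mul_ne_zero hA0 hP0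
  have ht : μ A * P univ ≠ ⊤ := ENNReal.mul_ne_top hA1 hP1
  have hlt : (m * ε + θ) * (μ A * P univ) < 1 * (μ A * P univ) :=
    ENNReal.mul_lt_mul_left h0 ht hεθ
  rw [one_mul] at hlt
  exact absurd hle (not_le.2 hlt)

end Vale.Agent.P188.H329
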