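import Vale.Agent.P188.H329.Family
import Mathlib.MeasureTheory.Measure.Regular

/-!
# P188, FILL block, part 8: the packing bound for the curve group
-/

set_option linter.all false

namespace Vale.Agent.P188.H329

open Polynomial Set MeasureTheory

/-- product of `m` letters, curve version -/
noncomputable def pr {A : Type} [Ring A] [Algebra ℝ A] {ι : Type} {e : ι → A} {r : ℕ}
    (h : Nil e r) {m : ℕ} (J : Fin m → ι) (x : Fin m → ℝ) : A[X]ˣ :=
  (List.ofFn fun t => lu h (J t) (x t)).prod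

theorem pr_mem {A : Type} [Ring A] [Algebra ℝ A] {ι : Type} {e : ι → A} {r : ℕ}
    (h : Nil e r) {m : ℕ} (J : Fin m → ι) (x : Fin m → ℝ) : pr h J x ∈ F h := by
  refine list_prod_mem fun g hg => ?_
  rw [List.mem_ofFn] at hg
  obtain ⟨t, rfl⟩ := hg
  exact lu_mem h _ _

theorem ev_eq_pr {A : Type} [Ring A] [Algebra ℝ A] {ι : Type} {e : ι → A} {r : ℕ}
    (h : Nil e r) (l : List (Sym ι)) (s : List ι → ℝ) :
    ev h l s = pr h (fun t => (l.get t).1) (fun t => Sym.val (l.get t) s) := by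
  unfold ev pr
  congr 1
  conv_lhs => rw [← List.ofFn_get l]
  rw [List.map_ofFn]
  rfl

variable {A : Type} [NormedRing A] [NormedAlgebra ℝ A] [FiniteDimensional ℝ A] {ι : Type}
variable {e : ι → A} {r : ℕ} {P : Type} [NormedAddCommGroup P] [NormedSpace ℝ P]

theorem Fam.pr (h : Nil e r) {m : ℕ} (J : Fin m → ι) {x : P → Fin m → ℝ}
    (hx : ∀ t, AnalyticOnNhd ℝ (fun p => x p t) univ) : Fam h (fun p => H329.pr h J (x p)) := by
  induction m with
  | zero =>
    have : (fun p => H329.pr h J (x p)) = fun _ : P => (1 : A[X]ˣ) := by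
      funext p
      simp [H329.pr]
    rw [this]
    exact Fam.const (one_mem (F h))
  | succ m ih =>
    have : (fun p => H329.pr h J (x p)) = fun p => H329.lu h (J 0) (x p 0) *
        H329.pr h (fun t => J t.succ) (fun t => x p t.succ) := by
      funext p
      simp [H329.pr, List.ofFn_succ]
    rw [this]
    exact (Fam.lu h _ (hx 0)).mul (ih _ fun t => hx t.succ)

theorem analytic_coord {m : ℕ} (t : Fin m) :
    AnalyticOnNhd ℝ (fun x : Fin m → ℝ => x t) univ := fun x _ =>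
  (ContinuousLinearMap.proj (R := ℝ) (φ := fun _ : Fin m => ℝ) t).analyticAt x

/-- The packing bound. -/
theorem pack (h : Nil e r) [Finite ι] : ∃ (n : ℕ) (J : Fin n → ι), ∀ (ε : ENNReal), ε ≠ 0 →
    ∀ (c : ℕ) (C : ℝ), ∃ N0 : ℕ, ∀ (N : ℕ) (p : Fin N → (Fin c → ι) × (Fin c → ℝ))
      (X : Fin N → Set (Fin n → ℝ)), (∀ l t, |(p l).2 t| ≤ C) → (∀ l, MeasurableSet (X l)) →
      (∀ l, X l ⊆ Icc (fun _ => -1) (fun _ => 1)) → (∀ l, ε ≤ volume (X l)) →
      (∀ l l', l ≠ l' → ∀ x ∈ X l, ∀ x' ∈ X l',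
        pr h (p l).1 (p l).2 * pr h J x ≠ pr h (p l').1 (p l').2 * pr h J x') → N ≤ N0 := by
  classical
  obtain ⟨f⟩ := exists_frame e
  haveI : Fintype ι := Fintype.ofFinite ι
  set l0 := f.T r with hl0
  refine ⟨l0.length, fun t => (l0.get t).1, ?_⟩
  set J : Fin l0.length → ι := fun t => (l0.get t).1 with hJ
  set Ψ : (Fin l0.length → ℝ) → (f.β r → ℝ) := fun x => f.cc h (pr h J x) with hΨ
  have hΨa : AnalyticOnNhd ℝ Ψ univ := Fam.cc f (Fam.pr h J fun t => analytic_coord t)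
  have hΨc : Continuous Ψ := Fam.cc_continuous f (Fam.pr h J fun t => analytic_coord t)
  set L : (f.β r → ℝ) →L[ℝ] (Fin l0.length → ℝ) := ContinuousLinearMap.pi fun t =>
    if hw : (l0.get t).2.1 ∈ f.bb r then
      (l0.get t).2.2.1 • ContinuousLinearMap.proj (R := ℝ) (φ := fun _ : f.β r => ℝ)
        ⟨(l0.get t).2.1, hw⟩ else 0 with hL
  have hsec : ∀ s, Ψ ((fun t => (l0.get t).2.2.2) + L s) = s := by
    intro s
    have h1 : ((fun t => (l0.get t).2.2.2) + L s : Fin l0.length → ℝ) =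
        fun t => Sym.val (l0.get t) (f.ext s) := by
      funext t
      show (l0.get t).2.2.2 + L s t = _
      unfold Sym.val
      rw [add_comm]
      congr 1
      rw [hL, ContinuousLinearMap.pi_apply]
      unfold Frame.ext
      by_cases hw : (l0.get t).2.1 ∈ f.bb r
      · rw [dif_pos hw, dif_pos hw]
        rfl
      · rw [dif_neg hw, dif_neg hw]
        simp
    show f.cc h (pr h J _) = s
    rw [h1]
    have h2 := ev_eq_pr h l0 (f.ext s)
    rw [← h2]
    exact f.cc_ch h s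
  have hnull : ∀ N : Set (f.β r → ℝ), volume N = 0 → volume (Ψ ⁻¹' N) = 0 := fun N hN =>
    null_preimage volume hΨa L _ hsec hN
  intro ε hε c C
  set Q : Set (Fin l0.length → ℝ) := Icc (fun _ => -1) (fun _ => 1) with hQ
  have hQc : IsCompact Q := isCompact_Icc
  have hQ1 : volume Q ≠ ⊤ := hQc.measure_lt_top.ne
  have hε2 : ε / 2 ≠ 0 := by
    rw [ne_eq, ENNReal.div_eq_zero_iff]
    simp [hε]
  obtain ⟨δ, hδ, hδ2⟩ := exists_delta volume volume hΨc.measurable hnull hQ1 hε2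
  -- the bounded region
  set Y : Set (Fin c → ℝ) := Icc (fun _ => -C) (fun _ => C) with hY
  set Θ : (Fin c → ι) → ((Fin c → ℝ) × (Fin l0.length → ℝ)) → (f.β r → ℝ) :=
    fun K q => f.cc h (pr h K q.1 * pr h J q.2) with hΘ
  have hΘc : ∀ K, Continuous (Θ K) := by
    intro K
    refine Fam.cc_continuous f ?_
    refine Fam.mul (Fam.pr h K fun t => ?_) (Fam.pr h J fun t => ?_)
    · intro q _
      exact ((ContinuousLinearMap.proj (R := ℝ) (φ := fun _ : Fin c => ℝ) t).comp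
        (ContinuousLinearMap.fst ℝ _ _)).analyticAt q
    · intro q _
      exact ((ContinuousLinearMap.proj (R := ℝ) (φ := fun _ : Fin l0.length => ℝ) t).comp
        (ContinuousLinearMap.snd ℝ _ _)).analyticAt q
  set Ω : Set (f.β r → ℝ) := ⋃ K : Fin c → ι, Θ K '' (Y ×ˢ Q) with hΩ
  have hΩc : IsCompact Ω := by
    rw [hΩ]
    exact isCompact_iUnion fun K => (isCompact_Icc.prod hQc).image (hΘc K)
  have hΩ1 : volume Ω ≠ ⊤ := hΩc.measure_lt_top.ne
  set δ' := min δ 1 with hδ'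
  have hδ'0 : δ' ≠ 0 := by
    rw [hδ']
    exact (lt_min hδ one_pos).ne'
  have hδ't : δ' ≠ ⊤ := (lt_of_le_of_lt (min_le_right _ _) ENNReal.one_lt_top).ne
  obtain ⟨N0, hN0⟩ := ENNReal.exists_nat_gt (ENNReal.div_lt_top hΩ1 hδ'0).ne
  refine ⟨N0, fun N p X hp hXm hXQ hXε hdis => ?_⟩
  -- compact subsets
  have hKex : ∀ l, ∃ K ⊆ X l, IsCompact K ∧ ε / 2 < volume K := by
    intro l
    have h1 : ε / 2 < volume (X l) := by
      have hlt : volume (X l) < ⊤ := lt_of_le_of_lt (measure_mono (hXQ l)) hQ1.lt_top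
      have hεt : ε ≠ ⊤ := (lt_of_le_of_lt (hXε l) hlt).ne
      exact lt_of_lt_of_le (ENNReal.half_lt_self hε hεt) (hXε l)
    exact (hXm l).exists_lt_isCompact h1
  choose K hKX hKc hKε using hKex
  set E : Fin N → Set (f.β r → ℝ) := fun l => Ψ '' K l with hE
  have hEc : ∀ l, IsCompact (E l) := fun l => (hKc l).image hΨc
  have hEm : ∀ l, MeasurableSet (E l) := fun l => (hEc l).measurableSet
  have hEδ : ∀ l, δ ≤ volume (E l) := by
    intro l
    by_contra hlt
    rw [not_le] at hlt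
    have h1 := hδ2 (E l) (hEm l) hlt
    have h2 : K l ⊆ Q ∩ Ψ ⁻¹' (E l) := fun x hx => ⟨hXQ l (hKX l hx), mem_image_of_mem _ hx⟩
    exact absurd (lt_of_le_of_lt (measure_mono h2) h1) (not_lt.2 (hKε l).le)
  set g : Fin N → A[X]ˣ := fun l => pr h (p l).1 (p l).2 with hg
  have hgm : ∀ l, g l ∈ F h := fun l => pr_mem h _ _
  set G : Fin N → Set (f.β r → ℝ) := fun l => f.tr h (g l)⁻¹ ⁻¹' E l with hG
  have hGm : ∀ l, MeasurableSet (G l) := fun l =>
    (f.tr_continuous h (inv_mem (hgm l))).measurable (hEm l)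
  have hGv : ∀ l, volume (G l) = volume (E l) := fun l =>
    (f.tr_mp h (inv_mem (hgm l))).measure_preimage (hEm l).nullMeasurableSet
  have hGmem : ∀ l s, s ∈ G l → ∃ x ∈ K l, f.ch h s = g l * pr h J x := by
    intro l s hs
    obtain ⟨x, hx, hxs⟩ := hs
    refine ⟨x, hx, ?_⟩
    have h1 : f.ch h (f.tr h (g l)⁻¹ s) = (g l)⁻¹ * f.ch h s := f.ch_tr h (inv_mem (hgm l)) s
    rw [← hxs] at h1
    have h2 : f.ch h (Ψ x) = pr h J x := f.ch_cc h (pr_mem h J x)
    rw [h2] at h1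
    rw [h1, mul_inv_cancel_left]
  have hGΩ : ∀ l, G l ⊆ Ω := by
    intro l s hs
    obtain ⟨x, hx, hxs⟩ := hGmem l s hs
    rw [hΩ, mem_iUnion]
    refine ⟨(p l).1, ((p l).2, x), ⟨?_, hXQ l (hKX l hx)⟩, ?_⟩
    · exact ⟨fun t => (abs_le.1 (hp l t)).1, fun t => (abs_le.1 (hp l t)).2⟩
    · show f.cc h (pr h (p l).1 (p l).2 * pr h J x) = s
      rw [← hxs, f.cc_ch]
  have hGd : Pairwise (Function.onFun Disjoint G) := by
    intro l l' hll
    show Disjoint (G l) (G l')
    rw [Set.disjoint_left]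
    intro s hs hs'
    obtain ⟨x, hx, hxs⟩ := hGmem l s hs
    obtain ⟨x', hx', hxs'⟩ := hGmem l' s hs'
    exact hdis l l' hll x (hKX l hx) x' (hKX l' hx') (by
      show g l * pr h J x = g l' * pr h J x'
      rw [← hxs, ← hxs'])
  have hsum : (N : ENNReal) * δ' ≤ volume Ω := by
    calc (N : ENNReal) * δ' = ∑ _l : Fin N, δ' := by
          rw [Finset.sum_const, Finset.card_univ, Fintype.card_fin, nsmul_eq_mul]
      _ ≤ ∑ l : Fin N, volume (G l) := by
          refine Finset.sum_le_sum fun l _ => ?_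
          rw [hGv l]
          exact (min_le_left _ _).trans (hEδ l)
      _ = volume (⋃ l, G l) := by
          rw [measure_iUnion hGd hGm, tsum_fintype]
      _ ≤ volume Ω := measure_mono (iUnion_subset hGΩ)
  have h7 : (N : ENNReal) ≤ volume Ω / δ' := by
    rw [ENNReal.le_div_iff_mul_le (Or.inl hδ'0) (Or.inl hδ't)]
    exact hsum
  have h8 : (N : ENNReal) < (N0 : ENNReal) := lt_of_le_of_lt h7 hN0
  exact_mod_cast h8.le

end Vale.Agent.P188.H329
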