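import Vale.Agent.P188.H329.Family
import Vale.Agent.P188.H329.Pack
import Vale.Agent.P188.H329.QAC

/-!
# P188, FILL block, part 15: polynomial families in the curve group
-/

set_option linter.all false

namespace Vale.Agent.P188.H329

open Polynomial Set

section PoA

variable {A : Type} [Ring A] [Algebra ℝ A] {P : Type} [NormedAddCommGroup P] [NormedSpace ℝ P]

/-- polynomial functions with values in an algebra -/
def PoA (f : P → A) : Prop := ∀ φ : A →ₗ[ℝ] ℝ, (fun p => φ (f p)) ∈ Po P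

theorem PoA.const (a : A) : PoA (fun _ : P => a) := fun φ => Po.const _

theorem PoA.smul {s : P → ℝ} (hs : s ∈ Po P) (a : A) : PoA (fun p => s p • a) := by
  intro φ
  have : (fun p => φ (s p • a)) = fun p => s p * φ a := by
    funext p
    rw [map_smul, smul_eq_mul]
  rw [this]
  exact Po.mul hs (Po.const _)

theorem PoA.sub {f g : P → A} (hf : PoA f) (hg : PoA g) : PoA (fun p => f p - g p) := by
  intro φ
  have : (fun p => φ (f p - g p)) = fun p => φ (f p) - φ (g p) := by
    funext p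
    rw [map_sub]
  rw [this]
  exact Po.sub (hf φ) (hg φ)

theorem PoA.sum {α : Type} {s : Finset α} {f : α → P → A} (hf : ∀ a ∈ s, PoA (f a)) :
    PoA (fun p => ∑ a ∈ s, f a p) := by
  intro φ
  have : (fun p => φ (∑ a ∈ s, f a p)) = fun p => ∑ a ∈ s, φ (f a p) := by
    funext p
    rw [map_sum]
  rw [this]
  exact Po.sum fun a ha => hf a ha φ

theorem PoA.mul [FiniteDimensional ℝ A] {f g : P → A} (hf : PoA f) (hg : PoA g) :
    PoA (fun p => f p * g p) := by
  intro φ
  set b := Module.finBasis ℝ A with hb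
  have : (fun p => φ (f p * g p)) =
      fun p => ∑ i, ∑ j, (b.coord i (f p) * b.coord j (g p)) * φ (b i * b j) := by
    funext p
    have h1 : f p = ∑ i, b.coord i (f p) • b i := (b.sum_repr (f p)).symm
    have h2 : g p = ∑ j, b.coord j (g p) • b j := (b.sum_repr (g p)).symm
    have h3 : f p * g p = ∑ i, ∑ j, (b.coord i (f p) * b.coord j (g p)) • (b i * b j) := by
      conv_lhs => rw [h1, h2]
      rw [Finset.sum_mul_sum]
      refine Finset.sum_congr rfl fun i _ => Finset.sum_congr rfl fun j _ => ?_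
      rw [smul_mul_smul_comm]
    rw [h3, map_sum]
    refine Finset.sum_congr rfl fun i _ => ?_
    rw [map_sum]
    refine Finset.sum_congr rfl fun j _ => ?_
    rw [map_smul, smul_eq_mul]
  rw [this]
  exact Po.sum fun i _ => Po.sum fun j _ => Po.mul (Po.mul (hf _) (hg _)) (Po.const _)

end PoA

variable {A : Type} [NormedRing A] [NormedAlgebra ℝ A] [FiniteDimensional ℝ A] {ι : Type}
variable {e : ι → A} {r : ℕ} {P : Type} [NormedAddCommGroup P] [NormedSpace ℝ P]

/-- polynomial family of elements of the curve group -/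
def PFam (h : Nil e r) (g : P → A[X]ˣ) : Prop :=
  (∀ p, g p ∈ F h) ∧ ∀ k, PoA (fun p => (g p : A[X]).coeff k)

theorem PFam.mul {h : Nil e r} {g g' : P → A[X]ˣ} (hg : PFam h g) (hg' : PFam h g') :
    PFam h (fun p => g p * g' p) := by
  refine ⟨fun p => mul_mem (hg.1 p) (hg'.1 p), fun k => ?_⟩
  have : (fun p => ((g p * g' p : A[X]ˣ) : A[X]).coeff k) =
      fun p => ∑ x ∈ Finset.antidiagonal k, (g p : A[X]).coeff x.1 * (g' p : A[X]).coeff x.2 := by
    funext p
    rw [Units.val_mul, Polynomial.coeff_mul]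
  rw [this]
  exact PoA.sum fun x _ => PoA.mul (hg.2 _) (hg'.2 _)

theorem PFam.inv {h : Nil e r} {g : P → A[X]ˣ} (hg : PFam h g) : PFam h (fun p => (g p)⁻¹) := by
  refine ⟨fun p => inv_mem (hg.1 p), fun k => ?_⟩
  induction k using Nat.strong_induction_on with
  | _ k ih =>
    have e1 : ∀ p, (((g p)⁻¹ : A[X]ˣ) : A[X]).coeff k = (if k = 0 then 1 else 0) -
        ∑ x ∈ (Finset.antidiagonal k).erase (0, k),
          (g p : A[X]).coeff x.1 * (((g p)⁻¹ : A[X]ˣ) : A[X]).coeff x.2 := by
      intro p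
      have h1 : ((g p : A[X]) * (((g p)⁻¹ : A[X]ˣ) : A[X])).coeff k = if k = 0 then 1 else 0 := by
        rw [← Units.val_mul, mul_inv_cancel, Units.val_one, coeff_one]
      rw [Polynomial.coeff_mul, ← Finset.add_sum_erase _ _ (show (0, k) ∈ Finset.antidiagonal k by simp)]
        at h1
      have h2 : (g p : A[X]).coeff 0 = 1 := (F_Uo (hg.1 p)).coeff_zero one_pos
      simp only [h2, one_mul] at h1
      rw [← h1]
      abel
    have e2 : (fun p => (((g p)⁻¹ : A[X]ˣ) : A[X]).coeff k) = fun p => (if k = 0 then 1 else 0) -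
        ∑ x ∈ (Finset.antidiagonal k).erase (0, k),
          (g p : A[X]).coeff x.1 * (((g p)⁻¹ : A[X]ˣ) : A[X]).coeff x.2 := funext e1
    rw [e2]
    refine PoA.sub (PoA.const _) (PoA.sum fun x hx => ?_)
    rw [Finset.mem_erase, Finset.mem_antidiagonal] at hx
    have hx2 : x.2 < k := by
      by_contra h3
      apply hx.1
      ext
      · show x.1 = 0; omega
      · show x.2 = k; omega
    exact PoA.mul (hg.2 _) (ih x.2 hx2)

theorem PFam.const {h : Nil e r} {g : A[X]ˣ} (hg : g ∈ F h) : PFam h (fun _ : P => g) :=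
  ⟨fun _ => hg, fun _ => PoA.const _⟩

theorem PFam.lu (h : Nil e r) (i : ι) {x : P → ℝ} (hx : x ∈ Po P) :
    PFam h (fun p => H329.lu h i (x p)) := by
  refine ⟨fun p => lu_mem h i _, fun k => ?_⟩
  have : (fun p => ((H329.lu h i (x p) : A[X]ˣ) : A[X]).coeff k) =
      fun p => (x p ^ k) • ((if k < r + 1 then (k.factorial : ℝ)⁻¹ else 0) • e i ^ k) := by
    funext p
    rw [lu_val, lt_coeff]
    split_ifs
    · rw [smul_smul, mul_comm]
    · simp
  rw [this]
  exact PoA.smul (Po.pow hx k) _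

theorem PFam.ev (h : Nil e r) (l : List (Sym ι)) {s : P → List ι → ℝ}
    (hs : ∀ w, (fun p => s p w) ∈ Po P) : PFam h (fun p => H329.ev h l (s p)) := by
  induction l with
  | nil =>
    simp only [ev_nil]
    exact PFam.const (P := P) (one_mem (F h))
  | cons q l ih =>
    simp only [ev_cons]
    have h1 : (fun p => s p q.2.1) ∈ Po P := hs q.2.1
    have h2 : (fun p => q.2.2.1 * s p q.2.1) ∈ Po P := Po.mul (Po.const (P := P) q.2.2.1) h1
    have h3 : (fun p => q.2.2.1 * s p q.2.1 + q.2.2.2) ∈ Po P :=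
      Po.add h2 (Po.const (P := P) q.2.2.2)
    have h4 : PFam h (fun p => H329.lu h q.1 (Sym.val q (s p))) := PFam.lu h q.1 h3
    exact PFam.mul h4 ih

theorem PFam.cf {h : Nil e r} (f : Frame e) {g : P → A[X]ˣ} (hg : PFam h g) (j : ℕ) (w : List ι) :
    (fun p => f.κ w ((g p : A[X]).coeff j)) ∈ Po P := hg.2 j (f.κ w)

theorem PFam.peel {h : Nil e r} (f : Frame e) {g : P → A[X]ˣ} (hg : PFam h g) (j : ℕ) :
    PFam h (fun p => f.peel h j (g p)) := by
  induction j with
  | zero => exact hg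
  | succ j ih =>
    simp only [f.peel_succ]
    exact (PFam.ev h _ fun w => PFam.cf f ih _ w).inv.mul ih

theorem PFam.co {h : Nil e r} (f : Frame e) {g : P → A[X]ˣ} (hg : PFam h g) (w : List ι) :
    (fun p => f.co h (g p) w) ∈ Po P := PFam.cf f (PFam.peel f hg _) _ w

theorem PFam.cc {h : Nil e r} (f : Frame e) {g : P → A[X]ˣ} (hg : PFam h g) (w : f.β r) :
    (fun p => f.cc h (g p) w) ∈ Po P := PFam.co f hg w.1

theorem PFam.pr (h : Nil e r) {m : ℕ} (J : Fin m → ι) {x : P → Fin m → ℝ}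
    (hx : ∀ t, (fun p => x p t) ∈ Po P) : PFam h (fun p => H329.pr h J (x p)) := by
  induction m with
  | zero =>
    have : (fun p => H329.pr h J (x p)) = fun _ : P => (1 : A[X]ˣ) := by
      funext p
      simp [H329.pr]
    rw [this]
    exact PFam.const (one_mem (F h))
  | succ m ih =>
    have : (fun p => H329.pr h J (x p)) = fun p => H329.lu h (J 0) (x p 0) *
        H329.pr h (fun t => J t.succ) (fun t => x p t.succ) := by
      funext p
      simp [H329.pr, List.ofFn_succ]
    rw [this]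
    exact (PFam.lu h _ (hx 0)).mul (ih _ fun t => hx t.succ)

theorem po_coord {m : ℕ} (t : Fin m) : (fun x : Fin m → ℝ => x t) ∈ Po (Fin m → ℝ) :=
  Po.lin (ContinuousLinearMap.proj (R := ℝ) (φ := fun _ : Fin m => ℝ) t)

theorem pow_aux2 (M : ℝ) (α κ : ℕ) : ∃ K : ℕ, 1 ≤ K ∧ ∀ a u : ℝ, 1 ≤ a → 1 ≤ u →
    M * a ^ α * u ^ κ ≤ (K * a * u) ^ K := by
  obtain ⟨m, hm⟩ := exists_nat_ge M
  set K := max (max m 1) (max α κ) with hK
  have hK1 : 1 ≤ K := le_trans (le_max_right _ _) (le_max_left _ _)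
  have hKm : m ≤ K := le_trans (le_max_left _ _) (le_max_left _ _)
  have hKα : α ≤ K := le_trans (le_max_left _ _) (le_max_right _ _)
  have hKκ : κ ≤ K := le_trans (le_max_right _ _) (le_max_right _ _)
  refine ⟨K, hK1, fun a u ha hu => ?_⟩
  have hKr : (1 : ℝ) ≤ K := by exact_mod_cast hK1
  have h1 : M ≤ (K : ℝ) ^ K := by
    refine hm.trans ?_
    have h2 : (m : ℝ) ≤ K := by exact_mod_cast hKm
    exact h2.trans (le_self_pow₀ hKr (by omega))
  have h3 : a ^ α ≤ a ^ K := pow_le_pow_right₀ ha hKα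
  have h4 : u ^ κ ≤ u ^ K := pow_le_pow_right₀ hu hKκ
  have ha0 : 0 ≤ a := by linarith
  have hu0 : 0 ≤ u := by linarith
  rw [mul_pow, mul_pow]
  exact mul_le_mul (mul_le_mul h1 h3 (by positivity) (by positivity)) h4 (by positivity) (by positivity)

end Vale.Agent.P188.H329
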