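import Vale.Agent.P188.H329.Letter
import Mathlib.LinearAlgebra.Basis.VectorSpace
import Mathlib.Data.Fintype.Vector

/-!
# P188, FILL block, part 3: coordinates of the second kind on the curve group
-/

set_option linter.all false

namespace Vale.Agent.P188.H329

open Polynomial Finset

variable {A : Type} [Ring A] [Algebra ℝ A] {ι : Type}

/-! ### elements `1 + O(X^j)` -/

/-- `g = 1 + O(X^j)` -/
def Uo (j : ℕ) (g : A[X]ˣ) : Prop := Ord j ((g : A[X]) - 1)

theorem Uo.mono {j k : ℕ} {g : A[X]ˣ} (h : Uo k g) (hjk : j ≤ k) : Uo j g := Ord.mono h hjk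

theorem Uo.coeff_zero {j : ℕ} {g : A[X]ˣ} (h : Uo j g) (hj : 0 < j) : (g : A[X]).coeff 0 = 1 := by
  have := h 0 hj
  rwa [coeff_sub, coeff_one_zero, sub_eq_zero] at this

theorem Uo.coeff_sub_one {j : ℕ} {g : A[X]ˣ} (hj : 0 < j) :
    ((g : A[X]) - 1).coeff j = (g : A[X]).coeff j := by
  rw [coeff_sub, coeff_one, if_neg (by omega), sub_zero]

theorem Uo.one (j : ℕ) : Uo j (1 : A[X]ˣ) := by
  intro k _
  simp

theorem Uo.mul {j : ℕ} {g h : A[X]ˣ} (hg : Uo j g) (hh : Uo j h) : Uo j (g * h) := by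
  have e : ((g * h : A[X]ˣ) : A[X]) - 1 =
      ((g : A[X]) - 1) * ((h : A[X]) - 1) + ((g : A[X]) - 1) + ((h : A[X]) - 1) := by
    rw [Units.val_mul]; noncomm_ring
  unfold Uo
  rw [e]
  exact ((Ord.mul_right hg).add hg).add hh

theorem Uo.coeff_mul {j : ℕ} (hj : 0 < j) {g h : A[X]ˣ} (hg : Uo j g) (hh : Uo j h) :
    ((g * h : A[X]ˣ) : A[X]).coeff j = (g : A[X]).coeff j + (h : A[X]).coeff j := by
  have e : ((g * h : A[X]ˣ) : A[X]) - 1 =
      ((g : A[X]) - 1) * ((h : A[X]) - 1) + ((g : A[X]) - 1) + ((h : A[X]) - 1) := by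
    rw [Units.val_mul]; noncomm_ring
  have h2 : (((g : A[X]) - 1) * ((h : A[X]) - 1)).coeff j = 0 := (Ord.mul hg hh) j (by omega)
  rw [← Uo.coeff_sub_one hj, e, coeff_add, coeff_add, h2, zero_add, Uo.coeff_sub_one hj,
    Uo.coeff_sub_one hj]

theorem Uo.inv {j : ℕ} {g : A[X]ˣ} (hg : Uo j g) : Uo j g⁻¹ := by
  have e : ((g⁻¹ : A[X]ˣ) : A[X]) - 1 = -(((g⁻¹ : A[X]ˣ) : A[X]) * ((g : A[X]) - 1)) := by
    rw [mul_sub, ← Units.val_mul, inv_mul_cancel]
    simp
  unfold Uo
  rw [e]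
  exact (Ord.mul_left hg).neg

theorem Uo.coeff_inv {j : ℕ} (hj : 0 < j) {g : A[X]ˣ} (hg : Uo j g) :
    ((g⁻¹ : A[X]ˣ) : A[X]).coeff j = - (g : A[X]).coeff j := by
  have h1 := Uo.coeff_mul hj hg hg.inv
  rw [mul_inv_cancel, Units.val_one, coeff_one, if_neg (by omega)] at h1
  rw [eq_neg_iff_add_eq_zero, add_comm]
  exact h1.symm

theorem Uo.comm_aux {a b : ℕ} (ha : 0 < a) (hb : 0 < b) {g h : A[X]ˣ} (hg : Uo a g) (hh : Uo b h) :
    Uo (a + b) (g * (h * (g⁻¹ * h⁻¹))) ∧ ((g * (h * (g⁻¹ * h⁻¹)) : A[X]ˣ) : A[X]).coeff (a + b) =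
      (g : A[X]).coeff a * (h : A[X]).coeff b - (h : A[X]).coeff b * (g : A[X]).coeff a := by
  set u : A[X]ˣ := g⁻¹ * h⁻¹ with hu
  have e : ((g * (h * u) : A[X]ˣ) : A[X]) - 1 =
      (((g : A[X]) - 1) * ((h : A[X]) - 1) - ((h : A[X]) - 1) * ((g : A[X]) - 1)) * (u : A[X]) := by
    have e1 : (h : A[X]) * (g : A[X]) * (u : A[X]) = 1 := by
      rw [← Units.val_mul, ← Units.val_mul, hu]
      simp
    have e2 : ((g * (h * u) : A[X]ˣ) : A[X]) = (g : A[X]) * (h : A[X]) * (u : A[X]) := by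
      rw [Units.val_mul, Units.val_mul, mul_assoc]
    rw [e2]
    have e3 : (((g : A[X]) - 1) * ((h : A[X]) - 1) - ((h : A[X]) - 1) * ((g : A[X]) - 1)) * (u : A[X])
        = (g : A[X]) * (h : A[X]) * (u : A[X]) - (h : A[X]) * (g : A[X]) * (u : A[X]) := by
      noncomm_ring
    rw [e3, e1]
  have hO : Ord (a + b) (((g : A[X]) - 1) * ((h : A[X]) - 1) - ((h : A[X]) - 1) * ((g : A[X]) - 1)) := by
    refine (Ord.mul hg hh).sub ?_
    rw [add_comm]
    exact Ord.mul hh hg
  constructor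
  · unfold Uo
    rw [e]
    exact Ord.mul_right hO
  · have hu0 : (u : A[X]).coeff 0 = 1 := by
      rw [hu, Units.val_mul, mul_coeff_zero, hg.inv.coeff_zero ha, hh.inv.coeff_zero hb, one_mul]
    have h1 := Ord.coeff_mul hO (ord_zero (u : A[X]))
    rw [← Uo.coeff_sub_one (by omega : 0 < a + b), e]
    rw [add_zero, hu0, mul_one] at h1
    rw [h1, coeff_sub, Ord.coeff_mul hg hh]
    have h2 := Ord.coeff_mul hh hg
    rw [add_comm b a] at h2
    rw [h2, Uo.coeff_sub_one ha, Uo.coeff_sub_one hb]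

/-! ### words with parameters -/

/-- A symbol `(i, b, α, β)`: the letter `e_i (α s_b + β)`. -/
abbrev Sym (ι : Type) : Type := ι × List ι × ℝ × ℝ

/-- parameter value of a symbol -/
def Sym.val (q : Sym ι) (s : List ι → ℝ) : ℝ := q.2.2.1 * s q.2.1 + q.2.2.2

/-- evaluation of a list of symbols -/
noncomputable def ev {e : ι → A} {r : ℕ} (h : Nil e r) (l : List (Sym ι)) (s : List ι → ℝ) : A[X]ˣ :=
  (l.map fun q => lu h q.1 (Sym.val q s)).prod

theorem ev_nil {e : ι → A} {r : ℕ} (h : Nil e r) (s : List ι → ℝ) : ev h [] s = 1 := by simp [ev]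

theorem ev_cons {e : ι → A} {r : ℕ} (h : Nil e r) (q : Sym ι) (l : List (Sym ι)) (s : List ι → ℝ) :
    ev h (q :: l) s = lu h q.1 (Sym.val q s) * ev h l s := by
  simp [ev]

theorem ev_append {e : ι → A} {r : ℕ} (h : Nil e r) (l l' : List (Sym ι)) (s : List ι → ℝ) :
    ev h (l ++ l') s = ev h l s * ev h l' s := by
  simp [ev]

theorem ev_mem {e : ι → A} {r : ℕ} (h : Nil e r) (l : List (Sym ι)) (s : List ι → ℝ) :
    ev h l s ∈ F h := by
  induction l with
  | nil => rw [ev_nil]; exact one_mem _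
  | cons q l ih => rw [ev_cons]; exact mul_mem (lu_mem h _ _) ih

theorem ev_congr {e : ι → A} {r : ℕ} (h : Nil e r) {l : List (Sym ι)} {s s' : List ι → ℝ}
    (hs : ∀ q ∈ l, s q.2.1 = s' q.2.1) : ev h l s = ev h l s' := by
  induction l with
  | nil => rw [ev_nil, ev_nil]
  | cons q l ih =>
    rw [ev_cons, ev_cons, ih fun q hq => hs q (List.mem_cons_of_mem _ hq)]
    unfold Sym.val
    rw [hs q (List.mem_cons_self ..)]

/-- inverse list -/
def linv (l : List (Sym ι)) : List (Sym ι) :=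
  (l.map fun q => (q.1, q.2.1, -q.2.2.1, -q.2.2.2)).reverse

theorem ev_linv {e : ι → A} {r : ℕ} (h : Nil e r) (l : List (Sym ι)) (s : List ι → ℝ) :
    ev h (linv l) s = (ev h l s)⁻¹ := by
  induction l with
  | nil => simp [linv, ev]
  | cons q l ih =>
    have : linv (q :: l) = linv l ++ [(q.1, q.2.1, -q.2.2.1, -q.2.2.2)] := by simp [linv]
    have e2 : Sym.val (q.1, q.2.1, -q.2.2.1, -q.2.2.2) s = -Sym.val q s := by
      simp only [Sym.val]
      ring
    rw [this, ev_append, ih, ev_cons, ev_nil, mul_one, ev_cons h q l, mul_inv_rev, lu_inv, e2]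

/-- the commutator word `[E_{w_1}(1), [E_{w_2}(1), ... E_{w_j}(s_b)]]` -/
def vw (b : List ι) : List ι → List (Sym ι)
  | [] => []
  | [i] => [(i, b, 1, 0)]
  | i :: j :: w => (i, b, 0, 1) :: (vw b (j :: w) ++ (i, b, 0, -1) :: linv (vw b (j :: w)))

theorem mem_linv {l : List (Sym ι)} {q : Sym ι} (hq : q ∈ linv l) : ∃ q' ∈ l, q'.2.1 = q.2.1 := by
  unfold linv at hq
  rw [List.mem_reverse, List.mem_map] at hq
  obtain ⟨a, ha, rfl⟩ := hq
  exact ⟨a, ha, rfl⟩

theorem vw_index (b : List ι) (w : List ι) : ∀ q ∈ vw b w, q.2.1 = b := by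
  induction w with
  | nil => intro q hq; simp [vw] at hq
  | cons i w ih =>
    cases w with
    | nil => intro q hq; simp [vw] at hq; subst hq; rfl
    | cons j w =>
      intro q hq
      simp only [vw, List.mem_cons, List.mem_append] at hq
      rcases hq with rfl | hq | rfl | hq
      · rfl
      · exact ih q hq
      · rfl
      · obtain ⟨q', h1, h2⟩ := mem_linv hq
        rw [← h2]
        exact ih q' h1

theorem Nil.coeff_one {e : ι → A} {r : ℕ} (h : Nil e r) (i : ι) (x : ℝ) :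
    (lt e r i x).coeff 1 = x • e i := by
  rcases Nat.eq_zero_or_pos r with hr | hr
  · subst hr
    have : e i = 0 := by simpa using h [i] (by simp)
    rw [lt_coeff, this]
    simp
  · exact lt_coeff_one e hr i x

theorem lu_Uo {e : ι → A} {r : ℕ} (h : Nil e r) (i : ι) (x : ℝ) : Uo 1 (lu h i x) := by
  intro k hk
  have : k = 0 := by omega
  subst this
  rw [coeff_sub, lu_val, lt_coeff_zero, coeff_one_zero, sub_self]

theorem vw_spec {e : ι → A} {r : ℕ} (h : Nil e r) (b : List ι) (s : List ι → ℝ) (w : List ι)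
    (hw : w ≠ []) : Uo w.length (ev h (vw b w) s) ∧
      ((ev h (vw b w) s : A[X]ˣ) : A[X]).coeff w.length = s b • br e w := by
  induction w with
  | nil => exact absurd rfl hw
  | cons i w ih =>
    cases w with
    | nil =>
      have : ev h (vw b [i]) s = lu h i (s b) := by
        simp [vw, ev_cons, ev_nil, Sym.val]
      rw [this]
      refine ⟨lu_Uo h i _, ?_⟩
      rw [lu_val]
      exact h.coeff_one i _
    | cons j w =>
      obtain ⟨h1, h2⟩ := ih (by simp)
      set v := ev h (vw b (j :: w)) s with hv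
      have e1 : ev h (vw b (i :: j :: w)) s = lu h i 1 * (v * ((lu h i 1)⁻¹ * v⁻¹)) := by
        simp only [vw, ev_cons, ev_append, ev_linv]
        rw [← hv]
        simp only [Sym.val, zero_mul, zero_add, lu_inv]
      obtain ⟨h3, h4⟩ := Uo.comm_aux (a := 1) (b := (j :: w).length) one_pos (by simp)
        (lu_Uo h i 1) h1
      rw [e1]
      have e2 : (i :: j :: w).length = 1 + (j :: w).length := by simp; omega
      rw [e2]
      refine ⟨h3, ?_⟩
      rw [h4, h2, lu_val, h.coeff_one, one_smul]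
      simp only [br, mul_smul_comm, smul_mul_assoc, smul_sub]

end Vale.Agent.P188.H329
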