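import Mathlib.Analysis.Calculus.ContDiff.Operations
import Mathlib.Analysis.Calculus.FDeriv.Mul
import Mathlib.Analysis.Normed.Module.FiniteDimension
import Mathlib.Algebra.Polynomial.Eval.Degree
import Mathlib.Tactic

/-!
# P188, FILL block, part 12: polynomial functions on a normed space
-/

set_option linter.all false

namespace Vale.Agent.P188.H329

open Set

variable {P P' : Type*} [NormedAddCommGroup P] [NormedSpace ℝ P]
  [NormedAddCommGroup P'] [NormedSpace ℝ P']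

/-- polynomial functions -/
def Po (P : Type*) [NormedAddCommGroup P] [NormedSpace ℝ P] : Subalgebra ℝ (P → ℝ) :=
  Algebra.adjoin ℝ (Set.range fun φ : P →L[ℝ] ℝ => (fun x => φ x : P → ℝ))

theorem Po.lin (φ : P →L[ℝ] ℝ) : (fun x => φ x : P → ℝ) ∈ Po P :=
  Algebra.subset_adjoin ⟨φ, rfl⟩

theorem Po.const (c : ℝ) : (fun _ => c : P → ℝ) ∈ Po P :=
  (Po P).algebraMap_mem c

theorem Po.add {f g : P → ℝ} (hf : f ∈ Po P) (hg : g ∈ Po P) : (fun x => f x + g x) ∈ Po P :=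
  (Po P).add_mem hf hg

theorem Po.mul {f g : P → ℝ} (hf : f ∈ Po P) (hg : g ∈ Po P) : (fun x => f x * g x) ∈ Po P :=
  (Po P).mul_mem hf hg

theorem Po.neg {f : P → ℝ} (hf : f ∈ Po P) : (fun x => - f x) ∈ Po P :=
  (Po P).neg_mem hf

theorem Po.sub {f g : P → ℝ} (hf : f ∈ Po P) (hg : g ∈ Po P) : (fun x => f x - g x) ∈ Po P :=
  (Po P).sub_mem hf hg

theorem Po.pow {f : P → ℝ} (hf : f ∈ Po P) (n : ℕ) : (fun x => f x ^ n) ∈ Po P :=
  (Po P).pow_mem hf n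

theorem Po.sum {α : Type*} {s : Finset α} {f : α → P → ℝ} (hf : ∀ a ∈ s, f a ∈ Po P) :
    (fun x => ∑ a ∈ s, f a x) ∈ Po P := by
  have := (Po P).sum_mem hf
  convert this using 1
  funext x
  rw [Finset.sum_apply]

theorem Po.prod {α : Type*} {s : Finset α} {f : α → P → ℝ} (hf : ∀ a ∈ s, f a ∈ Po P) :
    (fun x => ∏ a ∈ s, f a x) ∈ Po P := by
  have := (Po P).prod_mem hf
  convert this using 1
  funext x
  rw [Finset.prod_apply]

theorem Po.induction {p : (P → ℝ) → Prop} (lin : ∀ φ : P →L[ℝ] ℝ, p fun x => φ x)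
    (const : ∀ c : ℝ, p fun _ => c) (add : ∀ f g, f ∈ Po P → g ∈ Po P → p f → p g → p fun x => f x + g x)
    (mul : ∀ f g, f ∈ Po P → g ∈ Po P → p f → p g → p fun x => f x * g x) {f : P → ℝ}
    (hf : f ∈ Po P) : p f := by
  refine Algebra.adjoin_induction (p := fun f _ => p f) ?_ ?_ ?_ ?_ hf
  · rintro f ⟨φ, rfl⟩
    exact lin φ
  · intro c
    exact const c
  · intro f g hf hg h1 h2
    exact add f g hf hg h1 h2
  · intro f g hf hg h1 h2
    exact mul f g hf hg h1 h2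

theorem Po.comp {f : P → ℝ} (hf : f ∈ Po P) {g : P' → P} (hg : ∀ φ : P →L[ℝ] ℝ, (fun x => φ (g x)) ∈ Po P') :
    (fun x => f (g x)) ∈ Po P' := by
  refine Po.induction (p := fun f => (fun x => f (g x)) ∈ Po P') hg (fun c => Po.const c)
    (fun f f' _ _ h1 h2 => Po.add h1 h2) (fun f f' _ _ h1 h2 => Po.mul h1 h2) hf

theorem Po.contDiff {f : P → ℝ} (hf : f ∈ Po P) (n : WithTop ℕ∞) : ContDiff ℝ n f := by
  refine Po.induction (p := fun f => ContDiff ℝ n f) (fun φ => φ.contDiff) (fun c => contDiff_const)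
    (fun f f' _ _ h1 h2 => h1.add h2) (fun f f' _ _ h1 h2 => h1.mul h2) hf

theorem Po.differentiable {f : P → ℝ} (hf : f ∈ Po P) : Differentiable ℝ f :=
  (Po.contDiff hf 1).differentiable (by norm_num)

theorem Po.continuous {f : P → ℝ} (hf : f ∈ Po P) : Continuous f :=
  (Po.contDiff hf 1).continuous

theorem Po.fderiv_mem {f : P → ℝ} (hf : f ∈ Po P) (v : P) : (fun x => fderiv ℝ f x v) ∈ Po P := by
  refine Po.induction (p := fun f => (fun x => fderiv ℝ f x v) ∈ Po P) ?_ ?_ ?_ ?_ hf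
  · intro φ
    have : (fun x => fderiv ℝ (fun x => φ x) x v) = fun _ => φ v := by
      funext x
      rw [φ.hasFDerivAt.fderiv]
    rw [this]
    exact Po.const _
  · intro c
    have : (fun x => fderiv ℝ (fun _ : P => c) x v) = fun _ => 0 := by
      funext x
      simp
    rw [this]
    exact Po.const _
  · intro f g hf hg h1 h2
    have : (fun x => fderiv ℝ (fun x => f x + g x) x v) =
        fun x => fderiv ℝ f x v + fderiv ℝ g x v := by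
      funext x
      rw [fderiv_fun_add (Po.differentiable hf x) (Po.differentiable hg x)]
      rfl
    rw [this]
    exact Po.add h1 h2
  · intro f g hf hg h1 h2
    have : (fun x => fderiv ℝ (fun x => f x * g x) x v) =
        fun x => f x * fderiv ℝ g x v + g x * fderiv ℝ f x v := by
      funext x
      rw [fderiv_fun_mul (Po.differentiable hf x) (Po.differentiable hg x)]
      rfl
    rw [this]
    exact Po.add (Po.mul hf h2) (Po.mul hg h1)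

open Polynomial in
theorem Po.line {f : P → ℝ} (hf : f ∈ Po P) : ∃ D : ℕ, ∀ a b : P, ∃ p : ℝ[X], p.natDegree ≤ D ∧
    ∀ t : ℝ, f (a + t • b) = p.eval t := by
  refine Po.induction (p := fun f => ∃ D : ℕ, ∀ a b : P, ∃ p : ℝ[X], p.natDegree ≤ D ∧
    ∀ t : ℝ, f (a + t • b) = p.eval t) ?_ ?_ ?_ ?_ hf
  · intro φ
    refine ⟨1, fun a b => ⟨C (φ a) + C (φ b) * X, ?_, fun t => ?_⟩⟩
    · refine (natDegree_add_le _ _).trans ?_
      rw [natDegree_C]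
      simp only [zero_le, sup_of_le_right]
      exact (natDegree_C_mul_le _ _).trans natDegree_X_le
    · show φ (a + t • b) = _
      rw [eval_add, eval_C, eval_mul, eval_C, eval_X, map_add, map_smul, smul_eq_mul, mul_comm]
  · intro c
    refine ⟨0, fun a b => ⟨C c, by simp, fun t => by simp⟩⟩
  · rintro f g _ _ ⟨D1, h1⟩ ⟨D2, h2⟩
    refine ⟨max D1 D2, fun a b => ?_⟩
    obtain ⟨p, hp, hp2⟩ := h1 a b
    obtain ⟨q, hq, hq2⟩ := h2 a b
    refine ⟨p + q, (natDegree_add_le _ _).trans (max_le_max hp hq), fun t => ?_⟩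
    rw [eval_add, ← hp2, ← hq2]
  · rintro f g _ _ ⟨D1, h1⟩ ⟨D2, h2⟩
    refine ⟨D1 + D2, fun a b => ?_⟩
    obtain ⟨p, hp, hp2⟩ := h1 a b
    obtain ⟨q, hq, hq2⟩ := h2 a b
    refine ⟨p * q, natDegree_mul_le.trans (add_le_add hp hq), fun t => ?_⟩
    rw [eval_mul, ← hp2, ← hq2]

theorem Po.bound {f : P → ℝ} (hf : f ∈ Po P) : ∃ K : ℕ, ∀ x, |f x| ≤ K * (1 + ‖x‖) ^ K := by
  refine Po.induction (p := fun f => ∃ K : ℕ, ∀ x, |f x| ≤ K * (1 + ‖x‖) ^ K) ?_ ?_ ?_ ?_ hf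
  · intro φ
    obtain ⟨K, hK⟩ := exists_nat_ge ‖φ‖
    refine ⟨K + 1, fun x => ?_⟩
    have h1 : |φ x| ≤ ‖φ‖ * ‖x‖ := φ.le_opNorm x
    have h2 : (1 + ‖x‖) ≤ (1 + ‖x‖) ^ (K + 1) := le_self_pow₀ (by linarith [norm_nonneg x]) (by omega)
    calc |φ x| ≤ ‖φ‖ * ‖x‖ := h1
      _ ≤ ((K + 1 : ℕ) : ℝ) * (1 + ‖x‖) := by
          push_cast
          nlinarith [norm_nonneg x, norm_nonneg φ]
      _ ≤ _ := by gcongr
  · intro c
    obtain ⟨K, hK⟩ := exists_nat_ge |c|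
    refine ⟨K, fun x => hK.trans ?_⟩
    have : (1 : ℝ) ≤ (1 + ‖x‖) ^ K := one_le_pow₀ (by linarith [norm_nonneg x])
    nlinarith [Nat.cast_nonneg (α := ℝ) K]
  · rintro f g _ _ ⟨K1, h1⟩ ⟨K2, h2⟩
    refine ⟨K1 + K2, fun x => ?_⟩
    have h3 : (1 : ℝ) ≤ 1 + ‖x‖ := by linarith [norm_nonneg x]
    calc |f x + g x| ≤ |f x| + |g x| := abs_add_le _ _
      _ ≤ K1 * (1 + ‖x‖) ^ K1 + K2 * (1 + ‖x‖) ^ K2 := add_le_add (h1 x) (h2 x)
      _ ≤ K1 * (1 + ‖x‖) ^ (K1 + K2) + K2 * (1 + ‖x‖) ^ (K1 + K2) := by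
          gcongr
          · omega
          · omega
      _ = _ := by push_cast; ring
  · rintro f g _ _ ⟨K1, h1⟩ ⟨K2, h2⟩
    refine ⟨K1 * K2 + K1 + K2, fun x => ?_⟩
    have h3 : (1 : ℝ) ≤ 1 + ‖x‖ := by linarith [norm_nonneg x]
    calc |f x * g x| = |f x| * |g x| := abs_mul _ _
      _ ≤ (K1 * (1 + ‖x‖) ^ K1) * (K2 * (1 + ‖x‖) ^ K2) :=
          mul_le_mul (h1 x) (h2 x) (abs_nonneg _) (by positivity)
      _ = (K1 * K2) * (1 + ‖x‖) ^ (K1 + K2) := by rw [pow_add]; ring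
      _ ≤ ((K1 * K2 + K1 + K2 : ℕ) : ℝ) * (1 + ‖x‖) ^ (K1 * K2 + K1 + K2) := by
          have h4 : (1 + ‖x‖) ^ (K1 + K2) ≤ (1 + ‖x‖) ^ (K1 * K2 + K1 + K2) :=
            pow_le_pow_right₀ h3 (by omega)
          have h5 : ((K1 : ℝ) * K2) ≤ ((K1 * K2 + K1 + K2 : ℕ) : ℝ) := by
            push_cast
            linarith [Nat.cast_nonneg (α := ℝ) K1, Nat.cast_nonneg (α := ℝ) K2]
          exact mul_le_mul h5 h4 (by positivity) (by positivity)

theorem Po.lip {f : P → ℝ} (hf : f ∈ Po P) : ∃ K : ℕ, ∀ ρ : ℝ, 0 ≤ ρ → ∀ x y, ‖x‖ ≤ ρ → ‖y‖ ≤ ρ →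
    |f x - f y| ≤ K * (1 + ρ) ^ K * ‖x - y‖ := by
  refine Po.induction (p := fun f => ∃ K : ℕ, ∀ ρ : ℝ, 0 ≤ ρ → ∀ x y, ‖x‖ ≤ ρ → ‖y‖ ≤ ρ →
    |f x - f y| ≤ K * (1 + ρ) ^ K * ‖x - y‖) ?_ ?_ ?_ ?_ hf
  · intro φ
    obtain ⟨K, hK⟩ := exists_nat_ge ‖φ‖
    refine ⟨K, fun ρ hρ x y _ _ => ?_⟩
    have h1 : |φ x - φ y| ≤ ‖φ‖ * ‖x - y‖ := by
      rw [← map_sub]
      exact φ.le_opNorm _
    have h2 : (1 : ℝ) ≤ (1 + ρ) ^ K := one_le_pow₀ (by linarith)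
    calc |φ x - φ y| ≤ ‖φ‖ * ‖x - y‖ := h1
      _ ≤ K * 1 * ‖x - y‖ := by rw [mul_one]; gcongr
      _ ≤ _ := by gcongr
  · intro c
    refine ⟨0, fun ρ hρ x y _ _ => by simp⟩
  · rintro f g _ _ ⟨K1, h1⟩ ⟨K2, h2⟩
    refine ⟨K1 + K2, fun ρ hρ x y hx hy => ?_⟩
    have h3 : (1 : ℝ) ≤ 1 + ρ := by linarith
    have e1 : f x + g x - (f y + g y) = (f x - f y) + (g x - g y) := by ring
    calc |f x + g x - (f y + g y)| ≤ |f x - f y| + |g x - g y| := by rw [e1]; exact abs_add_le _ _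
      _ ≤ K1 * (1 + ρ) ^ K1 * ‖x - y‖ + K2 * (1 + ρ) ^ K2 * ‖x - y‖ :=
          add_le_add (h1 ρ hρ x y hx hy) (h2 ρ hρ x y hx hy)
      _ ≤ K1 * (1 + ρ) ^ (K1 + K2) * ‖x - y‖ + K2 * (1 + ρ) ^ (K1 + K2) * ‖x - y‖ := by
          gcongr
          · omega
          · omega
      _ = _ := by push_cast; ring
  · rintro f g hf hg ⟨K1, h1⟩ ⟨K2, h2⟩
    obtain ⟨B1, hB1⟩ := Po.bound hf
    obtain ⟨B2, hB2⟩ := Po.bound hg
    refine ⟨K1 * B2 + K2 * B1 + K1 + K2 + B1 + B2, fun ρ hρ x y hx hy => ?_⟩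
    have h3 : (1 : ℝ) ≤ 1 + ρ := by linarith
    have e1 : f x * g x - f y * g y = (f x - f y) * g x + f y * (g x - g y) := by ring
    have hg1 : |g x| ≤ B2 * (1 + ρ) ^ B2 := (hB2 x).trans (by gcongr)
    have hf1 : |f y| ≤ B1 * (1 + ρ) ^ B1 := (hB1 y).trans (by gcongr)
    set N := K1 * B2 + K2 * B1 + K1 + K2 + B1 + B2 with hN
    calc |f x * g x - f y * g y| ≤ |f x - f y| * |g x| + |f y| * |g x - g y| := by
          rw [e1, ← abs_mul, ← abs_mul]; exact abs_add_le _ _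
      _ ≤ (K1 * (1 + ρ) ^ K1 * ‖x - y‖) * (B2 * (1 + ρ) ^ B2) +
          (B1 * (1 + ρ) ^ B1) * (K2 * (1 + ρ) ^ K2 * ‖x - y‖) := by
          refine add_le_add ?_ ?_
          · exact mul_le_mul (h1 ρ hρ x y hx hy) hg1 (abs_nonneg _) (by positivity)
          · exact mul_le_mul hf1 (h2 ρ hρ x y hx hy) (abs_nonneg _) (by positivity)
      _ = (K1 * B2) * (1 + ρ) ^ (K1 + B2) * ‖x - y‖ + (K2 * B1) * (1 + ρ) ^ (K2 + B1) * ‖x - y‖ := by
          rw [pow_add, pow_add]; ring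
      _ ≤ (K1 * B2) * (1 + ρ) ^ N * ‖x - y‖ + (K2 * B1) * (1 + ρ) ^ N * ‖x - y‖ := by
          have h4 : (1 + ρ) ^ (K1 + B2) ≤ (1 + ρ) ^ N := pow_le_pow_right₀ h3 (by omega)
          have h5 : (1 + ρ) ^ (K2 + B1) ≤ (1 + ρ) ^ N := pow_le_pow_right₀ h3 (by omega)
          gcongr
      _ = (K1 * B2 + K2 * B1) * (1 + ρ) ^ N * ‖x - y‖ := by ring
      _ ≤ (N : ℝ) * (1 + ρ) ^ N * ‖x - y‖ := by
          have h6 : ((K1 : ℝ) * B2 + K2 * B1) ≤ (N : ℝ) := by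
            rw [hN]
            push_cast
            linarith [Nat.cast_nonneg (α := ℝ) K1, Nat.cast_nonneg (α := ℝ) K2,
              Nat.cast_nonneg (α := ℝ) B1, Nat.cast_nonneg (α := ℝ) B2]
          gcongr

end Vale.Agent.P188.H329
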