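import Vale.Agent.P188.H329.QAC

/-!
# P188, FILL block: quantitative absolute continuity, uniformly in parameters
-/

set_option linter.all false

namespace Vale.Agent.P188.H329

open MeasureTheory Set Polynomial

/-- Sublevel estimate in a ball, uniform version. -/
theorem sublevelU {X : Type*} [NormedAddCommGroup X] [NormedSpace ℝ X] [MeasurableSpace X]
    [BorelSpace X] [FiniteDimensional ℝ X] (μ : Measure X) [μ.IsAddHaarMeasure] (x0 : X) {ρ : ℝ}
    (hρ : 0 < ρ) (D : ℕ) : ∃ K : ℝ, 1 ≤ K ∧ ∀ g : X → ℝ, Continuous g →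
      (∀ a b : X, ∃ p : ℝ[X], p.natDegree ≤ D ∧ ∀ t : ℝ, g (a + t • b) = p.eval t) → g x0 = 1 →
      ∀ lam : ℝ, 0 < lam →
      μ (Metric.closedBall x0 ρ ∩ {y | |g y| ≤ K⁻¹ * lam ^ D}) ≤ ENNReal.ofReal (K * lam) := by
  set B := Metric.closedBall x0 ρ with hB
  have hBt : μ B ≠ ⊤ := measure_closedBall_lt_top.ne
  set c0 : ℝ := ((D : ℝ) + 1) * 2 ^ (D + 1) with hc0
  have hc0p : 0 < c0 := by positivity
  set b : ℝ := (μ B).toReal with hb
  set m := Module.finrank ℝ X with hm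
  set K : ℝ := max c0 (2 ^ m * (2 * (D + 1) * b) + 1) with hK
  have hKp : 0 < K := lt_of_lt_of_le hc0p (le_max_left _ _)
  have hK1 : 1 ≤ K := by
    refine le_trans ?_ (le_max_left _ _)
    rw [hc0]
    have : (1 : ℝ) ≤ 2 ^ (D + 1) := one_le_pow₀ (by norm_num)
    nlinarith [Nat.cast_nonneg (α := ℝ) D]
  refine ⟨K, hK1, fun g hgc hD h0 lam hlam => ?_⟩
  set η := lam ^ D / c0 with hη
  have hηK : K⁻¹ * lam ^ D ≤ η := by
    rw [hη, div_eq_inv_mul]
    gcongr
    exact le_max_left _ _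
  set V : Set (X × ℝ) := {q | q.1 ∈ B ∧ q.2 ∈ Icc (1 : ℝ) 2 ∧ |g (x0 + q.2 • (q.1 - x0))| ≤ η} with hV
  have hcont : Continuous fun q : X × ℝ => |g (x0 + q.2 • (q.1 - x0))| :=
    (hgc.comp (by fun_prop)).abs
  have hVm : MeasurableSet V := by
    refine MeasurableSet.inter ?_ (MeasurableSet.inter ?_ ?_)
    · exact measurable_fst Metric.isClosed_closedBall.measurableSet
    · exact measurable_snd measurableSet_Icc
    · exact (isClosed_le hcont continuous_const).measurableSet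
  have h1 : (μ.prod volume) V ≤ ENNReal.ofReal (2 * (D + 1) * lam) * μ B := by
    rw [Measure.prod_apply hVm]
    calc ∫⁻ x, volume (Prod.mk x ⁻¹' V) ∂μ ≤
          ∫⁻ x, B.indicator (fun _ => ENNReal.ofReal (2 * (D + 1) * lam)) x ∂μ := by
          refine lintegral_mono fun x => ?_
          by_cases hx : x ∈ B
          · rw [indicator_of_mem hx]
            obtain ⟨p, hp, hp2⟩ := hD x0 (x - x0)
            have h3 : p.eval 0 = 1 := by
              rw [← hp2, zero_smul, add_zero, h0]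
            refine (measure_mono ?_).trans (sublevel1 D hp h3 hlam)
            rintro t ⟨_, ht1, ht2⟩
            refine ⟨ht1, ?_⟩
            show |p.eval t| ≤ _
            rw [← hp2]
            exact ht2
          · rw [indicator_of_notMem hx]
            have : Prod.mk x ⁻¹' V = ∅ := by
              rw [eq_empty_iff_forall_notMem]
              intro t ht
              exact hx ht.1
            rw [this, measure_empty]
      _ = _ := by rw [lintegral_indicator_const Metric.isClosed_closedBall.measurableSet]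
  have h2 : ∃ t ∈ Icc (1 : ℝ) 2, μ {x | (x, t) ∈ V} ≤ ENNReal.ofReal (2 * (D + 1) * lam) * μ B := by
    rw [Measure.prod_apply_symm hVm] at h1
    have hme : Measurable fun t : ℝ => μ ((fun x => (x, t)) ⁻¹' V) :=
      measurable_measure_prodMk_right hVm
    obtain ⟨t, ht, ht2⟩ := exists_le_setLAverage (μ := (volume : Measure ℝ)) (s := Icc (1 : ℝ) 2)
      (f := fun t => μ ((fun x => (x, t)) ⁻¹' V)) (by simp) (by simp) hme.aemeasurable
    refine ⟨t, ht, ht2.trans ?_⟩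
    rw [setLAverage_eq]
    have h4 : volume (Icc (1 : ℝ) 2) = 1 := by
      rw [Real.volume_Icc]
      norm_num
    rw [h4, div_one]
    exact (setLIntegral_le_lintegral _ _).trans h1
  obtain ⟨t, ht, ht2⟩ := h2
  have ht0 : (0 : ℝ) < t := by linarith [ht.1]
  have h3 : B ∩ {y | |g y| ≤ K⁻¹ * lam ^ D} ⊆ AffineMap.homothety x0 t '' {x | (x, t) ∈ V} := by
    rintro y ⟨hy, hy2⟩
    have h5 : x0 + t • (x0 + t⁻¹ • (y - x0) - x0) = y := by
      rw [add_sub_cancel_left, smul_smul, mul_inv_cancel₀ ht0.ne', one_smul]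
      abel
    refine ⟨x0 + t⁻¹ • (y - x0), ⟨?_, ht, ?_⟩, ?_⟩
    · show x0 + t⁻¹ • (y - x0) ∈ B
      rw [hB, mem_closedBall_iff_norm, add_sub_cancel_left, norm_smul, Real.norm_eq_abs,
        abs_of_pos (by positivity)]
      rw [hB, mem_closedBall_iff_norm] at hy
      have h6 : t⁻¹ ≤ 1 := inv_le_one_of_one_le₀ ht.1
      nlinarith [norm_nonneg (y - x0)]
    · show |g (x0 + t • (x0 + t⁻¹ • (y - x0) - x0))| ≤ η
      rw [h5]
      exact le_trans hy2 hηK
    · rw [AffineMap.homothety_apply]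
      simp only [vsub_eq_sub, vadd_eq_add]
      rw [add_comm]
      exact h5
  refine (measure_mono h3).trans ?_
  rw [Measure.addHaar_image_homothety]
  calc ENNReal.ofReal |t ^ m| * μ {x | (x, t) ∈ V} ≤
        ENNReal.ofReal (2 ^ m) * (ENNReal.ofReal (2 * (D + 1) * lam) * μ B) := by
        refine mul_le_mul' (ENNReal.ofReal_le_ofReal ?_) ht2
        rw [abs_of_nonneg (by positivity)]
        exact pow_le_pow_left₀ ht0.le ht.2 _
    _ = ENNReal.ofReal (2 ^ m * (2 * (D + 1) * lam * b)) := by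
        have e1 : ENNReal.ofReal (2 ^ m * (2 * (D + 1) * lam * b)) =
            ENNReal.ofReal (2 ^ m) * ENNReal.ofReal (2 * (D + 1) * lam * b) :=
          ENNReal.ofReal_mul (by positivity)
        have e2 : ENNReal.ofReal (2 * (D + 1) * lam * b) =
            ENNReal.ofReal (2 * (D + 1) * lam) * ENNReal.ofReal b :=
          ENNReal.ofReal_mul (by positivity)
        have e3 : ENNReal.ofReal b = μ B := ENNReal.ofReal_toReal hBt
        rw [e1, e2, e3]
    _ ≤ ENNReal.ofReal (K * lam) := by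
        apply ENNReal.ofReal_le_ofReal
        have h7 : 2 ^ m * (2 * (D + 1) * b) + 1 ≤ K := le_max_right _ _
        nlinarith

/-- Quantitative absolute continuity, uniform version. -/
theorem qacU {X : Type} [NormedAddCommGroup X] [NormedSpace ℝ X] [MeasurableSpace X]
    [BorelSpace X] [FiniteDimensional ℝ X] (μ : Measure X) [μ.IsAddHaarMeasure]
    {β : Type} [Fintype β] [DecidableEq β] (L : (β → ℝ) →L[ℝ] X) (x0 : X) {Q : Set X}
    (hQ : Bornology.IsBounded Q) (D : ℕ) (KG : ℝ → ℝ) (hKG0 : ∀ ρ, 0 ≤ KG ρ) :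
    ∃ K : ℕ, 1 ≤ K ∧ ∀ Ψ : X → (β → ℝ), (∀ w, (fun x => Ψ x w) ∈ Po X) →
      (∀ s, Ψ (x0 + L s) = s) →
      (∀ a b : X, ∃ p : ℝ[X], p.natDegree ≤ D ∧
        ∀ t : ℝ, (mat Ψ L fun _ => a + t • b).det = p.eval t) →
      (∀ ρ : ℝ, 0 ≤ ρ → ∀ ξ ξ' : β → X, ‖ξ‖ ≤ ρ → ‖ξ'‖ ≤ ρ →
        |(mat Ψ L ξ).det - (mat Ψ L ξ').det| ≤ KG ρ * ‖ξ - ξ'‖) →
      ∀ ε : ℝ, 0 < ε → ε ≤ 1 → ∀ X0 ⊆ Q,
      MeasurableSet X0 → ENNReal.ofReal ε ≤ μ X0 →
        ENNReal.ofReal ((ε / K) ^ K) ≤ volume (Ψ '' X0) := by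
  obtain ⟨ρ0, hρ0, hQρ⟩ : ∃ ρ0 : ℝ, 0 < ρ0 ∧ Q ⊆ Metric.closedBall x0 ρ0 := by
    obtain ⟨R, hR⟩ := hQ.subset_closedBall x0
    exact ⟨max R 1, by positivity, hR.trans (Metric.closedBall_subset_closedBall (le_max_left _ _))⟩
  obtain ⟨K1, hK1, hsubU⟩ := sublevelU μ x0 hρ0 D
  set R1 : ℝ := ‖x0‖ + ρ0 + 2 with hR1
  have hR1p : 0 ≤ R1 := by positivity
  set KL : ℝ := KG R1 + 1 with hKL
  have hKLp : 1 ≤ KL := by
    have : 0 ≤ KG R1 := hKG0 _
    linarith
  set B' : Set X := Metric.closedBall x0 (ρ0 + 1) with hB'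
  have hB't : μ B' ≠ ⊤ := measure_closedBall_lt_top.ne
  have hB'0 : μ B' ≠ 0 := (Metric.measure_closedBall_pos μ x0 (by linarith)).ne'
  set b : ℝ := (μ B').toReal with hb
  have hbp : 0 < b := ENNReal.toReal_pos hB'0 hB't
  set d := Fintype.card β with hd
  -- the constants
  set c1 : ℝ := K1⁻¹ * (1 / (2 * K1)) ^ D with hc1
  have hK1p : 0 < K1 := by linarith
  have hc1p : 0 < c1 := by positivity
  set c2 : ℝ := c1 / (4 * KL) / (‖L‖ + 1) with hc2
  have hLp : 0 < ‖L‖ + 1 := by linarith [norm_nonneg L]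
  have hKLp0 : 0 < KL := by linarith
  have hc2p : 0 < c2 := by positivity
  obtain ⟨K, hK, hKε⟩ := pow_aux (c := c1 * (2 * c2) ^ d * (1 / 2) / b) (by positivity) (D + D * d + 1)
  refine ⟨K, hK, fun Ψ hΨ hs hline hKG ε hε hε1 X0 hX0Q hX0m hX0ε => ?_⟩
  set g : X → ℝ := fun x => (mat Ψ L fun _ => x).det with hg
  have hgPo : g ∈ Po X := gg_mem L hΨ
  have hgc : Continuous g := Po.continuous hgPo
  have hg0 : g x0 = 1 := gg_x0 L hΨ hs
  have hsub := hsubU g hgc hline hg0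
  refine (ENNReal.ofReal_le_ofReal (hKε ε hε hε1)).trans ?_
  set η : ℝ := c1 * ε ^ D with hη
  have hηp : 0 < η := by positivity
  set lam : ℝ := ε / (2 * K1) with hlam
  have hlamp : 0 < lam := by positivity
  have hηlam : η = K1⁻¹ * lam ^ D := by
    rw [hη, hc1, hlam, div_pow, div_pow]
    ring
  have hη1 : η ≤ 1 := by
    rw [hηlam]
    have h1 : K1⁻¹ ≤ 1 := inv_le_one_of_one_le₀ hK1
    have h2 : lam ≤ 1 := by
      rw [hlam, div_le_one (by positivity)]
      linarith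
    have h3 : lam ^ D ≤ 1 := pow_le_one₀ hlamp.le h2
    have h4 : 0 ≤ lam ^ D := by positivity
    calc K1⁻¹ * lam ^ D ≤ 1 * 1 := mul_le_mul h1 h3 h4 (by norm_num)
      _ = 1 := by norm_num
  set ρ : ℝ := η / (4 * KL) with hρ
  have hρp : 0 < ρ := by positivity
  have hρ1 : ρ ≤ 1 := by
    rw [hρ, div_le_one (by positivity)]
    linarith
  set ρ' : ℝ := ρ / (‖L‖ + 1) with hρ'
  have hρ'p : 0 < ρ' := by positivity
  have hLρ : ∀ v : β → ℝ, ‖v‖ ≤ ρ' → ‖L v‖ ≤ ρ := by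
    intro v hv
    calc ‖L v‖ ≤ ‖L‖ * ‖v‖ := L.le_opNorm v
      _ ≤ (‖L‖ + 1) * ρ' := by
          refine mul_le_mul (by linarith) hv (norm_nonneg _) (by linarith)
      _ = ρ := by rw [hρ']; field_simp
  -- the good part of `X0`
  set X' : Set X := X0 ∩ {x | η < |g x|} with hX'
  have hX'm : MeasurableSet X' := hX0m.inter (isOpen_lt continuous_const hgc.abs).measurableSet
  have hX'ε : ENNReal.ofReal (ε / 2) ≤ μ X' := by
    have h1 : X0 ⊆ X' ∪ (Metric.closedBall x0 ρ0 ∩ {y | |g y| ≤ K1⁻¹ * lam ^ D}) := by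
      intro x hx
      by_cases h2 : η < |g x|
      · exact Or.inl ⟨hx, h2⟩
      · refine Or.inr ⟨hQρ (hX0Q hx), ?_⟩
        rw [← hηlam]
        exact not_lt.1 h2
    have h2 := hX0ε.trans ((measure_mono h1).trans ((measure_union_le _ _).trans
      (add_le_add le_rfl (hsub lam hlamp))))
    have h3 : K1 * lam = ε / 2 := by
      rw [hlam]
      field_simp
    have h4 : ENNReal.ofReal ε = ENNReal.ofReal (ε / 2) + ENNReal.ofReal (ε / 2) := by
      rw [← ENNReal.ofReal_add (by positivity) (by positivity)]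
      congr 1
      ring
    rw [h3, h4] at h2
    exact (ENNReal.add_le_add_iff_right ENNReal.ofReal_ne_top).1 h2
  -- Fubini
  set W : Set (X × (β → ℝ)) := {q | q.2 ∈ Metric.closedBall 0 ρ' ∧ q.1 + L q.2 ∈ X'} with hW
  have hWm : MeasurableSet W := by
    refine (measurable_snd Metric.isClosed_closedBall.measurableSet).inter ?_
    have hc : Continuous fun q : X × (β → ℝ) => q.1 + L q.2 := by fun_prop
    exact hc.measurable hX'm
  have hW1 : (μ.prod volume) W = volume (Metric.closedBall (0 : β → ℝ) ρ') * μ X' := by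
    rw [Measure.prod_apply_symm hWm]
    have h1 : ∀ v : β → ℝ, μ ((fun y => (y, v)) ⁻¹' W) =
        (Metric.closedBall (0 : β → ℝ) ρ').indicator (fun _ => μ X') v := by
      intro v
      by_cases hv : v ∈ Metric.closedBall (0 : β → ℝ) ρ'
      · rw [indicator_of_mem hv]
        have h2 : (fun y => (y, v)) ⁻¹' W = (fun y => y + L v) ⁻¹' X' := by
          ext y
          exact ⟨fun h => h.2, fun h => ⟨hv, h⟩⟩
        rw [h2, measure_preimage_add_right]
      · rw [indicator_of_notMem hv]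
        have : (fun y => (y, v)) ⁻¹' W = ∅ := by
          rw [eq_empty_iff_forall_notMem]
          intro y hy
          exact hv hy.1
        rw [this, measure_empty]
    simp_rw [h1]
    rw [lintegral_indicator_const Metric.isClosed_closedBall.measurableSet, mul_comm]
  have hsupp : ∀ y, y ∉ B' → Prod.mk y ⁻¹' W = ∅ := by
    intro y hy
    rw [eq_empty_iff_forall_notMem]
    rintro v ⟨hv, hv2⟩
    apply hy
    have h1 := hQρ (hX0Q hv2.1)
    rw [mem_closedBall_zero_iff] at hv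
    rw [hB', mem_closedBall_iff_norm]
    rw [mem_closedBall_iff_norm] at h1
    calc ‖y - x0‖ = ‖(y + L v - x0) - L v‖ := by congr 1; abel
      _ ≤ ‖y + L v - x0‖ + ‖L v‖ := norm_sub_le _ _
      _ ≤ ρ0 + 1 := add_le_add h1 ((hLρ v hv).trans hρ1)
  have hfin : volume (Metric.closedBall (0 : β → ℝ) ρ') ≠ ⊤ := measure_closedBall_lt_top.ne
  have hX't : μ X' ≠ ⊤ := (lt_of_le_of_lt (measure_mono (inter_subset_left.trans (hX0Q.trans hQρ)))
    measure_closedBall_lt_top).ne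
  obtain ⟨y, hy⟩ : ∃ y, volume (Metric.closedBall (0 : β → ℝ) ρ') * μ X' / μ B' ≤
      volume (Prod.mk y ⁻¹' W) := by
    have h1 : ∫⁻ y in B', volume (Prod.mk y ⁻¹' W) ∂μ =
        volume (Metric.closedBall (0 : β → ℝ) ρ') * μ X' := by
      rw [← hW1, Measure.prod_apply hWm]
      rw [← lintegral_indicator Metric.isClosed_closedBall.measurableSet]
      refine lintegral_congr fun y => ?_
      by_cases hy : y ∈ B'
      · rw [indicator_of_mem hy]
      · rw [indicator_of_notMem hy, hsupp y hy, measure_empty]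
    have hmeasB : MeasurableSet B' := Metric.isClosed_closedBall.measurableSet
    obtain ⟨y, _, hy⟩ := exists_setLAverage_le (μ := μ) (s := B')
      (f := fun y => volume (Prod.mk y ⁻¹' W)) hB'0
      hmeasB.nullMeasurableSet
      (by rw [h1]; exact ENNReal.mul_ne_top hfin hX't)
    refine ⟨y, ?_⟩
    rw [setLAverage_eq, h1] at hy
    exact hy
  set V : Set (β → ℝ) := Prod.mk y ⁻¹' W with hV
  have hVm : MeasurableSet V := measurable_prodMk_left hWm
  have hVsub : V ⊆ Metric.closedBall 0 ρ' := fun v hv => hv.1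
  have hVlow : ENNReal.ofReal ((2 * ρ') ^ d * (ε / 2) / b) ≤ volume V := by
    refine le_trans ?_ hy
    rw [Real.volume_pi_closedBall _ hρ'p.le]
    rw [ENNReal.ofReal_div_of_pos hbp, ENNReal.ofReal_mul (by positivity)]
    have h1 : ENNReal.ofReal b = μ B' := ENNReal.ofReal_toReal hB't
    rw [h1]
    gcongr
  have hVne : V.Nonempty := by
    rw [nonempty_iff_ne_empty]
    intro h1
    rw [h1, measure_empty] at hVlow
    have h2 : 0 < (2 * ρ') ^ d * (ε / 2) / b := by positivity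
    exact absurd hVlow (not_le.2 (ENNReal.ofReal_pos.2 h2))
  obtain ⟨v1, hv1, hv1X⟩ := hVne
  have hinj : InjOn (fun v => Ψ (y + L v)) (Metric.closedBall 0 ρ') := by
    refine inj_ball L hΨ y (v1 := v1) (ρ := ρ) ?_ hLρ (by rwa [mem_closedBall_zero_iff] at hv1)
    intro ξ hξ hdet
    have hx1 : ‖y + L v1 - x0‖ ≤ ρ0 := by
      have := hQρ (hX0Q hv1X.1)
      rwa [mem_closedBall_iff_norm] at this
    have hx2 : ‖y + L v1‖ ≤ R1 := by
      calc ‖y + L v1‖ = ‖(y + L v1 - x0) + x0‖ := by congr 1; abel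
        _ ≤ ‖y + L v1 - x0‖ + ‖x0‖ := norm_add_le _ _
        _ ≤ R1 := by rw [hR1]; linarith
    have h1 : ‖fun _ : β => y + L v1‖ ≤ R1 := (pi_norm_le_iff_of_nonneg hR1p).2 fun _ => hx2
    have h2 : ‖ξ‖ ≤ R1 := by
      rw [pi_norm_le_iff_of_nonneg hR1p]
      intro i
      calc ‖ξ i‖ = ‖(ξ i - (y + L v1)) + ((y + L v1 - x0) + x0)‖ := by congr 1; abel
        _ ≤ ‖ξ i - (y + L v1)‖ + ‖(y + L v1 - x0) + x0‖ := norm_add_le _ _
        _ ≤ 2 * ρ + (ρ0 + ‖x0‖) := add_le_add (hξ i) ((norm_add_le _ _).trans (by linarith))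
        _ ≤ R1 := by rw [hR1]; linarith
    have h3 := hKG R1 hR1p ξ (fun _ => y + L v1) h2 h1
    have h4 : ‖ξ - fun _ => y + L v1‖ ≤ 2 * ρ := by
      rw [pi_norm_le_iff_of_nonneg (by positivity)]
      exact hξ
    simp only [hdet, zero_sub, abs_neg] at h3
    have h5 : |g (y + L v1)| ≤ η / 2 := by
      calc |g (y + L v1)| ≤ KG R1 * ‖ξ - fun _ => y + L v1‖ := h3
        _ ≤ KL * (2 * ρ) := by
            refine mul_le_mul (by rw [hKL]; linarith) h4 (norm_nonneg _) hKLp0.le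
        _ = η / 2 := by
            rw [hρ]
            field_simp
            norm_num
    have h6 : η < |g (y + L v1)| := hv1X.2
    linarith
  have harea := lintegral_abs_det_fderiv_eq_addHaar_image (μ := (volume : Measure (β → ℝ)))
    (s := V) (f := fun v => Ψ (y + L v)) (f' := fun v => ContinuousLinearMap.pi fun i =>
      (fderiv ℝ (fun x => Ψ x i) (y + L v)).comp L) hVm
    (fun v _ => (hasFDerivAt_h L hΨ y v).hasFDerivWithinAt) (hinj.mono hVsub)
  have hlow : ENNReal.ofReal η * volume V ≤ volume ((fun v => Ψ (y + L v)) '' V) := by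
    rw [← harea, ← setLIntegral_const]
    refine setLIntegral_mono' hVm fun v hv => ENNReal.ofReal_le_ofReal ?_
    rw [det_h L y v]
    exact le_of_lt hv.2.2
  have hsubset : (fun v => Ψ (y + L v)) '' V ⊆ Ψ '' X0 := by
    rintro _ ⟨v, hv, rfl⟩
    exact ⟨y + L v, hv.2.1, rfl⟩
  refine le_trans ?_ (hlow.trans (measure_mono hsubset))
  refine le_trans ?_ (mul_le_mul' le_rfl hVlow)
  rw [← ENNReal.ofReal_mul hηp.le]
  apply ENNReal.ofReal_le_ofReal
  have e1 : ρ' = c2 * ε ^ D := by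
    rw [hρ', hρ, hη, hc2]
    ring
  rw [e1, hη]
  have e2 : c1 * (2 * c2) ^ d * (1 / 2) / b * ε ^ (D + D * d + 1) =
      c1 * ε ^ D * ((2 * (c2 * ε ^ D)) ^ d * (ε / 2) / b) := by
    rw [← mul_assoc 2 c2, mul_pow (2 * c2) (ε ^ D), ← pow_mul, pow_add, pow_add]
    ring
  rw [e2]


/-- Quantitative absolute continuity for polynomial families. -/
theorem qacP {Y X : Type} [NormedAddCommGroup Y] [NormedSpace ℝ Y] [NormedAddCommGroup X]
    [NormedSpace ℝ X] [MeasurableSpace X]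
    [BorelSpace X] [FiniteDimensional ℝ X] (μ : Measure X) [μ.IsAddHaarMeasure]
    {β : Type} [Fintype β] {Ψ : Y × X → (β → ℝ)} (hΨ : ∀ w, (fun x => Ψ x w) ∈ Po (Y × X))
    (L : (β → ℝ) →L[ℝ] X) (x0 : X) (hs : ∀ y s, Ψ (y, x0 + L s) = s) {Q : Set X}
    (hQ : Bornology.IsBounded Q) (RY : ℝ) (hRY : 0 ≤ RY) : ∃ K : ℕ, 1 ≤ K ∧ ∀ y : Y, ‖y‖ ≤ RY →
      ∀ ε : ℝ, 0 < ε → ε ≤ 1 → ∀ X0 ⊆ Q,
      MeasurableSet X0 → ENNReal.ofReal ε ≤ μ X0 →
        ENNReal.ofReal ((ε / K) ^ K) ≤ volume ((fun x => Ψ (y, x)) '' X0) := by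
  classical
  set L' : (β → ℝ) →L[ℝ] Y × X := (ContinuousLinearMap.inr ℝ Y X).comp L with hL'
  have hmat : ∀ (y : Y) (ξ : β → X), mat (fun x => Ψ (y, x)) L ξ = mat Ψ L' fun i => (y, ξ i) := by
    intro y ξ
    ext i j
    show fderiv ℝ (fun x => Ψ (y, x) i) (ξ i) (L (Pi.single j 1)) =
      fderiv ℝ (fun q => Ψ q i) (y, ξ i) (L' (Pi.single j 1))
    have h1 : HasFDerivAt (fun q => Ψ q i) (fderiv ℝ (fun q => Ψ q i) (y, ξ i)) (y, ξ i) :=
      (Po.differentiable (hΨ i) _).hasFDerivAt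
    have h2 : HasFDerivAt (fun x : X => (y, x)) (ContinuousLinearMap.inr ℝ Y X) (ξ i) :=
      hasFDerivAt_prodMk_right y (ξ i)
    have h3 := h1.comp (ξ i) h2
    have h4 := h3.fderiv
    have h5 : (fun q => Ψ q i) ∘ (fun x : X => (y, x)) = fun x => Ψ (y, x) i := rfl
    rw [h5] at h4
    rw [h4]
    rfl
  obtain ⟨D, hD⟩ := Po.line (gg_mem L' hΨ)
  obtain ⟨KG, hKG⟩ := Po.lip (det_mat_mem L' hΨ)
  obtain ⟨K, hK, h⟩ := qacU μ L x0 hQ D (fun ρ => KG * (1 + (|ρ| + RY)) ^ KG) fun ρ => by positivity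
  refine ⟨K, hK, fun y hy => h (fun x => Ψ (y, x)) ?_ (hs y) ?_ ?_⟩
  · intro w
    refine Po.comp (f := fun q => Ψ q w) (g := fun x : X => (y, x)) (hΨ w) fun φ => ?_
    have h1 : (fun x : X => φ (y, x)) = fun x => φ (y, 0) + φ.comp (ContinuousLinearMap.inr ℝ Y X) x := by
      funext x
      rw [ContinuousLinearMap.comp_apply, ContinuousLinearMap.inr_apply, ← map_add]
      simp
    rw [h1]
    exact Po.add (Po.const _) (Po.lin _)
  · intro a b
    obtain ⟨p, hp, hp2⟩ := hD (y, a) (0, b)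
    refine ⟨p, hp, fun t => ?_⟩
    rw [hmat, ← hp2]
    simp
  · intro ρ hρ ξ ξ' hξ hξ'
    rw [hmat, hmat]
    have h1 : ∀ ζ : β → X, ‖ζ‖ ≤ ρ → ‖fun i => ((y, ζ i) : Y × X)‖ ≤ ρ + RY := by
      intro ζ hζ
      rw [pi_norm_le_iff_of_nonneg (by positivity)]
      intro i
      rw [Prod.norm_def]
      refine max_le (by linarith) ?_
      exact ((norm_le_pi_norm ζ i).trans hζ).trans (by linarith)
    have h2 := hKG (ρ + RY) (by positivity) _ _ (h1 ξ hξ) (h1 ξ' hξ')
    refine h2.trans ?_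
    rw [abs_of_nonneg hρ]
    gcongr
    rw [pi_norm_le_iff_of_nonneg (norm_nonneg _)]
    intro i
    show ‖((y, ξ i) : Y × X) - (y, ξ' i)‖ ≤ _
    rw [Prod.mk_sub_mk, sub_self, Prod.norm_def]
    refine max_le ?_ ?_
    · show ‖(0 : Y)‖ ≤ _
      rw [norm_zero]
      exact norm_nonneg _
    · exact norm_le_pi_norm (ξ - ξ') i

end Vale.Agent.P188.H329
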