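import Vale.Agent.P188.H329.Poly
import Mathlib.LinearAlgebra.Lagrange
import Mathlib.MeasureTheory.Measure.Lebesgue.EqHaar
import Mathlib.MeasureTheory.Integral.Average

/-!
# P188, FILL block, part 13: sublevel estimates for polynomials
-/

set_option linter.all false

namespace Vale.Agent.P188.H329

open MeasureTheory Set Polynomial

theorem exists_separated {E : Set ℝ} {δ : ℝ} (hδ : 0 < δ) (n : ℕ)
    (hm : ENNReal.ofReal (2 * n * δ) < volume E) (k : ℕ) (hk : k ≤ n + 1) :
    ∃ s : Finset ℝ, s.card = k ∧ (∀ x ∈ s, x ∈ E) ∧ ∀ x ∈ s, ∀ y ∈ s, x ≠ y → δ ≤ |x - y| := by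
  classical
  induction k with
  | zero => exact ⟨∅, rfl, by simp, by simp⟩
  | succ k ih =>
    obtain ⟨s, hs, h1, h2⟩ := ih (by omega)
    have hU : volume (⋃ x ∈ s, Ioo (x - δ) (x + δ)) ≤ ENNReal.ofReal (2 * n * δ) := by
      calc volume (⋃ x ∈ s, Ioo (x - δ) (x + δ)) ≤ ∑ x ∈ s, volume (Ioo (x - δ) (x + δ)) :=
            measure_biUnion_finset_le _ _
        _ = ∑ _x ∈ s, ENNReal.ofReal (2 * δ) := by
            refine Finset.sum_congr rfl fun x _ => ?_
            rw [Real.volume_Ioo]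
            congr 1
            ring
        _ = ENNReal.ofReal (k * (2 * δ)) := by
            have e1 : ENNReal.ofReal ((k : ℝ) * (2 * δ)) =
                ENNReal.ofReal (k : ℝ) * ENNReal.ofReal (2 * δ) :=
              ENNReal.ofReal_mul (Nat.cast_nonneg k)
            rw [Finset.sum_const, hs, nsmul_eq_mul, e1, ENNReal.ofReal_natCast]
        _ ≤ _ := by
            apply ENNReal.ofReal_le_ofReal
            have : (k : ℝ) ≤ n := by exact_mod_cast (by omega : k ≤ n)
            nlinarith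
    have hne : ¬ E ⊆ ⋃ x ∈ s, Ioo (x - δ) (x + δ) := fun h =>
      absurd (lt_of_lt_of_le hm (measure_mono h)) (not_lt.2 hU)
    rw [not_subset] at hne
    obtain ⟨t, htE, ht⟩ := hne
    have ht2 : ∀ x ∈ s, δ ≤ |t - x| := by
      intro x hx
      by_contra h3
      rw [not_le, abs_lt] at h3
      apply ht
      rw [mem_iUnion₂]
      exact ⟨x, hx, by linarith [h3.1], by linarith [h3.2]⟩
    have hts : t ∉ s := by
      intro h3
      have := ht2 t h3
      rw [sub_self, abs_zero] at this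
      linarith
    refine ⟨insert t s, by rw [Finset.card_insert_of_notMem hts, hs], ?_, ?_⟩
    · intro x hx
      rcases Finset.mem_insert.1 hx with rfl | hx
      · exact htE
      · exact h1 x hx
    · intro x hx y hy hxy
      rcases Finset.mem_insert.1 hx with hx | hx
      · rcases Finset.mem_insert.1 hy with hy | hy
        · exact absurd (hx.trans hy.symm) hxy
        · rw [hx]
          exact ht2 y hy
      · rcases Finset.mem_insert.1 hy with hy | hy
        · rw [hy, abs_sub_comm]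
          exact ht2 x hx
        · exact h2 x hx y hy hxy

/-- One-dimensional sublevel estimate. -/
theorem sublevel1 (D : ℕ) {p : ℝ[X]} (hp : p.natDegree ≤ D) (h0 : p.eval 0 = 1) {lam : ℝ}
    (hlam : 0 < lam) :
    volume (Icc (1 : ℝ) 2 ∩ {t | |p.eval t| ≤ lam ^ D / ((D + 1) * 2 ^ (D + 1))}) ≤
      ENNReal.ofReal (2 * (D + 1) * lam) := by
  classical
  set η := lam ^ D / ((D + 1) * 2 ^ (D + 1)) with hη
  by_contra hlt
  rw [not_le] at hlt
  obtain ⟨s, hs, h1, h2⟩ := exists_separated hlam (D + 1) (by push_cast; exact hlt) (D + 1) (by omega)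
  have hdeg : p.degree < s.card := by
    rw [hs]
    exact lt_of_le_of_lt degree_le_natDegree (by exact_mod_cast Nat.lt_succ_of_le hp)
  have h3 := Lagrange.eq_interpolate (s := s) (v := id) (f := p) (fun x _ y _ h => h) hdeg
  have h4 : p.eval 0 = ∑ x ∈ s, p.eval x * ∏ y ∈ s.erase x, ((x - y)⁻¹ * (0 - y)) := by
    conv_lhs => rw [h3]
    rw [Lagrange.interpolate_apply, eval_finset_sum]
    refine Finset.sum_congr rfl fun x _ => ?_
    rw [eval_mul, eval_C]
    congr 1
    unfold Lagrange.basis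
    rw [eval_prod]
    refine Finset.prod_congr rfl fun y _ => ?_
    simp [Lagrange.basisDivisor]
  have h5 : |p.eval 0| ≤ ∑ _x ∈ s, η * (2 / lam) ^ D := by
    rw [h4]
    refine (Finset.abs_sum_le_sum_abs _ _).trans (Finset.sum_le_sum fun x hx => ?_)
    rw [abs_mul, Finset.abs_prod]
    have hx1 := h1 x hx
    refine mul_le_mul hx1.2 ?_ (Finset.prod_nonneg fun _ _ => abs_nonneg _) (by positivity)
    calc ∏ y ∈ s.erase x, |(x - y)⁻¹ * (0 - y)| ≤ ∏ _y ∈ s.erase x, (2 / lam) := by
          refine Finset.prod_le_prod (fun _ _ => abs_nonneg _) fun y hy => ?_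
          rw [Finset.mem_erase] at hy
          have hy1 := h1 y hy.2
          have hy2 := h2 x hx y hy.2 hy.1.symm
          rw [abs_mul, abs_inv, zero_sub, abs_neg, abs_of_nonneg (by linarith [hy1.1.1] : (0 : ℝ) ≤ y),
            div_eq_inv_mul]
          have : |x - y|⁻¹ ≤ lam⁻¹ := inv_anti₀ hlam hy2
          exact mul_le_mul this hy1.1.2 (by linarith [hy1.1.1]) (by positivity)
      _ = (2 / lam) ^ D := by
          rw [Finset.prod_const, Finset.card_erase_of_mem hx, hs, Nat.add_sub_cancel]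
  rw [h0, Finset.sum_const, hs, nsmul_eq_mul, abs_one, hη, div_pow] at h5
  have h6 : ((D + 1 : ℕ) : ℝ) * (lam ^ D / ((D + 1) * 2 ^ (D + 1)) * (2 ^ D / lam ^ D)) = 1 / 2 := by
    push_cast
    have : lam ^ D ≠ 0 := by positivity
    have h7 : ((D : ℝ) + 1) ≠ 0 := by positivity
    rw [pow_succ]
    field_simp
  rw [h6] at h5
  norm_num at h5

/-- Sublevel estimate in a ball. -/
theorem Po.sublevel {X : Type*} [NormedAddCommGroup X] [NormedSpace ℝ X] [MeasurableSpace X]
    [BorelSpace X] [FiniteDimensional ℝ X] (μ : Measure X) [μ.IsAddHaarMeasure] {g : X → ℝ}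
    (hg : g ∈ Po X) {x0 : X} (h0 : g x0 = 1) {ρ : ℝ} (hρ : 0 < ρ) :
    ∃ (D : ℕ) (K : ℝ), 1 ≤ K ∧ ∀ lam : ℝ, 0 < lam →
      μ (Metric.closedBall x0 ρ ∩ {y | |g y| ≤ K⁻¹ * lam ^ D}) ≤ ENNReal.ofReal (K * lam) := by
  obtain ⟨D, hD⟩ := Po.line hg
  have hgc := Po.continuous hg
  set B := Metric.closedBall x0 ρ with hB
  have hBt : μ B ≠ ⊤ := measure_closedBall_lt_top.ne
  set c0 : ℝ := ((D : ℝ) + 1) * 2 ^ (D + 1) with hc0
  have hc0p : 0 < c0 := by positivity
  set b : ℝ := (μ B).toReal with hb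
  set m := Module.finrank ℝ X with hm
  set K : ℝ := max c0 (2 ^ m * (2 * (D + 1) * b) + 1) with hK
  have hKp : 0 < K := lt_of_lt_of_le hc0p (le_max_left _ _)
  have hK1 : 1 ≤ K := by
    refine le_trans ?_ (le_max_left _ _)
    rw [hc0]
    have : (1 : ℝ) ≤ 2 ^ (D + 1) := one_le_pow₀ (by norm_num)
    nlinarith [Nat.cast_nonneg (α := ℝ) D]
  refine ⟨D, K, hK1, fun lam hlam => ?_⟩
  set η := lam ^ D / c0 with hη
  have hηK : K⁻¹ * lam ^ D ≤ η := by
    rw [hη, div_eq_inv_mul]
    gcongr
    exact le_max_left _ _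
  set V : Set (X × ℝ) := {q | q.1 ∈ B ∧ q.2 ∈ Icc (1 : ℝ) 2 ∧ |g (x0 + q.2 • (q.1 - x0))| ≤ η} with hV
  have hcont : Continuous fun q : X × ℝ => |g (x0 + q.2 • (q.1 - x0))| :=
    (hgc.comp (by fun_prop)).abs
  have hVm : MeasurableSet V := by
    refine MeasurableSet.inter ?_ (MeasurableSet.inter ?_ ?_)
    · exact measurable_fst Metric.isClosed_closedBall.measurableSet
    · exact measurable_snd measurableSet_Icc
    · exact (isClosed_le hcont continuous_const).measurableSet
  have h1 : (μ.prod volume) V ≤ ENNReal.ofReal (2 * (D + 1) * lam) * μ B := by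
    rw [Measure.prod_apply hVm]
    calc ∫⁻ x, volume (Prod.mk x ⁻¹' V) ∂μ ≤
          ∫⁻ x, B.indicator (fun _ => ENNReal.ofReal (2 * (D + 1) * lam)) x ∂μ := by
          refine lintegral_mono fun x => ?_
          by_cases hx : x ∈ B
          · rw [indicator_of_mem hx]
            obtain ⟨p, hp, hp2⟩ := hD x0 (x - x0)
            have h3 : p.eval 0 = 1 := by
              rw [← hp2, zero_smul, add_zero, h0]
            refine (measure_mono ?_).trans (sublevel1 D hp h3 hlam)
            rintro t ⟨_, ht1, ht2⟩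
            refine ⟨ht1, ?_⟩
            show |p.eval t| ≤ _
            rw [← hp2]
            exact ht2
          · rw [indicator_of_notMem hx]
            have : Prod.mk x ⁻¹' V = ∅ := by
              rw [eq_empty_iff_forall_notMem]
              intro t ht
              exact hx ht.1
            rw [this, measure_empty]
      _ = _ := by rw [lintegral_indicator_const Metric.isClosed_closedBall.measurableSet]
  have h2 : ∃ t ∈ Icc (1 : ℝ) 2, μ {x | (x, t) ∈ V} ≤ ENNReal.ofReal (2 * (D + 1) * lam) * μ B := by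
    rw [Measure.prod_apply_symm hVm] at h1
    have hme : Measurable fun t : ℝ => μ ((fun x => (x, t)) ⁻¹' V) :=
      measurable_measure_prodMk_right hVm
    obtain ⟨t, ht, ht2⟩ := exists_le_setLAverage (μ := (volume : Measure ℝ)) (s := Icc (1 : ℝ) 2)
      (f := fun t => μ ((fun x => (x, t)) ⁻¹' V)) (by simp) (by simp) hme.aemeasurable
    refine ⟨t, ht, ht2.trans ?_⟩
    rw [setLAverage_eq]
    have h4 : volume (Icc (1 : ℝ) 2) = 1 := by
      rw [Real.volume_Icc]
      norm_num
    rw [h4, div_one]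
    exact (setLIntegral_le_lintegral _ _).trans h1
  obtain ⟨t, ht, ht2⟩ := h2
  have ht0 : (0 : ℝ) < t := by linarith [ht.1]
  have h3 : B ∩ {y | |g y| ≤ K⁻¹ * lam ^ D} ⊆ AffineMap.homothety x0 t '' {x | (x, t) ∈ V} := by
    rintro y ⟨hy, hy2⟩
    have h5 : x0 + t • (x0 + t⁻¹ • (y - x0) - x0) = y := by
      rw [add_sub_cancel_left, smul_smul, mul_inv_cancel₀ ht0.ne', one_smul]
      abel
    refine ⟨x0 + t⁻¹ • (y - x0), ⟨?_, ht, ?_⟩, ?_⟩
    · show x0 + t⁻¹ • (y - x0) ∈ B
      rw [hB, mem_closedBall_iff_norm, add_sub_cancel_left, norm_smul, Real.norm_eq_abs,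
        abs_of_pos (by positivity)]
      rw [hB, mem_closedBall_iff_norm] at hy
      have h6 : t⁻¹ ≤ 1 := inv_le_one_of_one_le₀ ht.1
      nlinarith [norm_nonneg (y - x0)]
    · show |g (x0 + t • (x0 + t⁻¹ • (y - x0) - x0))| ≤ η
      rw [h5]
      exact le_trans hy2 hηK
    · rw [AffineMap.homothety_apply]
      simp only [vsub_eq_sub, vadd_eq_add]
      rw [add_comm]
      exact h5
  refine (measure_mono h3).trans ?_
  rw [Measure.addHaar_image_homothety]
  calc ENNReal.ofReal |t ^ m| * μ {x | (x, t) ∈ V} ≤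
        ENNReal.ofReal (2 ^ m) * (ENNReal.ofReal (2 * (D + 1) * lam) * μ B) := by
        refine mul_le_mul' (ENNReal.ofReal_le_ofReal ?_) ht2
        rw [abs_of_nonneg (by positivity)]
        exact pow_le_pow_left₀ ht0.le ht.2 _
    _ = ENNReal.ofReal (2 ^ m * (2 * (D + 1) * lam * b)) := by
        have e1 : ENNReal.ofReal (2 ^ m * (2 * (D + 1) * lam * b)) =
            ENNReal.ofReal (2 ^ m) * ENNReal.ofReal (2 * (D + 1) * lam * b) :=
          ENNReal.ofReal_mul (by positivity)
        have e2 : ENNReal.ofReal (2 * (D + 1) * lam * b) =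
            ENNReal.ofReal (2 * (D + 1) * lam) * ENNReal.ofReal b :=
          ENNReal.ofReal_mul (by positivity)
        have e3 : ENNReal.ofReal b = μ B := ENNReal.ofReal_toReal hBt
        rw [e1, e2, e3]
    _ ≤ ENNReal.ofReal (K * lam) := by
        apply ENNReal.ofReal_le_ofReal
        have h7 : 2 ^ m * (2 * (D + 1) * b) + 1 ≤ K := le_max_right _ _
        nlinarith

end Vale.Agent.P188.H329
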