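import Vale.Agent.P188.H329.AcS

/-!
# P188, FILL block: general random words

The comparison of the law of a random word with an invariant measure, for every word which contains
the universal word as a subsequence.
-/

set_option linter.all false

namespace Vale.Agent.P188.H329

open Polynomial Set MeasureTheory

theorem PFam.comp {A : Type} [NormedRing A] [NormedAlgebra ℝ A] [FiniteDimensional ℝ A] {ι : Type}
    {e : ι → A} {r : ℕ} {P P' : Type} [NormedAddCommGroup P] [NormedSpace ℝ P]
    [NormedAddCommGroup P'] [NormedSpace ℝ P'] {h : Nil e r} {g : P → A[X]ˣ} (hg : PFam h g)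
    {φ : P' → P} (hφ : ∀ l : P →L[ℝ] ℝ, (fun x => l (φ x)) ∈ Po P') :
    PFam h (fun p => g (φ p)) :=
  ⟨fun p => hg.1 _, fun k l => Po.comp (hg.2 k l) hφ⟩

theorem prS_neg {ι : Type} [Finite ι] {r : ℕ} {S : Type} [Group S] {s : ι → ℝ → S}
    (hs : Rel ι r s) (i : ι) (x : ℝ) : s i (-x) = (s i x)⁻¹ := by
  rw [eq_inv_iff_mul_eq_one, ← hs.add, neg_add_cancel, hs.zero]

theorem prS_inv {ι : Type} [Finite ι] {r : ℕ} {S : Type} [Group S] {s : ι → ℝ → S}
    (hs : Rel ι r s) {c : ℕ} (K : Fin c → ι) (y : Fin c → ℝ) :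
    (prS s K y)⁻¹ = prS s (fun t => K t.rev) (fun t => -(y t.rev)) := by
  induction c with
  | zero => simp [prS]
  | succ c ih =>
    have h1 : prS s K y = s (K 0) (y 0) * prS s (fun t => K t.succ) (fun t => y t.succ) := by
      simp [prS, List.ofFn_succ]
    have h2 : prS s (fun t => K t.rev) (fun t => -(y t.rev)) =
        prS s (fun t : Fin c => K t.rev.succ) (fun t => -(y t.rev.succ)) * s (K 0) (-(y 0)) := by
      unfold prS
      rw [List.ofFn_succ', List.concat_eq_append, List.prod_append, List.prod_singleton]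
      beta_reduce
      simp only [Fin.rev_last, Fin.rev_castSucc]
    rw [h1, h2, mul_inv_rev, ih, prS_neg hs]

theorem InP.symm {ι : Type} [Finite ι] {r : ℕ} {S : Type} [Group S] {s : ι → ℝ → S}
    (hs : Rel ι r s) {c : ℕ} {C : ℝ} {a b : S} (h : InP s c C a b) : InP s c C b a := by
  obtain ⟨K, y, hy, rfl⟩ := h
  refine ⟨fun t => K t.rev, fun t => -(y t.rev), fun t => by rw [abs_neg]; exact hy _, ?_⟩
  rw [← prS_inv hs, mul_inv_cancel_right]

/-- General random words. -/
theorem acG (ι : Type) [Finite ι] (r : ℕ) {m : ℕ} (W : (Fin m → ℝ) → List (ι × ℝ))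
    (hW : PFam (uNil ι r) fun x => wd (lu (uNil ι r)) (W x)) (f : Frame (uE ι r))
    (L : (f.β r → ℝ) →L[ℝ] (Fin m → ℝ)) (x0 : Fin m → ℝ)
    (hsec : ∀ s, f.cc (uNil ι r) (wd (lu (uNil ι r)) (W (x0 + L s))) = s) (c : ℕ) :
    ∃ K : ℕ, 1 ≤ K ∧ ∀ ε : ℝ, 0 < ε → ε ≤ 1 → ∀ C : ℝ, 0 ≤ C →
      ∀ (S : Type) [Group S] [MeasurableSpace S] (μ : Measure S) [SFinite μ] (s : ι → ℝ → S),
      Rel ι r s → (∀ i, Measurable fun q : S × ℝ => q.1 * s i q.2) →
      (Measurable fun q : S × (Fin m → ℝ) => q.1 * wd s (W q.2)) →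
      (∀ w : S, MeasurePreserving (fun x => x * w) μ μ) →
      ∀ (z0 : S) (B : Set S), MeasurableSet B →
      ENNReal.ofReal ε ≤
        volume (Icc (fun _ => -1) (fun _ => 1) ∩ {x : Fin m → ℝ | z0 * wd s (W x) ∈ B}) →
      ∀ P : Set S, MeasurableSet P → (∀ y ∈ P, InP s c C y z0) →
        μ P ≤ ENNReal.ofReal ((K * (1 + C) / ε) ^ K) * μ B := by
  classical
  set h := uNil ι r with hh
  haveI : Fintype ι := Fintype.ofFinite ι
  set l0 := f.T r with hl0
  set Ψ : (Fin m → ℝ) → (f.β r → ℝ) := fun x => f.cc h (wd (lu h) (W x)) with hΨ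
  have hΨp : ∀ w, (fun x => Ψ x w) ∈ Po (Fin m → ℝ) := fun w => PFam.cc f hW w
  have hΨc : Continuous Ψ := continuous_pi fun w => Po.continuous (hΨp w)
  set Q : Set (Fin m → ℝ) := Icc (fun _ => -1) (fun _ => 1) with hQ
  have hQc : IsCompact Q := isCompact_Icc
  obtain ⟨K1, hK1, hqac⟩ := qac volume hΨp L x0 hsec hQc.isBounded
  obtain ⟨K2, hK2⟩ : ∃ K2 : ℕ, ∀ (K : Fin c → ι) (w : f.β r) (y : Fin c → ℝ) (x : Fin m → ℝ),
      |f.cc h (pr h K y * wd (lu h) (W x)) w| ≤ K2 * (1 + ‖(y, x)‖) ^ K2 := by
    have hΘp : ∀ a : (Fin c → ι) × f.β r, (fun q : (Fin c → ℝ) × (Fin m → ℝ) =>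
        f.cc h (pr h a.1 q.1 * wd (lu h) (W q.2)) a.2) ∈ Po ((Fin c → ℝ) × (Fin m → ℝ)) := by
      intro a
      refine PFam.cc f (PFam.mul (PFam.pr h a.1 fun t => po_fst t) ?_) a.2
      exact hW.comp (φ := fun q : (Fin c → ℝ) × (Fin m → ℝ) => q.2) fun l =>
        Po.lin (l.comp (ContinuousLinearMap.snd ℝ (Fin c → ℝ) (Fin m → ℝ)))
    obtain ⟨K2, hK2⟩ := common_bound hΘp
    exact ⟨K2, fun K w y x => hK2 (K, w) (y, x)⟩
  set d := Fintype.card (f.β r) with hd
  obtain ⟨K, hK, hKb⟩ := pow_aux2 ((2 * K2 * 2 ^ K2) ^ d * (2 * K1) ^ K1) (K2 * d) K1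
  refine ⟨K, hK, fun ε hε hε1 C hC E _ _ μ _ s hs hsm hWm hmp z0 B hB hBε P hP hPc => ?_⟩
  -- projection from coordinates to `E`
  set π : (f.β r → ℝ) → E := fun u => wd s (ltr l0 (f.ext u)) with hπ
  have hπm : Measurable fun q : E × (f.β r → ℝ) => q.1 * π q.2 := by
    refine wdR_measurable hsm l0 measurable_fst (x := fun q => f.ext q.2) fun w => ?_
    unfold Frame.ext
    by_cases hw : w ∈ f.bb r
    · simp only [dif_pos hw]
      exact (measurable_pi_apply _).comp measurable_snd
    · simp only [dif_neg hw]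
      exact measurable_const
  have hπ2 : ∀ u (l : List (ι × ℝ)), f.ch h u = wd (lu h) l → π u = wd s l := by
    intro u l hu
    refine hs _ _ ?_
    rw [← hu]
    exact (ev_eq_wd h l0 (f.ext u)).symm
  -- compact set of parameters
  set X : Set (Fin m → ℝ) := Q ∩ {x | z0 * wd s (W x) ∈ B} with hX
  have hXm : MeasurableSet X := hQc.measurableSet.inter
    ((hWm.comp (measurable_const.prodMk measurable_id) : Measurable fun x => z0 * wd s (W x)) hB)
  obtain ⟨Kc, hKX, hKc, hKε⟩ : ∃ K ⊆ X, IsCompact K ∧ ENNReal.ofReal (ε / 2) < volume K := by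
    have h1 : ENNReal.ofReal (ε / 2) < volume X :=
      lt_of_lt_of_le ((ENNReal.ofReal_lt_ofReal_iff hε).2 (by linarith)) hBε
    exact hXm.exists_lt_isCompact h1
  set v : ℝ := (ε / 2 / K1) ^ K1 with hv
  have hK1p : (0 : ℝ) < K1 := by exact_mod_cast hK1
  have hvp : 0 < v := by positivity
  have hΨv : ENNReal.ofReal v ≤ volume (Ψ '' Kc) :=
    hqac (ε / 2) (by positivity) (by linarith) Kc (hKX.trans inter_subset_left)
      hKc.measurableSet hKε.le
  have hΨKc : IsCompact (Ψ '' Kc) := hKc.image hΨc
  set R : ℝ := K2 * (2 + C) ^ K2 with hR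
  have hR0 : 0 ≤ R := by positivity
  -- the main set
  set V : Set (E × (f.β r → ℝ)) := {q | q.1 ∈ P ∧ q.2 ∈ Metric.closedBall 0 R ∧
    q.1 * π q.2 ∈ B} with hV
  have hVm : MeasurableSet V := by
    refine (measurable_fst hP).inter ((measurable_snd Metric.isClosed_closedBall.measurableSet).inter ?_)
    exact hπm hB
  have hlow : ENNReal.ofReal v * μ P ≤ (μ.prod volume) V := by
    rw [Measure.prod_apply hVm]
    calc ENNReal.ofReal v * μ P = ∫⁻ y, P.indicator (fun _ => ENNReal.ofReal v) y ∂μ := by
          rw [lintegral_indicator_const hP]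
      _ ≤ ∫⁻ y, volume (Prod.mk y ⁻¹' V) ∂μ := by
          refine lintegral_mono fun y => ?_
          by_cases hy : y ∈ P
          · rw [indicator_of_mem hy]
            obtain ⟨Kw, yw, hyw, hyw2⟩ := hPc y hy
            set g := pr h Kw yw with hg
            have hgm : g ∈ F h := pr_mem h _ _
            have h1 : volume (f.tr h g⁻¹ ⁻¹' (Ψ '' Kc)) = volume (Ψ '' Kc) :=
              (f.tr_mp h (inv_mem hgm)).measure_preimage hΨKc.measurableSet.nullMeasurableSet
            rw [← h1] at hΨv
            refine hΨv.trans (measure_mono ?_)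
            rintro u ⟨x, hx, hxu⟩
            have h2 : f.ch h (f.tr h g⁻¹ u) = g⁻¹ * f.ch h u := f.ch_tr h (inv_mem hgm) u
            rw [← hxu] at h2
            have h3 : f.ch h (Ψ x) = wd (lu h) (W x) := f.ch_cc h (hW.1 x)
            rw [h3] at h2
            have h4 : f.ch h u = g * wd (lu h) (W x) := by rw [h2, mul_inv_cancel_left]
            have h5 : y * π u = z0 * wd s (W x) := by
              have h6 := hπ2 u ((List.ofFn fun t => (Kw t, yw t)) ++ W x) (by
                rw [h4, wd_append, ← pr_eq_wd])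
              rw [h6, wd_append, ← prS_eq_wd, ← mul_assoc, ← hyw2]
            refine ⟨hy, ?_, ?_⟩
            · show u ∈ Metric.closedBall 0 R
              rw [mem_closedBall_zero_iff, pi_norm_le_iff_of_nonneg hR0]
              intro w
              have h7 := hK2 Kw w yw x
              have h8 : f.cc h (pr h Kw yw * wd (lu h) (W x)) = u := by
                have : g * wd (lu h) (W x) = f.ch h u := h4.symm
                show f.cc h (g * wd (lu h) (W x)) = u
                rw [this, f.cc_ch]
              rw [h8] at h7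
              rw [Real.norm_eq_abs]
              refine h7.trans ?_
              have h9 : ‖(yw, x)‖ ≤ 1 + C := by
                rw [Prod.norm_def]
                refine max_le ?_ ?_
                · rw [pi_norm_le_iff_of_nonneg (by linarith)]
                  intro t
                  rw [Real.norm_eq_abs]
                  linarith [hyw t]
                · rw [pi_norm_le_iff_of_nonneg (by linarith)]
                  intro t
                  have h10 := (hKX hx).1
                  rw [Real.norm_eq_abs]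
                  have : |x t| ≤ 1 := abs_le.2 ⟨h10.1 t, h10.2 t⟩
                  linarith
              have h11 : 1 + ‖(yw, x)‖ ≤ 2 + C := by linarith
              rw [hR]
              gcongr
            · show y * π u ∈ B
              rw [h5]
              exact (hKX hx).2
          · rw [indicator_of_notMem hy]
            exact zero_le'
  have hup : (μ.prod volume) V ≤ μ B * ENNReal.ofReal ((2 * R) ^ d) := by
    rw [Measure.prod_apply_symm hVm]
    calc ∫⁻ u, μ ((fun y => (y, u)) ⁻¹' V) ≤
          ∫⁻ u, (Metric.closedBall (0 : f.β r → ℝ) R).indicator (fun _ => μ B) u := by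
          refine lintegral_mono fun u => ?_
          by_cases hu : u ∈ Metric.closedBall (0 : f.β r → ℝ) R
          · rw [indicator_of_mem hu]
            have h1 : (fun y => (y, u)) ⁻¹' V ⊆ (fun y => y * π u) ⁻¹' B := by
              intro y hy
              exact hy.2.2
            refine (measure_mono h1).trans ?_
            exact ((hmp (π u)).measure_preimage hB.nullMeasurableSet).le
          · rw [indicator_of_notMem hu]
            have : (fun y => (y, u)) ⁻¹' V = ∅ := by
              rw [eq_empty_iff_forall_notMem]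
              intro y hy
              exact hu hy.2.1
            rw [this, measure_empty]
      _ = _ := by
          rw [lintegral_indicator_const Metric.isClosed_closedBall.measurableSet,
            Real.volume_pi_closedBall _ hR0]
  have hmain := hlow.trans hup
  -- final algebra
  have h8 := hKb (1 + C) (1 / ε) (by linarith) (by rw [le_div_iff₀ hε]; linarith)
  have h9 : K * (1 + C) * (1 / ε) = K * (1 + C) / ε := by ring
  rw [h9] at h8
  have h10 : 2 * R ≤ (2 * K2 * 2 ^ K2) * (1 + C) ^ K2 := by
    rw [hR]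
    have : (2 + C) ^ K2 ≤ (2 * (1 + C)) ^ K2 := by
      gcongr
      linarith
    rw [mul_pow] at this
    calc 2 * (K2 * (2 + C) ^ K2) ≤ 2 * (K2 * (2 ^ K2 * (1 + C) ^ K2)) := by gcongr
      _ = _ := by ring
  have h11 : (2 * R) ^ d ≤ ((2 * K2 * 2 ^ K2) * (1 + C) ^ K2) ^ d :=
    pow_le_pow_left₀ (by positivity) h10 d
  have h12 : v⁻¹ = (2 * K1) ^ K1 * (1 / ε) ^ K1 := by
    rw [hv, ← inv_pow, ← mul_pow]
    congr 1
    field_simp
  have h13 : v⁻¹ * (2 * R) ^ d ≤ (K * (1 + C) / ε) ^ K := by
    refine le_trans ?_ h8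
    rw [h12]
    calc (2 * K1) ^ K1 * (1 / ε) ^ K1 * (2 * R) ^ d ≤
        (2 * K1) ^ K1 * (1 / ε) ^ K1 * ((2 * K2 * 2 ^ K2) * (1 + C) ^ K2) ^ d := by gcongr
      _ = _ := by rw [mul_pow _ ((1 + C) ^ K2), ← pow_mul]; ring
  calc μ P = ENNReal.ofReal v⁻¹ * (ENNReal.ofReal v * μ P) := by
        rw [← mul_assoc, ← ENNReal.ofReal_mul (by positivity), inv_mul_cancel₀ hvp.ne',
          ENNReal.ofReal_one, one_mul]
    _ ≤ ENNReal.ofReal v⁻¹ * (μ B * ENNReal.ofReal ((2 * R) ^ d)) := mul_le_mul' le_rfl hmain
    _ = ENNReal.ofReal (v⁻¹ * (2 * R) ^ d) * μ B := by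
        rw [ENNReal.ofReal_mul (by positivity)]
        ring
    _ ≤ _ := mul_le_mul' (ENNReal.ofReal_le_ofReal h13) le_rfl

/-! ### words with gaps -/

/-- letter, or `1` -/
def so {ι S : Type} [Monoid S] (s : ι → ℝ → S) (o : Option ι) (x : ℝ) : S :=
  o.elim 1 fun i => s i x

/-- product of letters, with gaps -/
def prO {ι S : Type} [Monoid S] (s : ι → ℝ → S) {m : ℕ} (J : Fin m → Option ι)
    (x : Fin m → ℝ) : S := (List.ofFn fun t => so s (J t) (x t)).prod

/-- the list of letters of a word with gaps -/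
def lo {ι : Type} {m : ℕ} (J : Fin m → Option ι) (x : Fin m → ℝ) : List (ι × ℝ) :=
  (List.ofFn fun t => (J t, x t)).filterMap fun q => q.1.map fun i => (i, q.2)

theorem prO_eq_wd {ι S : Type} [Monoid S] (s : ι → ℝ → S) {m : ℕ} (J : Fin m → Option ι)
    (x : Fin m → ℝ) : prO s J x = wd s (lo J x) := by
  have key : ∀ l : List (Option ι × ℝ), (l.map fun q => so s q.1 q.2).prod =
      wd s (l.filterMap fun q => q.1.map fun i => (i, q.2)) := by
    intro l
    induction l with
    | nil => simp [wd]
    | cons q l ih =>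
      obtain ⟨o, y⟩ := q
      cases o with
      | none => simpa [so] using ih
      | some i =>
        rw [List.map_cons, List.prod_cons, ih]
        simp [so, wd]
  have h1 := key (List.ofFn fun t => (J t, x t))
  rw [List.map_ofFn] at h1
  exact h1

theorem prO_succ {ι S : Type} [Monoid S] (s : ι → ℝ → S) {m : ℕ} (J : Fin (m + 1) → Option ι)
    (x : Fin (m + 1) → ℝ) : prO s J x = so s (J 0) (x 0) *
      prO s (fun t => J t.succ) (fun t => x t.succ) := by
  simp [prO, List.ofFn_succ]

theorem prO_some {ι S : Type} [Monoid S] (s : ι → ℝ → S) {m : ℕ} (J : Fin m → ι)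
    (x : Fin m → ℝ) : prO s (fun t => some (J t)) x = prS s J x := rfl

theorem prOR_measurable {ι S : Type} [Group S] [MeasurableSpace S]
    {s : ι → ℝ → S} (hs : ∀ i, Measurable fun q : S × ℝ => q.1 * s i q.2) {m : ℕ}
    (J : Fin m → Option ι) {β : Type} [MeasurableSpace β] {a : β → S} (ha : Measurable a)
    {x : β → Fin m → ℝ} (hx : Measurable x) : Measurable fun b => a b * prO s J (x b) := by
  induction m generalizing a with
  | zero =>
    have : (fun b => a b * prO s J (x b)) = a := by
      funext b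
      simp [prO]
    rw [this]
    exact ha
  | succ m ih =>
    have : (fun b => a b * prO s J (x b)) =
        fun b => (a b * so s (J 0) (x b 0)) * prO s (fun t => J t.succ) (fun t => x b t.succ) := by
      funext b
      rw [prO_succ, mul_assoc]
    rw [this]
    refine ih (fun t => J t.succ) ?_ ?_
    · cases J 0 with
      | none => simpa [so] using ha
      | some i => exact (hs i).comp (ha.prodMk ((measurable_pi_apply 0).comp hx))
    · exact measurable_pi_lambda _ fun t => (measurable_pi_apply t.succ).comp hx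

theorem PFam.prO {A : Type} [NormedRing A] [NormedAlgebra ℝ A] [FiniteDimensional ℝ A] {ι : Type}
    {e : ι → A} {r : ℕ} {P : Type} [NormedAddCommGroup P] [NormedSpace ℝ P] (h : Nil e r) {m : ℕ}
    (J : Fin m → Option ι) {x : P → Fin m → ℝ} (hx : ∀ t, (fun p => x p t) ∈ Po P) :
    PFam h (fun p => H329.prO (H329.lu h) J (x p)) := by
  induction m with
  | zero =>
    have : (fun p => H329.prO (H329.lu h) J (x p)) = fun _ : P => (1 : A[X]ˣ) := by
      funext p
      simp [H329.prO]
    rw [this]
    exact PFam.const (one_mem (F h))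
  | succ m ih =>
    have : (fun p => H329.prO (H329.lu h) J (x p)) = fun p => so (H329.lu h) (J 0) (x p 0) *
        H329.prO (H329.lu h) (fun t => J t.succ) (fun t => x p t.succ) := by
      funext p
      rw [prO_succ]
    rw [this]
    refine PFam.mul ?_ (ih _ fun t => hx t.succ)
    cases J 0 with
    | none => exact PFam.const (one_mem (F h))
    | some i => exact PFam.lu h _ (hx 0)

/-- products with gaps -/
theorem prod_gap {M : Type} [Monoid M] : ∀ (n' n : ℕ) (g' : Fin n' → M) (g : Fin n → M)
    (e : Fin n → Fin n'), StrictMono e → (∀ t, g' (e t) = g t) → (∀ q, q ∉ range e → g' q = 1) →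
    (List.ofFn g').prod = (List.ofFn g).prod := by
  intro n'
  induction n' with
  | zero =>
    intro n g' g e he h1 h2
    have : n = 0 := by
      rcases Nat.eq_zero_or_pos n with h | h
      · exact h
      · exact (e ⟨0, h⟩).elim0
    subst this
    simp
  | succ n' ih =>
    intro n g' g e he h1 h2
    rw [List.ofFn_succ, List.prod_cons]
    by_cases h0 : (0 : Fin (n' + 1)) ∈ range e
    · obtain ⟨t0, ht0⟩ := h0
      cases n with
      | zero => exact t0.elim0
      | succ m =>
        have he0 : e 0 = 0 := by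
          have h3 : e 0 ≤ e t0 := he.monotone (Fin.zero_le _)
          rw [ht0] at h3
          exact le_antisymm h3 (Fin.zero_le _)
        have hne : ∀ t : Fin m, e t.succ ≠ 0 := by
          intro t h3
          have h4 := he (Fin.succ_pos t)
          rw [h3, he0] at h4
          exact lt_irrefl _ h4
        rw [List.ofFn_succ, List.prod_cons, ← h1 0, he0]
        congr 1
        refine ih m (fun q => g' q.succ) (fun t => g t.succ) (fun t => (e t.succ).pred (hne t)) ?_ ?_ ?_
        · intro a b hab
          rw [Fin.pred_lt_pred_iff]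
          exact he (Fin.succ_lt_succ_iff.2 hab)
        · intro t
          show g' ((e t.succ).pred (hne t)).succ = _
          rw [Fin.succ_pred, h1]
        · intro q hq
          refine h2 _ ?_
          rintro ⟨t, ht⟩
          cases t using Fin.cases with
          | zero =>
            rw [he0] at ht
            exact (Fin.succ_ne_zero q) ht.symm
          | succ t =>
            refine hq ⟨t, ?_⟩
            apply Fin.succ_injective
            rw [Fin.succ_pred, ht]
    · rw [h2 0 h0, one_mul]
      have hne : ∀ t, e t ≠ 0 := fun t ht => h0 ⟨t, ht⟩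
      refine ih n (fun q => g' q.succ) g (fun t => (e t).pred (hne t)) ?_ ?_ ?_
      · intro a b hab
        rw [Fin.pred_lt_pred_iff]
        exact he hab
      · intro t
        show g' ((e t).pred (hne t)).succ = _
        rw [Fin.succ_pred, h1]
      · intro q hq
        refine h2 _ ?_
        rintro ⟨t, ht⟩
        refine hq ⟨t, ?_⟩
        apply Fin.succ_injective
        rw [Fin.succ_pred, ht]

/-- **Words containing the universal word.** -/
theorem supS (ι : Type) [Finite ι] (r : ℕ) : ∃ (n : ℕ) (J : Fin n → ι),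
    ∀ (n' : ℕ) (J' : Fin n' → Option ι) (e : Fin n → Fin n'), StrictMono e →
      (∀ t, J' (e t) = some (J t)) → ∀ c : ℕ, ∃ K : ℕ, 1 ≤ K ∧
    ∀ ε : ℝ, 0 < ε → ε ≤ 1 → ∀ C : ℝ, 0 ≤ C →
      ∀ (S : Type) [Group S] [MeasurableSpace S] (μ : Measure S) [SFinite μ] (s : ι → ℝ → S),
      Rel ι r s → (∀ i, Measurable fun q : S × ℝ => q.1 * s i q.2) →
      (∀ w : S, MeasurePreserving (fun x => x * w) μ μ) →
      ∀ (z0 : S) (B : Set S), MeasurableSet B →
      ENNReal.ofReal ε ≤
        volume (Icc (fun _ => -1) (fun _ => 1) ∩ {x : Fin n' → ℝ | z0 * prO s J' x ∈ B}) →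
      ∀ P : Set S, MeasurableSet P → (∀ y ∈ P, InP s c C z0 y) →
        μ P ≤ ENNReal.ofReal ((K * (1 + C) / ε) ^ K) * μ B := by
  classical
  have h := uNil ι r
  obtain ⟨f⟩ := exists_frame (uE ι r)
  set l0 := f.T r with hl0
  refine ⟨l0.length, fun t => (l0.get t).1, fun n' J' e he hJ' c => ?_⟩
  set J : Fin l0.length → ι := fun t => (l0.get t).1 with hJ
  obtain ⟨L, x0, hsec⟩ : ∃ (L : (f.β r → ℝ) →L[ℝ] (Fin l0.length → ℝ)) (x0 : Fin l0.length → ℝ),
      ∀ s, f.cc h (pr h J (x0 + L s)) = s := exists_section h f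
  -- extension by zero
  let ez : (Fin l0.length → ℝ) →L[ℝ] (Fin n' → ℝ) := ContinuousLinearMap.pi fun q =>
    if hq : q ∈ range e then
      ContinuousLinearMap.proj (R := ℝ) (φ := fun _ : Fin l0.length => ℝ) hq.choose else 0
  have hez : ∀ x t, ez x (e t) = x t := by
    intro x t
    have hq : e t ∈ range e := ⟨t, rfl⟩
    show (if hq : e t ∈ range e then
      ContinuousLinearMap.proj (R := ℝ) (φ := fun _ : Fin l0.length => ℝ) hq.choose else 0) x = _
    rw [dif_pos hq, ContinuousLinearMap.proj_apply]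
    congr 1
    exact he.injective hq.choose_spec
  have hez0 : ∀ x q, q ∉ range e → ez x q = 0 := by
    intro x q hq
    show (if hq : q ∈ range e then
      ContinuousLinearMap.proj (R := ℝ) (φ := fun _ : Fin l0.length => ℝ) hq.choose else 0) x = _
    rw [dif_neg hq]
    rfl
  have hpr : ∀ x, wd (lu h) (lo J' (ez x)) = pr h J x := by
    intro x
    rw [← prO_eq_wd]
    unfold prO pr
    refine prod_gap _ _ _ _ e he (fun t => ?_) fun q hq => ?_
    · rw [hJ', hez]
      rfl
    · rw [hez0 x q hq]
      cases J' q with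
      | none => rfl
      | some i => exact lu_zero h i
  have hW : PFam h fun x => wd (lu h) (lo J' x) := by
    have := PFam.prO h J' (P := Fin n' → ℝ) (x := fun x => x) fun t => po_coord t
    have h2 : (fun x : Fin n' → ℝ => wd (lu h) (lo J' x)) = fun x => prO (lu h) J' x := by
      funext x
      rw [prO_eq_wd]
    rw [h2]
    exact this
  obtain ⟨K, hK, hKb⟩ := acG ι r (lo J') hW f (ez.comp L) (ez x0) (fun s => by
    have h3 : ez x0 + (ez.comp L) s = ez (x0 + L s) := by
      rw [map_add]
      rfl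
    rw [h3, hpr]
    exact hsec s) c
  refine ⟨K, hK, fun ε hε hε1 C hC S _ _ μ _ s hs hsm hmp z0 B hB hBε P hP hPc => ?_⟩
  refine hKb ε hε hε1 C hC S μ s hs hsm ?_ hmp z0 B hB ?_ P hP fun y hy => (hPc y hy).symm hs
  · have := prOR_measurable hsm J' (β := S × (Fin n' → ℝ)) measurable_fst measurable_snd
    simpa only [prO_eq_wd] using this
  · simpa only [prO_eq_wd] using hBε

end Vale.Agent.P188.H329
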