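import Vale.Agent.P188.H329.Sup
import Vale.Agent.P188.H329.QACU

/-!
# P188, FILL block: random words containing the universal word, uniformly in the other letters
-/

set_option linter.all false

namespace Vale.Agent.P188.H329

open Polynomial Set MeasureTheory

/-- General random words depending on parameters. -/
theorem acF (ι : Type) [Finite ι] (r : ℕ) {Y : Type} [NormedAddCommGroup Y] [NormedSpace ℝ Y]
    {m : ℕ} (W : Y → (Fin m → ℝ) → List (ι × ℝ))
    (hW : PFam (uNil ι r) fun q : Y × (Fin m → ℝ) => wd (lu (uNil ι r)) (W q.1 q.2))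
    (f : Frame (uE ι r)) (L : (f.β r → ℝ) →L[ℝ] (Fin m → ℝ)) (x0 : Fin m → ℝ)
    (hsec : ∀ p s, f.cc (uNil ι r) (wd (lu (uNil ι r)) (W p (x0 + L s))) = s) (c : ℕ) :
    ∃ K : ℕ, 1 ≤ K ∧ ∀ p : Y, ‖p‖ ≤ 1 → ∀ ε : ℝ, 0 < ε → ε ≤ 1 → ∀ C : ℝ, 0 ≤ C →
      ∀ (S : Type) [Group S] [MeasurableSpace S] (μ : Measure S) [SFinite μ] (s : ι → ℝ → S),
      Rel ι r s → (∀ i, Measurable fun q : S × ℝ => q.1 * s i q.2) →
      (Measurable fun q : S × (Fin m → ℝ) => q.1 * wd s (W p q.2)) →
      (∀ w : S, MeasurePreserving (fun x => x * w) μ μ) →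
      ∀ (z0 : S) (B : Set S), MeasurableSet B →
      ENNReal.ofReal ε ≤
        volume (Icc (fun _ => -1) (fun _ => 1) ∩ {x : Fin m → ℝ | z0 * wd s (W p x) ∈ B}) →
      ∀ P : Set S, MeasurableSet P → (∀ y ∈ P, InP s c C y z0) →
        μ P ≤ ENNReal.ofReal ((K * (1 + C) / ε) ^ K) * μ B := by
  classical
  set h := uNil ι r with hh
  haveI : Fintype ι := Fintype.ofFinite ι
  set l0 := f.T r with hl0
  set Ψ' : Y × (Fin m → ℝ) → (f.β r → ℝ) := fun q => f.cc h (wd (lu h) (W q.1 q.2)) with hΨ'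
  have hΨp : ∀ w, (fun x => Ψ' x w) ∈ Po (Y × (Fin m → ℝ)) := fun w => PFam.cc f hW w
  have hΨc' : Continuous Ψ' := continuous_pi fun w => Po.continuous (hΨp w)
  set Q : Set (Fin m → ℝ) := Icc (fun _ => -1) (fun _ => 1) with hQ
  have hQc : IsCompact Q := isCompact_Icc
  obtain ⟨K1, hK1, hqacP⟩ := qacP volume hΨp L x0 hsec hQc.isBounded 1 zero_le_one
  obtain ⟨K2, hK2⟩ : ∃ K2 : ℕ, ∀ (K : Fin c → ι) (w : f.β r) (y : Fin c → ℝ) (p : Y)
      (x : Fin m → ℝ),
      |f.cc h (pr h K y * wd (lu h) (W p x)) w| ≤ K2 * (1 + ‖(y, (p, x))‖) ^ K2 := by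
    have hΘp : ∀ a : (Fin c → ι) × f.β r, (fun q : (Fin c → ℝ) × (Y × (Fin m → ℝ)) =>
        f.cc h (pr h a.1 q.1 * wd (lu h) (W q.2.1 q.2.2)) a.2) ∈
          Po ((Fin c → ℝ) × (Y × (Fin m → ℝ))) := by
      intro a
      refine PFam.cc f (PFam.mul (PFam.pr h a.1 fun t =>
        Po.lin ((ContinuousLinearMap.proj (R := ℝ) (φ := fun _ : Fin c => ℝ) t).comp
          (ContinuousLinearMap.fst ℝ (Fin c → ℝ) (Y × (Fin m → ℝ))))) ?_) a.2
      exact hW.comp (φ := fun q : (Fin c → ℝ) × (Y × (Fin m → ℝ)) => q.2) fun l =>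
        Po.lin (l.comp (ContinuousLinearMap.snd ℝ (Fin c → ℝ) (Y × (Fin m → ℝ))))
    obtain ⟨K2, hK2⟩ := common_bound hΘp
    exact ⟨K2, fun K w y p x => hK2 (K, w) (y, (p, x))⟩
  set d := Fintype.card (f.β r) with hd
  obtain ⟨K, hK, hKb⟩ := pow_aux2 ((2 * K2 * 2 ^ K2) ^ d * (2 * K1) ^ K1) (K2 * d) K1
  refine ⟨K, hK, fun p hp ε hε hε1 C hC E _ _ μ _ s hs hsm hWm hmp z0 B hB hBε P hP hPc => ?_⟩
  set Ψ : (Fin m → ℝ) → (f.β r → ℝ) := fun x => Ψ' (p, x) with hΨ
  have hΨc : Continuous Ψ := hΨc'.comp (Continuous.prodMk_right p)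
  have hqac := hqacP p hp
  -- projection from coordinates to `E`
  set π : (f.β r → ℝ) → E := fun u => wd s (ltr l0 (f.ext u)) with hπ
  have hπm : Measurable fun q : E × (f.β r → ℝ) => q.1 * π q.2 := by
    refine wdR_measurable hsm l0 measurable_fst (x := fun q => f.ext q.2) fun w => ?_
    unfold Frame.ext
    by_cases hw : w ∈ f.bb r
    · simp only [dif_pos hw]
      exact (measurable_pi_apply _).comp measurable_snd
    · simp only [dif_neg hw]
      exact measurable_const
  have hπ2 : ∀ u (l : List (ι × ℝ)), f.ch h u = wd (lu h) l → π u = wd s l := by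
    intro u l hu
    refine hs _ _ ?_
    rw [← hu]
    exact (ev_eq_wd h l0 (f.ext u)).symm
  -- compact set of parameters
  set X : Set (Fin m → ℝ) := Q ∩ {x | z0 * wd s (W p x) ∈ B} with hX
  have hXm : MeasurableSet X := hQc.measurableSet.inter
    ((hWm.comp (measurable_const.prodMk measurable_id) : Measurable fun x => z0 * wd s (W p x)) hB)
  obtain ⟨Kc, hKX, hKc, hKε⟩ : ∃ K ⊆ X, IsCompact K ∧ ENNReal.ofReal (ε / 2) < volume K := by
    have h1 : ENNReal.ofReal (ε / 2) < volume X :=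
      lt_of_lt_of_le ((ENNReal.ofReal_lt_ofReal_iff hε).2 (by linarith)) hBε
    exact hXm.exists_lt_isCompact h1
  set v : ℝ := (ε / 2 / K1) ^ K1 with hv
  have hK1p : (0 : ℝ) < K1 := by exact_mod_cast hK1
  have hvp : 0 < v := by positivity
  have hΨv : ENNReal.ofReal v ≤ volume (Ψ '' Kc) :=
    hqac (ε / 2) (by positivity) (by linarith) Kc (hKX.trans inter_subset_left)
      hKc.measurableSet hKε.le
  have hΨKc : IsCompact (Ψ '' Kc) := hKc.image hΨc
  set R : ℝ := K2 * (2 + C) ^ K2 with hR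
  have hR0 : 0 ≤ R := by positivity
  -- the main set
  set V : Set (E × (f.β r → ℝ)) := {q | q.1 ∈ P ∧ q.2 ∈ Metric.closedBall 0 R ∧
    q.1 * π q.2 ∈ B} with hV
  have hVm : MeasurableSet V := by
    refine (measurable_fst hP).inter ((measurable_snd Metric.isClosed_closedBall.measurableSet).inter ?_)
    exact hπm hB
  have hlow : ENNReal.ofReal v * μ P ≤ (μ.prod volume) V := by
    rw [Measure.prod_apply hVm]
    calc ENNReal.ofReal v * μ P = ∫⁻ y, P.indicator (fun _ => ENNReal.ofReal v) y ∂μ := by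
          rw [lintegral_indicator_const hP]
      _ ≤ ∫⁻ y, volume (Prod.mk y ⁻¹' V) ∂μ := by
          refine lintegral_mono fun y => ?_
          by_cases hy : y ∈ P
          · rw [indicator_of_mem hy]
            obtain ⟨Kw, yw, hyw, hyw2⟩ := hPc y hy
            set g := pr h Kw yw with hg
            have hgm : g ∈ F h := pr_mem h _ _
            have h1 : volume (f.tr h g⁻¹ ⁻¹' (Ψ '' Kc)) = volume (Ψ '' Kc) :=
              (f.tr_mp h (inv_mem hgm)).measure_preimage hΨKc.measurableSet.nullMeasurableSet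
            rw [← h1] at hΨv
            refine hΨv.trans (measure_mono ?_)
            rintro u ⟨x, hx, hxu⟩
            have h2 : f.ch h (f.tr h g⁻¹ u) = g⁻¹ * f.ch h u := f.ch_tr h (inv_mem hgm) u
            rw [← hxu] at h2
            have h3 : f.ch h (Ψ x) = wd (lu h) (W p x) := f.ch_cc h (hW.1 (p, x))
            rw [h3] at h2
            have h4 : f.ch h u = g * wd (lu h) (W p x) := by rw [h2, mul_inv_cancel_left]
            have h5 : y * π u = z0 * wd s (W p x) := by
              have h6 := hπ2 u ((List.ofFn fun t => (Kw t, yw t)) ++ W p x) (by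
                rw [h4, wd_append, ← pr_eq_wd])
              rw [h6, wd_append, ← prS_eq_wd, ← mul_assoc, ← hyw2]
            refine ⟨hy, ?_, ?_⟩
            · show u ∈ Metric.closedBall 0 R
              rw [mem_closedBall_zero_iff, pi_norm_le_iff_of_nonneg hR0]
              intro w
              have h7 := hK2 Kw w yw p x
              have h8 : f.cc h (pr h Kw yw * wd (lu h) (W p x)) = u := by
                have : g * wd (lu h) (W p x) = f.ch h u := h4.symm
                show f.cc h (g * wd (lu h) (W p x)) = u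
                rw [this, f.cc_ch]
              rw [h8] at h7
              rw [Real.norm_eq_abs]
              refine h7.trans ?_
              have h9 : ‖(yw, (p, x))‖ ≤ 1 + C := by
                rw [Prod.norm_def, Prod.norm_def]
                refine max_le ?_ (max_le (by linarith) ?_)
                · rw [pi_norm_le_iff_of_nonneg (by linarith)]
                  intro t
                  rw [Real.norm_eq_abs]
                  linarith [hyw t]
                · rw [pi_norm_le_iff_of_nonneg (by linarith)]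
                  intro t
                  have h10 := (hKX hx).1
                  rw [Real.norm_eq_abs]
                  have : |x t| ≤ 1 := abs_le.2 ⟨h10.1 t, h10.2 t⟩
                  linarith
              have h11 : 1 + ‖(yw, (p, x))‖ ≤ 2 + C := by linarith
              rw [hR]
              gcongr
            · show y * π u ∈ B
              rw [h5]
              exact (hKX hx).2
          · rw [indicator_of_notMem hy]
            exact zero_le'
  have hup : (μ.prod volume) V ≤ μ B * ENNReal.ofReal ((2 * R) ^ d) := by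
    rw [Measure.prod_apply_symm hVm]
    calc ∫⁻ u, μ ((fun y => (y, u)) ⁻¹' V) ≤
          ∫⁻ u, (Metric.closedBall (0 : f.β r → ℝ) R).indicator (fun _ => μ B) u := by
          refine lintegral_mono fun u => ?_
          by_cases hu : u ∈ Metric.closedBall (0 : f.β r → ℝ) R
          · rw [indicator_of_mem hu]
            have h1 : (fun y => (y, u)) ⁻¹' V ⊆ (fun y => y * π u) ⁻¹' B := by
              intro y hy
              exact hy.2.2
            refine (measure_mono h1).trans ?_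
            exact ((hmp (π u)).measure_preimage hB.nullMeasurableSet).le
          · rw [indicator_of_notMem hu]
            have : (fun y => (y, u)) ⁻¹' V = ∅ := by
              rw [eq_empty_iff_forall_notMem]
              intro y hy
              exact hu hy.2.1
            rw [this, measure_empty]
      _ = _ := by
          rw [lintegral_indicator_const Metric.isClosed_closedBall.measurableSet,
            Real.volume_pi_closedBall _ hR0]
  have hmain := hlow.trans hup
  -- final algebra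
  have h8 := hKb (1 + C) (1 / ε) (by linarith) (by rw [le_div_iff₀ hε]; linarith)
  have h9 : K * (1 + C) * (1 / ε) = K * (1 + C) / ε := by ring
  rw [h9] at h8
  have h10 : 2 * R ≤ (2 * K2 * 2 ^ K2) * (1 + C) ^ K2 := by
    rw [hR]
    have : (2 + C) ^ K2 ≤ (2 * (1 + C)) ^ K2 := by
      gcongr
      linarith
    rw [mul_pow] at this
    calc 2 * (K2 * (2 + C) ^ K2) ≤ 2 * (K2 * (2 ^ K2 * (1 + C) ^ K2)) := by gcongr
      _ = _ := by ring
  have h11 : (2 * R) ^ d ≤ ((2 * K2 * 2 ^ K2) * (1 + C) ^ K2) ^ d :=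
    pow_le_pow_left₀ (by positivity) h10 d
  have h12 : v⁻¹ = (2 * K1) ^ K1 * (1 / ε) ^ K1 := by
    rw [hv, ← inv_pow, ← mul_pow]
    congr 1
    field_simp
  have h13 : v⁻¹ * (2 * R) ^ d ≤ (K * (1 + C) / ε) ^ K := by
    refine le_trans ?_ h8
    rw [h12]
    calc (2 * K1) ^ K1 * (1 / ε) ^ K1 * (2 * R) ^ d ≤
        (2 * K1) ^ K1 * (1 / ε) ^ K1 * ((2 * K2 * 2 ^ K2) * (1 + C) ^ K2) ^ d := by gcongr
      _ = _ := by rw [mul_pow _ ((1 + C) ^ K2), ← pow_mul]; ring
  calc μ P = ENNReal.ofReal v⁻¹ * (ENNReal.ofReal v * μ P) := by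
        rw [← mul_assoc, ← ENNReal.ofReal_mul (by positivity), inv_mul_cancel₀ hvp.ne',
          ENNReal.ofReal_one, one_mul]
    _ ≤ ENNReal.ofReal v⁻¹ * (μ B * ENNReal.ofReal ((2 * R) ^ d)) := mul_le_mul' le_rfl hmain
    _ = ENNReal.ofReal (v⁻¹ * (2 * R) ^ d) * μ B := by
        rw [ENNReal.ofReal_mul (by positivity)]
        ring
    _ ≤ _ := mul_le_mul' (ENNReal.ofReal_le_ofReal h13) le_rfl


theorem volume_diag {n : ℕ} {δ : ℝ} (hδ : 0 < δ) (hδ1 : δ ≤ 1) (d : Fin n → ℝ)
    (hd : ∀ q, δ ≤ d q) (V : Set (Fin n → ℝ)) :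
    volume ((fun (x : Fin n → ℝ) q => d q * x q) ⁻¹' V) ≤
      ENNReal.ofReal ((δ ^ n)⁻¹) * volume V := by
  set A : (Fin n → ℝ) →ₗ[ℝ] (Fin n → ℝ) := Matrix.toLin' (Matrix.diagonal d) with hA
  have hdet : LinearMap.det A = ∏ q, d q := by
    rw [hA, LinearMap.det_toLin', Matrix.det_diagonal]
  have hpos : δ ^ n ≤ ∏ q, d q := by
    calc δ ^ n = ∏ _q : Fin n, δ := by simp
      _ ≤ _ := Finset.prod_le_prod (fun _ _ => hδ.le) fun q _ => hd q
  have hδn : 0 < δ ^ n := by positivity
  have hdp : 0 < ∏ q, d q := lt_of_lt_of_le hδn hpos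
  have hfun : (fun (x : Fin n → ℝ) q => d q * x q) = (A : (Fin n → ℝ) → (Fin n → ℝ)) := by
    funext x q
    rw [hA, Matrix.toLin'_apply, Matrix.mulVec_diagonal]
  rw [hfun, Measure.addHaar_preimage_linearMap _ (by rw [hdet]; exact hdp.ne'), hdet]
  gcongr
  rw [abs_of_pos (by positivity)]
  exact inv_anti₀ hδn hpos

/-- **Words containing the universal word**, uniformly in the sizes of the other letters. -/
theorem supU (ι : Type) [Finite ι] (r : ℕ) : ∃ (n : ℕ) (J : Fin n → ι),
    ∀ (n' : ℕ) (J' : Fin n' → Option ι) (e : Fin n → Fin n'), StrictMono e →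
      (∀ t, J' (e t) = some (J t)) → ∀ (c : ℕ) (δ : ℝ), 0 < δ → ∃ K : ℕ, 1 ≤ K ∧
    ∀ ρ : Fin n' → ℝ, (∀ q, |ρ q| ≤ 1) → (∀ t, δ ≤ ρ (e t)) →
    ∀ ε : ℝ, 0 < ε → ε ≤ 1 → ∀ C : ℝ, 0 ≤ C →
      ∀ (S : Type) [Group S] [MeasurableSpace S] (μ : Measure S) [SFinite μ] (s : ι → ℝ → S),
      Rel ι r s → (∀ i, Measurable fun q : S × ℝ => q.1 * s i q.2) →
      (∀ w : S, MeasurePreserving (fun x => x * w) μ μ) →
      ∀ (z0 : S) (B : Set S), MeasurableSet B →
      ENNReal.ofReal ε ≤ volume (Icc (fun _ => -1) (fun _ => 1) ∩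
        {x : Fin n' → ℝ | z0 * prO s J' (fun q => ρ q * x q) ∈ B}) →
      ∀ P : Set S, MeasurableSet P → (∀ y ∈ P, InP s c C z0 y) →
        μ P ≤ ENNReal.ofReal ((K * (1 + C) / ε) ^ K) * μ B := by
  classical
  have h := uNil ι r
  obtain ⟨f⟩ := exists_frame (uE ι r)
  set l0 := f.T r with hl0
  refine ⟨l0.length, fun t => (l0.get t).1, fun n' J' e he hJ' c δ hδ => ?_⟩
  set J : Fin l0.length → ι := fun t => (l0.get t).1 with hJ
  obtain ⟨L, x0, hsec⟩ : ∃ (L : (f.β r → ℝ) →L[ℝ] (Fin l0.length → ℝ)) (x0 : Fin l0.length → ℝ),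
      ∀ s, f.cc h (pr h J (x0 + L s)) = s := exists_section h f
  -- extension by zero
  let ez : (Fin l0.length → ℝ) →L[ℝ] (Fin n' → ℝ) := ContinuousLinearMap.pi fun q =>
    if hq : q ∈ range e then
      ContinuousLinearMap.proj (R := ℝ) (φ := fun _ : Fin l0.length => ℝ) hq.choose else 0
  have hez : ∀ x t, ez x (e t) = x t := by
    intro x t
    have hq : e t ∈ range e := ⟨t, rfl⟩
    show (if hq : e t ∈ range e then
      ContinuousLinearMap.proj (R := ℝ) (φ := fun _ : Fin l0.length => ℝ) hq.choose else 0) x = _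
    rw [dif_pos hq, ContinuousLinearMap.proj_apply]
    congr 1
    exact he.injective hq.choose_spec
  have hez0 : ∀ x q, q ∉ range e → ez x q = 0 := by
    intro x q hq
    show (if hq : q ∈ range e then
      ContinuousLinearMap.proj (R := ℝ) (φ := fun _ : Fin l0.length => ℝ) hq.choose else 0) x = _
    rw [dif_neg hq]
    rfl
  -- the parameters
  let ψ : (Fin n' → ℝ) → (Fin n' → ℝ) → (Fin n' → ℝ) := fun ρ x q =>
    if q ∈ range e then x q else ρ q * x q
  have hpr : ∀ ρ x, wd (lu h) (lo J' (ψ ρ (ez x))) = pr h J x := by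
    intro ρ x
    rw [← prO_eq_wd]
    unfold prO pr
    refine prod_gap _ _ _ _ e he (fun t => ?_) fun q hq => ?_
    · have h1 : ψ ρ (ez x) (e t) = x t := by
        show (if e t ∈ range e then ez x (e t) else ρ (e t) * ez x (e t)) = _
        rw [if_pos ⟨t, rfl⟩, hez]
      rw [hJ', h1]
      rfl
    · have h1 : ψ ρ (ez x) q = 0 := by
        show (if q ∈ range e then ez x q else ρ q * ez x q) = _
        rw [if_neg hq, hez0 x q hq, mul_zero]
      rw [h1]
      cases J' q with
      | none => rfl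
      | some i => exact lu_zero h i
  have hW : PFam h fun q : (Fin n' → ℝ) × (Fin n' → ℝ) => wd (lu h) (lo J' (ψ q.1 q.2)) := by
    have h1 : ∀ t : Fin n', (fun q : (Fin n' → ℝ) × (Fin n' → ℝ) => ψ q.1 q.2 t) ∈
        Po ((Fin n' → ℝ) × (Fin n' → ℝ)) := by
      intro t
      by_cases ht : t ∈ range e
      · have : (fun q : (Fin n' → ℝ) × (Fin n' → ℝ) => ψ q.1 q.2 t) = fun q => q.2 t := by
          funext q
          exact if_pos ht
        rw [this]
        exact po_snd t
      · have : (fun q : (Fin n' → ℝ) × (Fin n' → ℝ) => ψ q.1 q.2 t) = fun q => q.1 t * q.2 t := by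
          funext q
          exact if_neg ht
        rw [this]
        exact Po.mul (po_fst t) (po_snd t)
    have := PFam.prO h J' (P := (Fin n' → ℝ) × (Fin n' → ℝ)) (x := fun q => ψ q.1 q.2) h1
    have h2 : (fun q : (Fin n' → ℝ) × (Fin n' → ℝ) => wd (lu h) (lo J' (ψ q.1 q.2))) =
        fun q => prO (lu h) J' (ψ q.1 q.2) := by
      funext q
      rw [prO_eq_wd]
    rw [h2]
    exact this
  obtain ⟨K, hK, hKb⟩ := acF ι r (fun ρ x => lo J' (ψ ρ x)) hW f (ez.comp L) (ez x0) (fun ρ s => by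
    have h3 : ez x0 + (ez.comp L) s = ez (x0 + L s) := by
      rw [map_add]
      rfl
    rw [h3, hpr]
    exact hsec s) c
  set δ' : ℝ := min δ 1 with hδ'
  have hδ'p : 0 < δ' := lt_min hδ one_pos
  have hδ'1 : δ' ≤ 1 := min_le_right _ _
  have hδn : 0 < δ' ^ n' := by positivity
  have hδn1 : δ' ^ n' ≤ 1 := pow_le_one₀ hδ'p.le hδ'1
  have hKr : (1 : ℝ) ≤ K := by exact_mod_cast hK
  obtain ⟨K', hK'⟩ := exists_nat_ge ((K : ℝ) / δ' ^ n')
  refine ⟨max K K', le_trans hK (le_max_left _ _), ?_⟩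
  intro ρ hρ hρe ε hε hε1 C hC S _ _ μ _ s hs hsm hmp z0 B hB hBε P hP hPc
  -- reduction to `ρ = 1` on the main letters
  set d : Fin n' → ℝ := fun q => if q ∈ range e then ρ q else 1 with hd
  have hdδ : ∀ q, δ' ≤ d q := by
    intro q
    rw [hd]
    show δ' ≤ if q ∈ range e then ρ q else 1
    split_ifs with hq
    · obtain ⟨t, rfl⟩ := hq
      exact (min_le_left _ _).trans (hρe t)
    · exact hδ'1
  have hd1 : ∀ q, |d q| ≤ 1 := by
    intro q
    show |if q ∈ range e then ρ q else 1| ≤ 1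
    split_ifs
    · exact hρ q
    · simp
  have hψd : ∀ x : Fin n' → ℝ, ψ ρ (fun q => d q * x q) = fun q => ρ q * x q := by
    intro x
    funext q
    show (if q ∈ range e then d q * x q else ρ q * (d q * x q)) = _
    by_cases hq : q ∈ range e
    · rw [if_pos hq]
      show (if q ∈ range e then ρ q else 1) * x q = _
      rw [if_pos hq]
    · rw [if_neg hq]
      show ρ q * ((if q ∈ range e then ρ q else 1) * x q) = _
      rw [if_neg hq, one_mul]
  set V : Set (Fin n' → ℝ) := Icc (fun _ => -1) (fun _ => 1) ∩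
    {x | z0 * prO s J' (ψ ρ x) ∈ B} with hV
  have hVε : ENNReal.ofReal (δ' ^ n' * ε) ≤ volume V := by
    have h1 : Icc (fun _ => -1) (fun _ => 1) ∩
        {x : Fin n' → ℝ | z0 * prO s J' (fun q => ρ q * x q) ∈ B} ⊆
        (fun x q => d q * x q) ⁻¹' V := by
      rintro x ⟨hx, hx2⟩
      refine ⟨?_, ?_⟩
      · have h2 : ∀ q, |d q * x q| ≤ 1 := by
          intro q
          rw [abs_mul]
          have h3 : |x q| ≤ 1 := abs_le.2 ⟨hx.1 q, hx.2 q⟩
          calc |d q| * |x q| ≤ 1 * 1 := mul_le_mul (hd1 q) h3 (abs_nonneg _) zero_le_one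
            _ = 1 := one_mul 1
        exact ⟨fun q => (abs_le.1 (h2 q)).1, fun q => (abs_le.1 (h2 q)).2⟩
      · show z0 * prO s J' (ψ ρ fun q => d q * x q) ∈ B
        rw [hψd]
        exact hx2
    have h2 := hBε.trans ((measure_mono h1).trans (volume_diag hδ'p hδ'1 d hdδ V))
    calc ENNReal.ofReal (δ' ^ n' * ε) = ENNReal.ofReal (δ' ^ n') * ENNReal.ofReal ε :=
          ENNReal.ofReal_mul hδn.le
      _ ≤ ENNReal.ofReal (δ' ^ n') * (ENNReal.ofReal ((δ' ^ n')⁻¹) * volume V) := by gcongr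
      _ = volume V := by
          rw [← mul_assoc, ← ENNReal.ofReal_mul hδn.le, mul_inv_cancel₀ hδn.ne', ENNReal.ofReal_one,
            one_mul]
  have hfin := hKb ρ ((pi_norm_le_iff_of_nonneg zero_le_one).2 fun q => by
    rw [Real.norm_eq_abs]; exact hρ q) (δ' ^ n' * ε) (by positivity)
    (mul_le_one₀ hδn1 hε.le hε1) C hC S μ s hs hsm ?_ hmp z0 B hB ?_ P hP fun y hy => (hPc y hy).symm hs
  · refine hfin.trans ?_
    gcongr ?_ * _
    apply ENNReal.ofReal_le_ofReal
    have h1 : (K : ℝ) * (1 + C) / (δ' ^ n' * ε) = (K / δ' ^ n') * (1 + C) / ε := by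
      field_simp
    rw [h1]
    have h2 : (K : ℝ) / δ' ^ n' ≤ ((max K K' : ℕ) : ℝ) := hK'.trans (by exact_mod_cast le_max_right _ _)
    have h3 : (K / δ' ^ n') * (1 + C) / ε ≤ ((max K K' : ℕ) : ℝ) * (1 + C) / ε := by gcongr
    have h4 : (1 : ℝ) ≤ ((max K K' : ℕ) : ℝ) * (1 + C) / ε := by
      rw [le_div_iff₀ hε]
      have h5 : (1 : ℝ) ≤ ((max K K' : ℕ) : ℝ) := by
        exact_mod_cast le_trans hK (le_max_left _ _)
      nlinarith
    calc ((K / δ' ^ n') * (1 + C) / ε) ^ K ≤ (((max K K' : ℕ) : ℝ) * (1 + C) / ε) ^ K := by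
          gcongr
      _ ≤ (((max K K' : ℕ) : ℝ) * (1 + C) / ε) ^ (max K K') :=
          pow_le_pow_right₀ h4 (le_max_left _ _)
  · have hψm : Measurable fun q : S × (Fin n' → ℝ) => ψ ρ q.2 := by
      refine measurable_pi_lambda _ fun t => ?_
      show Measurable fun q : S × (Fin n' → ℝ) => if t ∈ range e then q.2 t else ρ t * q.2 t
      by_cases ht : t ∈ range e
      · simp only [if_pos ht]
        exact (measurable_pi_apply t).comp measurable_snd
      · simp only [if_neg ht]
        exact ((measurable_pi_apply t).comp measurable_snd).const_mul _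
    have := prOR_measurable hsm J' (β := S × (Fin n' → ℝ)) measurable_fst hψm
    simpa only [prO_eq_wd] using this
  · rw [hV] at hVε
    simpa only [prO_eq_wd] using hVε

end Vale.Agent.P188.H329
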