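import Vale.Agent.P188.H329.Pack

/-!
# P188, FILL block, part 9: the universal nilpotent group and transfer of relations
-/

set_option linter.all false

namespace Vale.Agent.P188.H329

open Polynomial Set MeasureTheory

/-- words of length at most `r` -/
@[ext]
structure UW (ι : Type) (r : ℕ) : Type where
  val : List ι
  prop : val.length ≤ r

instance (ι : Type) [Finite ι] (r : ℕ) : Finite (UW ι r) := by
  haveI : Finite {w : List ι // w.length ≤ r} := List.finite_length_le ι r
  refine Finite.of_injective (fun w : UW ι r => (⟨w.val, w.prop⟩ : {w : List ι // w.length ≤ r})) ?_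
  intro w w' h
  exact UW.ext (congrArg Subtype.val h)

noncomputable instance (ι : Type) [Finite ι] (r : ℕ) : Fintype (UW ι r) := Fintype.ofFinite _

/-- value of the shifted function -/
noncomputable def ush {ι : Type} {r : ℕ} (i : ι) (f : UW ι r → ℝ) : UW ι r → ℝ
  | ⟨[], _⟩ => 0
  | ⟨j :: v, hv⟩ => by
    classical
    exact if j = i then f ⟨v, by simp at hv; omega⟩ else 0

theorem ush_nil {ι : Type} {r : ℕ} (i : ι) (f : UW ι r → ℝ) (h : ([] : List ι).length ≤ r) :
    ush i f ⟨[], h⟩ = 0 := rfl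

theorem ush_cons {ι : Type} {r : ℕ} (i : ι) (f : UW ι r → ℝ) (v : List ι)
    (h : (i :: v).length ≤ r) (h' : v.length ≤ r) :
    ush i f ⟨i :: v, h⟩ = f ⟨v, h'⟩ := by
  simp [ush]

theorem ush_cons_ne {ι : Type} {r : ℕ} {i j : ι} (hij : j ≠ i) (f : UW ι r → ℝ) (v : List ι)
    (h : (j :: v).length ≤ r) : ush i f ⟨j :: v, h⟩ = 0 := by
  simp [ush, hij]

/-- The universal algebra. -/
abbrev UA (ι : Type) [Finite ι] (r : ℕ) : Type := (UW ι r → ℝ) →L[ℝ] (UW ι r → ℝ)

/-- The universal letters. -/
noncomputable def uE (ι : Type) [Finite ι] (r : ℕ) (i : ι) : UA ι r :=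
  LinearMap.toContinuousLinearMap
    { toFun := ush i
      map_add' := by
        intro f g
        funext w
        obtain ⟨w, hw⟩ := w
        cases w with
        | nil => simp [ush_nil]
        | cons j v =>
          by_cases hj : j = i
          · subst hj
            rw [Pi.add_apply, ush_cons _ _ _ _ (by simp at hw; omega),
              ush_cons _ _ _ _ (by simp at hw; omega), ush_cons _ _ _ _ (by simp at hw; omega)]
            rfl
          · rw [Pi.add_apply, ush_cons_ne hj, ush_cons_ne hj, ush_cons_ne hj, add_zero]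
      map_smul' := by
        intro c f
        funext w
        obtain ⟨w, hw⟩ := w
        cases w with
        | nil => simp [ush_nil]
        | cons j v =>
          by_cases hj : j = i
          · subst hj
            rw [Pi.smul_apply, ush_cons _ _ _ _ (by simp at hw; omega),
              ush_cons _ _ _ _ (by simp at hw; omega)]
            rfl
          · rw [Pi.smul_apply, ush_cons_ne hj, ush_cons_ne hj]
            simp }

theorem uE_apply (ι : Type) [Finite ι] (r : ℕ) (i : ι) (f : UW ι r → ℝ) :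
    uE ι r i f = ush i f := rfl

theorem uNil_aux (ι : Type) [Finite ι] (r : ℕ) (w : List ι) (f : UW ι r → ℝ) (u : UW ι r)
    (h : u.1.length < w.length) : ((w.map (uE ι r)).prod : UA ι r) f u = 0 := by
  induction w generalizing u with
  | nil => simp at h
  | cons i w ih =>
    rw [List.map_cons, List.prod_cons]
    show (uE ι r i) (((w.map (uE ι r)).prod : UA ι r) f) u = 0
    rw [uE_apply]
    obtain ⟨u, hu⟩ := u
    cases u with
    | nil => rfl
    | cons j v =>
      by_cases hj : j = i
      · subst hj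
        rw [ush_cons _ _ _ _ (by simp at hu; omega)]
        exact ih _ (by simpa using h)
      · rw [ush_cons_ne hj]

theorem uNil (ι : Type) [Finite ι] (r : ℕ) : Nil (uE ι r) r := by
  intro w hw
  ext f u
  exact uNil_aux ι r w f u (lt_of_le_of_lt u.2 hw)

/-! ### transfer -/

section transfer

variable {ι : Type} [Finite ι] {r : ℕ} {A : Type} [Ring A] [Algebra ℝ A]

/-- the vacuum vector -/
noncomputable def vac (ι : Type) [Finite ι] (r : ℕ) : UW ι r → ℝ := by
  classical
  exact fun w => if w.1 = [] then 1 else 0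

/-- the transfer map -/
noncomputable def La (e : ι → A) (r : ℕ) : UA ι r →ₗ[ℝ] A where
  toFun M := ∑ w : UW ι r, (M (vac ι r) w) • (w.1.map e).prod
  map_add' M M' := by
    rw [← Finset.sum_add_distrib]
    refine Finset.sum_congr rfl fun w _ => ?_
    rw [← add_smul]
    rfl
  map_smul' c M := by
    rw [RingHom.id_apply, Finset.smul_sum]
    refine Finset.sum_congr rfl fun w _ => ?_
    rw [smul_smul]
    rfl

theorem La_apply (e : ι → A) (r : ℕ) (M : UA ι r) :
    La e r M = ∑ w : UW ι r, (M (vac ι r) w) • (w.1.map e).prod := rfl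

theorem La_one (e : ι → A) (r : ℕ) : La e r 1 = 1 := by
  classical
  rw [La_apply, Finset.sum_eq_single (⟨[], by simp⟩ : UW ι r)]
  · have : ((1 : UA ι r) (vac ι r)) ⟨[], by simp⟩ = 1 := by
      show vac ι r (⟨[], by simp⟩ : UW ι r) = 1
      simp [vac]
    rw [this]
    simp
  · intro w _ hw
    have : ((1 : UA ι r) (vac ι r)) w = 0 := by
      show vac ι r w = 0
      unfold vac
      rw [if_neg]
      intro h
      exact hw (UW.ext h)
    rw [this, zero_smul]
  · simp

theorem La_mul {e : ι → A} (h : Nil e r) (i : ι) (M : UA ι r) :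
    La e r (uE ι r i * M) = e i * La e r M := by
  classical
  rw [La_apply, La_apply, Finset.mul_sum]
  -- `w ↦ i :: w` on words of length < r
  have hL : ∑ w : UW ι r, ((uE ι r i * M) (vac ι r) w) • (w.1.map e).prod =
      ∑ w ∈ Finset.univ.filter (fun w : UW ι r => ∃ v, w.1 = i :: v),
        ((uE ι r i * M) (vac ι r) w) • (w.1.map e).prod := by
    refine (Finset.sum_subset (Finset.subset_univ _) fun w _ hw => ?_).symm
    have : (uE ι r i * M) (vac ι r) w = 0 := by
      show ush i (M (vac ι r)) w = 0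
      obtain ⟨w, hw'⟩ := w
      cases w with
      | nil => rfl
      | cons j v =>
        refine ush_cons_ne ?_ _ _ _
        rintro rfl
        apply hw
        simp
    rw [this, zero_smul]
  have hR : ∑ w : UW ι r, e i * ((M (vac ι r) w) • (w.1.map e).prod) =
      ∑ w ∈ Finset.univ.filter (fun w : UW ι r => w.1.length < r),
        e i * ((M (vac ι r) w) • (w.1.map e).prod) := by
    refine (Finset.sum_subset (Finset.subset_univ _) fun w _ hw => ?_).symm
    have h1 : e i * (w.1.map e).prod = 0 := by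
      have h2 := h (i :: w.1) (by
        simp only [Finset.mem_filter, Finset.mem_univ, true_and, not_lt] at hw
        simp
        omega)
      rwa [List.map_cons, List.prod_cons] at h2
    rw [mul_smul_comm, h1, smul_zero]
  rw [hL, hR]
  refine (Finset.sum_bij (fun (w : UW ι r) (hw : w ∈ Finset.univ.filter
    (fun w : UW ι r => w.1.length < r)) => (⟨i :: w.1, by
      simp only [Finset.mem_filter, Finset.mem_univ, true_and] at hw
      simp
      omega⟩ : UW ι r)) ?_ ?_ ?_ ?_).symm
  · intro w hw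
    simp
  · intro w hw w' hw' heq
    have h1 := congrArg UW.val heq
    simp only [List.cons.injEq, true_and] at h1
    exact UW.ext h1
  · intro w hw
    simp only [Finset.mem_filter, Finset.mem_univ, true_and] at hw
    obtain ⟨v, hv⟩ := hw
    have hw2 := w.2
    rw [hv] at hw2
    simp at hw2
    refine ⟨⟨v, by omega⟩, ?_, ?_⟩
    · simp only [Finset.mem_filter, Finset.mem_univ, true_and]
      omega
    · exact UW.ext hv.symm
  · intro w hw
    simp only [Finset.mem_filter, Finset.mem_univ, true_and] at hw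
    have h1 : (uE ι r i * M) (vac ι r) (⟨i :: w.1, by simp; omega⟩ : UW ι r) =
        M (vac ι r) w := by
      show ush i (M (vac ι r)) (⟨i :: w.1, by simp; omega⟩ : UW ι r) = _
      rw [ush_cons _ _ _ _ w.2]
    rw [h1, mul_smul_comm, List.map_cons, List.prod_cons]

theorem La_pow_mul {e : ι → A} (h : Nil e r) (i : ι) (k : ℕ) (M : UA ι r) :
    La e r (uE ι r i ^ k * M) = e i ^ k * La e r M := by
  induction k with
  | zero => simp
  | succ k ih =>
    rw [pow_succ', mul_assoc, La_mul h, ih, pow_succ', mul_assoc]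

/-- evaluation of words of letters in a monoid -/
def wd {S : Type} [Monoid S] (s : ι → ℝ → S) (l : List (ι × ℝ)) : S :=
  (l.map fun q => s q.1 q.2).prod

theorem La_coeff {e : ι → A} (h : Nil e r) (l : List (ι × ℝ)) (k : ℕ) :
    La e r (((wd (lu (uNil ι r)) l : (UA ι r)[X]ˣ) : (UA ι r)[X]).coeff k) =
      ((wd (lu h) l : A[X]ˣ) : A[X]).coeff k := by
  induction l generalizing k with
  | nil =>
    simp only [wd, List.map_nil, List.prod_nil, Units.val_one, coeff_one]
    split_ifs
    · exact La_one e r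
    · exact map_zero _
  | cons q l ih =>
    have e1 : ∀ {B : Type} [Ring B] [Algebra ℝ B] {u : ι → B} (hu : Nil u r),
        ((wd (lu hu) (q :: l) : B[X]ˣ) : B[X]).coeff k = ∑ x ∈ Finset.antidiagonal k,
          (if x.1 < r + 1 then ((x.1.factorial : ℝ)⁻¹ * q.2 ^ x.1) • (u q.1 ^ x.1 *
            ((wd (lu hu) l : B[X]ˣ) : B[X]).coeff x.2) else 0) := by
      intro B _ _ u hu
      have : wd (lu hu) (q :: l) = lu hu q.1 q.2 * wd (lu hu) l := by
        simp [wd]
      rw [this, Units.val_mul, Polynomial.coeff_mul]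
      refine Finset.sum_congr rfl fun x _ => ?_
      rw [lu_val, lt_coeff]
      split_ifs
      · rw [smul_mul_assoc]
      · rw [zero_mul]
    rw [e1, e1, map_sum]
    refine Finset.sum_congr rfl fun x _ => ?_
    split_ifs
    · rw [map_smul, La_pow_mul h, ih]
    · exact map_zero _

end transfer

/-- All relations of the universal nilpotent group of class `≤ r` on the letters `(i, x)` hold for
the family `s`. -/
def Rel (ι : Type) [Finite ι] (r : ℕ) {S : Type} [Monoid S] (s : ι → ℝ → S) : Prop :=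
  ∀ l l' : List (ι × ℝ), wd (lu (uNil ι r)) l = wd (lu (uNil ι r)) l' → wd s l = wd s l'

theorem Rel.curve {ι : Type} [Finite ι] {r : ℕ} {A : Type} [Ring A] [Algebra ℝ A] {e : ι → A}
    (h : Nil e r) : Rel ι r (lu h) := by
  intro l l' hl
  apply Units.ext
  ext k
  rw [← La_coeff h, ← La_coeff h, hl]

theorem wd_map {ι : Type} {S S' : Type} [Monoid S] [Monoid S'] (φ : S →* S') (s : ι → ℝ → S)
    (l : List (ι × ℝ)) : wd (fun i x => φ (s i x)) l = φ (wd s l) := by
  unfold wd
  rw [map_list_prod, List.map_map]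
  rfl

theorem Rel.map {ι : Type} [Finite ι] {r : ℕ} {S S' : Type} [Monoid S] [Monoid S']
    {s : ι → ℝ → S} (hs : Rel ι r s) (φ : S →* S') : Rel ι r (fun i x => φ (s i x)) := by
  intro l l' hl
  rw [wd_map, wd_map, hs l l' hl]

theorem Rel.of_map {ι : Type} [Finite ι] {r : ℕ} {S S' : Type} [Monoid S] [Monoid S']
    {s : ι → ℝ → S} (φ : S →* S') (hφ : Function.Injective φ)
    (hs : Rel ι r (fun i x => φ (s i x))) : Rel ι r s := by
  intro l l' hl
  apply hφ
  rw [← wd_map, ← wd_map, hs l l' hl]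

/-- evaluation at `1` -/
noncomputable def ev1 (B : Type) [Ring B] : B[X] →+* B :=
  Polynomial.eval₂RingHom' (RingHom.id B) 1 fun _ => Commute.one_right _

/-- the unit `exp (x e_i)` -/
noncomputable def xu {A : Type} [Ring A] [Algebra ℝ A] {ι : Type} {e : ι → A} {r : ℕ}
    (h : Nil e r) (i : ι) (x : ℝ) : Aˣ := Units.map (ev1 A : A[X] →* A) (lu h i x)

theorem xu_val {A : Type} [Ring A] [Algebra ℝ A] {ι : Type} {e : ι → A} {r : ℕ}
    (h : Nil e r) (i : ι) (x : ℝ) :
    ((xu h i x : Aˣ) : A) = ∑ k ∈ Finset.range (r + 1), (k.factorial : ℝ)⁻¹ • (x • e i) ^ k := by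
  show ev1 A (lt e r i x) = _
  unfold lt rexp
  rw [map_sum]
  refine Finset.sum_congr rfl fun k _ => ?_
  rw [mon_pow]
  unfold ev1
  rw [smul_monomial]
  show eval₂ (RingHom.id A) 1 (monomial k _) = _
  rw [eval₂_monomial, one_pow, mul_one, RingHom.id_apply, smul_pow]

theorem Rel.units {ι : Type} [Finite ι] {r : ℕ} {A : Type} [Ring A] [Algebra ℝ A] {e : ι → A}
    (h : Nil e r) : Rel ι r (xu h) := (Rel.curve h).map (Units.map (ev1 A : A[X] →* A))

theorem lt_scale {A : Type} [Ring A] [Algebra ℝ A] {ι ι' : Type} (e : ι → A) (r : ℕ) (σ : ι' → ι)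
    (R : ι' → ℝ) (i : ι') (x : ℝ) : lt (fun i => R i • e (σ i)) r i x = lt e r (σ i) (R i * x) := by
  unfold lt mon
  rw [smul_smul, mul_comm x]

theorem Nil.scale {A : Type} [Ring A] [Algebra ℝ A] {ι ι' : Type} {e : ι → A} {r : ℕ}
    (h : Nil e r) (σ : ι' → ι) (R : ι' → ℝ) : Nil (fun i => R i • e (σ i)) r := by
  intro w hw
  have key : ∀ w : List ι', (w.map fun i => R i • e (σ i)).prod =
      (w.map R).prod • ((w.map σ).map e).prod := by
    intro w
    induction w with
    | nil => simp
    | cons i w ih =>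
      simp only [List.map_cons, List.prod_cons, ih, smul_mul_assoc, mul_smul_comm, smul_smul]
      rw [mul_comm]
  rw [key, h _ (by simpa using hw), smul_zero]

/-- Rescaling and reindexing of letters. -/
theorem Rel.scale {ι ι' : Type} [Finite ι] [Finite ι'] {r : ℕ} {S : Type} [Monoid S]
    {s : ι → ℝ → S} (hs : Rel ι r s) (σ : ι' → ι) (R : ι' → ℝ) :
    Rel ι' r (fun i x => s (σ i) (R i * x)) := by
  intro l l' hl
  have h1 := Rel.curve ((uNil ι r).scale σ R) l l' hl
  have h2 : ∀ {T : Type} [Monoid T] (t : ι → ℝ → T) (l : List (ι' × ℝ)),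
      wd (fun i x => t (σ i) (R i * x)) l = wd t (l.map fun q => (σ q.1, R q.1 * q.2)) := by
    intro T _ t l
    unfold wd
    rw [List.map_map]
    rfl
  have h3 : (lu ((uNil ι r).scale σ R)) = fun i x => lu (uNil ι r) (σ i) (R i * x) := by
    funext i x
    apply Units.ext
    exact lt_scale _ _ _ _ _ _
  rw [h3, h2, h2] at h1
  rw [h2, h2]
  exact hs _ _ h1

theorem wd_append {ι : Type} {S : Type} [Monoid S] (s : ι → ℝ → S) (l l' : List (ι × ℝ)) :
    wd s (l ++ l') = wd s l * wd s l' := by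
  simp [wd]

theorem wd_single {ι : Type} {S : Type} [Monoid S] (s : ι → ℝ → S) (i : ι) (x : ℝ) :
    wd s [(i, x)] = s i x := by
  simp [wd]

theorem Rel.add {ι : Type} [Finite ι] {r : ℕ} {S : Type} [Monoid S]
    {s : ι → ℝ → S} (hs : Rel ι r s) (i : ι) (x y : ℝ) : s i (x + y) = s i x * s i y := by
  have := hs [(i, x + y)] [(i, x), (i, y)] (by simp [wd, lu_add])
  simpa [wd] using this

theorem Rel.zero {ι : Type} [Finite ι] {r : ℕ} {S : Type} [Monoid S]
    {s : ι → ℝ → S} (hs : Rel ι r s) (i : ι) : s i 0 = 1 := by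
  have := hs [(i, 0)] [] (by simp [wd, lu_zero])
  simpa [wd] using this

/-- product of `m` letters in a monoid -/
def prS {ι : Type} {S : Type} [Monoid S] (s : ι → ℝ → S) {m : ℕ} (J : Fin m → ι)
    (x : Fin m → ℝ) : S := (List.ofFn fun t => s (J t) (x t)).prod

theorem prS_eq_wd {ι : Type} {S : Type} [Monoid S] (s : ι → ℝ → S) {m : ℕ} (J : Fin m → ι)
    (x : Fin m → ℝ) : prS s J x = wd s (List.ofFn fun t => (J t, x t)) := by
  unfold prS wd
  rw [List.map_ofFn]
  rfl

theorem pr_eq_wd {A : Type} [Ring A] [Algebra ℝ A] {ι : Type} {e : ι → A} {r : ℕ}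
    (h : Nil e r) {m : ℕ} (J : Fin m → ι) (x : Fin m → ℝ) :
    pr h J x = wd (lu h) (List.ofFn fun t => (J t, x t)) := prS_eq_wd (lu h) J x

/-- The packing bound for every family of letters satisfying the universal relations. -/
theorem packS (ι : Type) [Finite ι] (r : ℕ) : ∃ (n : ℕ) (J : Fin n → ι), ∀ (ε : ENNReal), ε ≠ 0 →
    ∀ (c : ℕ) (C : ℝ), ∃ N0 : ℕ, ∀ (S : Type) [Monoid S] (s : ι → ℝ → S), Rel ι r s →
      ∀ (N : ℕ) (p : Fin N → (Fin c → ι) × (Fin c → ℝ))
      (X : Fin N → Set (Fin n → ℝ)), (∀ l t, |(p l).2 t| ≤ C) → (∀ l, MeasurableSet (X l)) →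
      (∀ l, X l ⊆ Icc (fun _ => -1) (fun _ => 1)) → (∀ l, ε ≤ volume (X l)) →
      (∀ l l', l ≠ l' → ∀ x ∈ X l, ∀ x' ∈ X l',
        prS s (p l).1 (p l).2 * prS s J x ≠ prS s (p l').1 (p l').2 * prS s J x') → N ≤ N0 := by
  obtain ⟨n, J, H⟩ := pack (uNil ι r)
  refine ⟨n, J, fun ε hε c C => ?_⟩
  obtain ⟨N0, hN0⟩ := H ε hε c C
  refine ⟨N0, fun S _ s hs N p X h1 h2 h3 h4 h5 => hN0 N p X h1 h2 h3 h4 ?_⟩
  intro l l' hll x hx x' hx' heq
  refine h5 l l' hll x hx x' hx' ?_
  rw [prS_eq_wd, prS_eq_wd, prS_eq_wd, prS_eq_wd, ← wd_append, ← wd_append]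
  refine hs _ _ ?_
  rw [wd_append, wd_append, ← pr_eq_wd, ← pr_eq_wd, ← pr_eq_wd, ← pr_eq_wd]
  exact heq

end Vale.Agent.P188.H329
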